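import Vale.Agent.P116.Pack.AreaTools

/-!
P116 Pack: crude distortion at infinity from the area theorem: `‖f z - z‖ ≤ 64 R² / ‖z‖` for
`‖z‖ ≥ 4 R`, and `AreaBoundStmt`.
-/

noncomputable section

namespace Vale.Agent.P116.Pack

open Set Filter Metric MeasureTheory Function Complex
open scoped Topology ComplexConjugate Real

/-- A normalised map is close to the identity far out, with constants depending on `R` only. -/
lemma IsExt.norm_sub_id_le {U : Set ℂ} {f : ℂ → ℂ} {R : ℝ} (hR : 0 < R) (hf : IsExt U f)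
    (hU : Uᶜ ⊆ closedBall 0 R) {z : ℂ} (hz : 4 * R ≤ ‖z‖) :
    ‖f z - z‖ ≤ 64 * R ^ 2 / ‖z‖ := by
  obtain ⟨g, hg, hg0, hfg⟩ := exists_expansion hR hf hU
  set a := 2 * R with ha
  have hap : 0 < a := by positivity
  have haR : R < a := by linarith
  have hπ := Real.pi_pos
  set g' := deriv g with hg'
  have hg'd : DifferentiableOn ℂ g' (ball 0 R⁻¹) := hg.deriv isOpen_ball
  have hsmall : ∀ {w : ℂ}, R < ‖w‖ → w⁻¹ ∈ ball (0 : ℂ) R⁻¹ := fun {w} hw => by
    rw [mem_ball_zero_iff, norm_inv]; exact inv_strictAnti₀ hR hw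
  have hmem : ∀ {w : ℂ}, R < ‖w‖ → w ∈ U := fun {w} hw => by_contra fun h =>
    absurd (mem_closedBall_zero_iff.1 (hU h)) (not_le.2 hw)
  have hne0 : ∀ {w : ℂ}, R < ‖w‖ → w ≠ 0 := fun {w} hw => norm_pos_iff.1 (hR.trans hw)
  set h : ℂ → ℂ := fun ζ => -(g' ζ * ζ ^ 2) with hh
  have hhd : DifferentiableOn ℂ h (ball 0 R⁻¹) :=
    (hg'd.mul (differentiable_id.pow 2).differentiableOn).neg
  set φ : ℂ → ℂ := fun w => h w⁻¹ with hφ
  have hV : IsOpen {w : ℂ | R < ‖w‖} := isOpen_lt continuous_const continuous_norm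
  have hφd : DifferentiableOn ℂ φ {w | R < ‖w‖} :=
    hhd.comp (fun w hw => (differentiableAt_inv (hne0 hw)).differentiableWithinAt)
      fun w hw => hsmall hw
  have hderiv : ∀ w : ℂ, R < ‖w‖ → HasDerivAt f (1 + φ w) w := fun w hw => by
    have h1 : HasDerivAt g (g' w⁻¹) w⁻¹ :=
      (hg.differentiableAt (isOpen_ball.mem_nhds (hsmall hw))).hasDerivAt
    have h2 := (hasDerivAt_id' w).add (h1.comp w (hasDerivAt_inv (hne0 hw)))
    refine (h2.congr_of_eventuallyEq ?_).congr_deriv ?_
    · filter_upwards [hV.mem_nhds hw] with v hv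
      simp [Function.comp_apply, hfg v hv]
    · simp [hφ, hh]
  have hA : ∀ T : ℝ, cAnn a T ⊆ {w | R < ‖w‖} := fun T w hw =>
    haR.trans_le (mem_cAnn.1 hw).1
  have hφc : ∀ T : ℝ, ContinuousOn φ (cAnn a T) := fun T => hφd.continuousOn.mono (hA T)
  have hint2 : ∀ T : ℝ, IntegrableOn (fun w => ‖φ w‖ ^ 2) (cAnn a T) := fun T =>
    ((hφc T).norm.pow 2).integrableOn_compact (isCompact_cAnn a T)
  set E : ℝ → ℝ := fun T => ∫ w in cAnn a T, ‖φ w‖ ^ 2 with hE
  have hdisc : ∀ {t : ℝ}, R < t → ∀ {k : ℂ → ℂ}, DifferentiableOn ℂ k (ball 0 R⁻¹) →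
      Real.circleAverage k 0 t⁻¹ = k 0 := fun {t} ht {k} hk => by
    have h1 : |t⁻¹| < R⁻¹ := by
      rw [abs_of_pos (inv_pos.2 (hR.trans ht))]; exact inv_strictAnti₀ hR ht
    exact ((hk.mono (closedBall_subset_ball h1)).diffContOnCl_ball subset_rfl).circleAverage
  have havg : ∀ T : ℝ, ∫ w in cAnn a T, φ w = 0 := fun T => by
    rw [setIntegral_cAnn hap (hφc T)]
    refine setIntegral_eq_zero_of_forall_eq_zero fun t ht => ?_
    rw [hφ, circleAverage_comp_inv, hdisc (haR.trans_le ht.1) hhd]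
    simp [hh]
  have henergy : ∀ T M : ℝ, a ≤ T → 0 ≤ M → (∀ w : ℂ, ‖w‖ = T → ‖f w‖ ≤ M) →
      E T ≤ π * M ^ 2 - π * T ^ 2 + π * a ^ 2 := by
    intro T M hT hM hb
    have hAU : cAnn a T ⊆ U := fun w hw => hmem (hA T hw)
    have himg : f '' cAnn a T ⊆ closedBall 0 M := by
      rintro _ ⟨w, hw, rfl⟩
      exact mem_closedBall_zero_iff.2 ((hf.covers (hap.le.trans hT) hM
        (fun v hv => hmem (haR.trans_le (hT.trans hv))) hb).2 w (hAU hw) (mem_cAnn.1 hw).2)
    have hvol : volume.real (f '' cAnn a T) ≤ π * M ^ 2 := by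
      rw [← volume_real_closedBall 0 hM]
      exact measureReal_mono himg (isCompact_closedBall _ _).measure_lt_top.ne
    rw [← setIntegral_norm_deriv_sq (isCompact_cAnn a T).measurableSet
      (fun w hw => (hderiv w (hA T hw)).differentiableAt) (hf.injOn.mono hAU)] at hvol
    have hexp : ∫ w in cAnn a T, ‖deriv f w‖ ^ 2 =
        ∫ w in cAnn a T, ((1 + 2 * (φ w).re) + ‖φ w‖ ^ 2) := by
      refine setIntegral_congr_fun (isCompact_cAnn a T).measurableSet fun w hw => ?_
      rw [(hderiv w (hA T hw)).deriv, Complex.sq_norm, Complex.sq_norm, Complex.normSq_add]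
      simp
      ring
    have hiφ : IntegrableOn φ (cAnn a T) := (hφc T).integrableOn_compact (isCompact_cAnn a T)
    have hre : ∫ w in cAnn a T, (φ w).re = 0 := by
      have h1 := integral_re hiφ
      simp only [RCLike.re_to_complex] at h1
      rw [h1, havg]
      simp
    have hiC : IntegrableOn (fun _ : ℂ => (1 : ℝ)) (cAnn a T) :=
      integrableOn_const (isCompact_cAnn a T).measure_lt_top.ne
    have hiR : IntegrableOn (fun w => 2 * (φ w).re) (cAnn a T) :=
      ((Complex.continuous_re.comp_continuousOn (hφc T)).integrableOn_compact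
        (isCompact_cAnn a T)).const_mul 2
    have hsum : IntegrableOn (fun w => 1 + 2 * (φ w).re) (cAnn a T) := hiC.add hiR
    rw [hexp, integral_add hsum (hint2 T), integral_add hiC hiR, integral_const_mul,
      hre, setIntegral_const, volume_real_cAnn hap.le hT] at hvol
    simp only [hE]
    simp at hvol
    linarith
  set x := ‖g' 0‖ with hx
  have hx0 : 0 ≤ x := norm_nonneg _
  have hEbd : ∀ T : ℝ, E T ≤ π * (4 * a ^ 2 + 2 * x) := by
    intro T
    have hg1 : HasDerivAt g (g' 0) 0 :=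
      (hg.differentiableAt (isOpen_ball.mem_nhds (mem_ball_self (inv_pos.2 hR)))).hasDerivAt
    obtain ⟨δ, hδ, hδ'⟩ := Metric.eventually_nhds_iff.1
      (hg1.isLittleO.def (show (0 : ℝ) < a ^ 2 by positivity))
    set T' := max (max T a) (max ((x + a ^ 2) / a) (2 / δ)) with hT'
    have h1 : T ≤ T' := (le_max_left _ _).trans (le_max_left _ _)
    have h2 : a ≤ T' := (le_max_right _ _).trans (le_max_left _ _)
    have h3 : (x + a ^ 2) / a ≤ T' := (le_max_left _ _).trans (le_max_right _ _)
    have h4 : 2 / δ ≤ T' := (le_max_right _ _).trans (le_max_right _ _)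
    have hTp : 0 < T' := hap.trans_le h2
    set c := x + a ^ 2 with hc
    have hb : ∀ w : ℂ, ‖w‖ = T' → ‖f w‖ ≤ T' + c / T' := by
      intro w hw
      have hw1 : R < ‖w‖ := by rw [hw]; linarith
      have hw2 : dist w⁻¹ 0 < δ := by
        rw [dist_zero_right, norm_inv, hw, inv_lt_comm₀ hTp hδ]
        have : δ⁻¹ < 2 / δ := by rw [div_eq_mul_inv]; linarith [inv_pos.2 hδ]
        linarith
      have h5 := hδ' hw2
      simp only [hg0, sub_zero, smul_eq_mul] at h5
      rw [hfg w hw1]
      refine (norm_add_le _ _).trans ?_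
      rw [hw]
      gcongr
      have h6 := norm_le_norm_add_norm_sub' (g w⁻¹) (w⁻¹ * g' 0)
      rw [norm_mul, norm_inv, hw] at h6
      rw [norm_inv, hw] at h5
      have h7 : T'⁻¹ * x + a ^ 2 * T'⁻¹ = c / T' := by rw [hc]; ring
      linarith
    have hM := henergy T' (T' + c / T') h2 (by positivity) hb
    have h8 : c / T' ≤ a := by
      rw [div_le_iff₀ hTp]
      rw [div_le_iff₀ hap] at h3
      linarith
    have h9 : 0 ≤ c / T' := by positivity
    have h10 : (T' + c / T') ^ 2 = T' ^ 2 + 2 * c + (c / T') ^ 2 := by field_simp; ring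
    have h11 : (c / T') ^ 2 ≤ a ^ 2 := pow_le_pow_left₀ h9 h8 2
    refine le_trans (le_trans (setIntegral_mono_set (hint2 T')
      (Eventually.of_forall fun w => by positivity) (cAnn_mono h1).eventuallyLE) hM) ?_
    rw [h10, hc]
    nlinarith [mul_le_mul_of_nonneg_left h11 hπ.le]
  have hxbd : x ≤ 6 * a ^ 2 := by
    set A := cAnn a (2 * a) with hAdef
    set k : ℂ → ℂ := fun w => φ w * (w ^ 2 / (‖w‖ : ℂ) ^ 2) with hk
    have hkc : ContinuousOn k A := by
      refine (hφc _).mul ((continuousOn_id.pow 2).div ((by fun_prop :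
        Continuous fun w : ℂ => (‖w‖ : ℂ) ^ 2)).continuousOn fun w hw => ?_)
      have h1 : ‖w‖ ≠ 0 := (hap.trans_le (mem_cAnn.1 hw).1).ne'
      simp [h1]
    have hk1 : ∫ w in A, k w = -(2 * π * Real.log 2 : ℝ) * g' 0 := by
      rw [hAdef, setIntegral_cAnn hap hkc]
      have hcongr : EqOn (fun t : ℝ => ((2 * π * t : ℝ) : ℂ) * Real.circleAverage k 0 t)
          (fun t : ℝ => ((1 / t : ℝ) : ℂ) * (-(2 * π : ℝ) * g' 0)) (Icc a (2 * a)) := by
        intro t ht
        have ht0 : 0 < t := hap.trans_le ht.1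
        have h1 : Set.EqOn k (fun w => (-((t : ℂ) ^ 2)⁻¹) • g' w⁻¹) (sphere 0 |t|) := by
          intro w hw
          rw [mem_sphere_zero_iff_norm, abs_of_pos ht0] at hw
          have hw0 : w ≠ 0 := norm_pos_iff.1 (hw ▸ ht0)
          simp only [hk, hφ, hh, hw, smul_eq_mul]
          field_simp
        simp only
        rw [Real.circleAverage_congr_sphere h1, Real.circleAverage_fun_smul,
          circleAverage_comp_inv, hdisc (haR.trans_le ht.1) hg'd, smul_eq_mul]
        push_cast
        field_simp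
      rw [setIntegral_congr_fun measurableSet_Icc hcongr, integral_mul_const, integral_complex_ofReal,
        integral_Icc_eq_integral_Ioc, ← intervalIntegral.integral_of_le (by linarith),
        integral_one_div_of_pos hap (by linarith), show 2 * a / a = 2 by field_simp]
      push_cast
      ring
    have hk2 : ‖∫ w in A, k w‖ ≤ ∫ w in A, (‖φ w‖ ^ 2 / 8 + 2) := by
      refine (norm_integral_le_integral_norm _).trans (setIntegral_mono_on
        (hkc.norm.integrableOn_compact (isCompact_cAnn _ _))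
        (((hint2 _).div_const 8).add (integrableOn_const (isCompact_cAnn _ _).measure_lt_top.ne))
        (isCompact_cAnn _ _).measurableSet fun w hw => ?_)
      have h1 : ‖w‖ ≠ 0 := (hap.trans_le (mem_cAnn.1 hw).1).ne'
      rw [hk, norm_mul, norm_div, norm_pow, norm_pow, Complex.norm_real, Real.norm_eq_abs,
        abs_norm, div_self (pow_ne_zero 2 h1), mul_one]
      nlinarith [sq_nonneg (‖φ w‖ - 4)]
    rw [hk1, norm_mul, norm_neg, Complex.norm_real, Real.norm_eq_abs, abs_of_pos (by
      have := Real.log_pos (show (1 : ℝ) < 2 by norm_num); positivity),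
      integral_add ((hint2 _).div_const 8)
        (integrableOn_const (isCompact_cAnn _ _).measure_lt_top.ne),
      integral_div, setIntegral_const, volume_real_cAnn hap.le (by linarith), smul_eq_mul,
      ← hx] at hk2
    have h3 := hEbd (2 * a)
    simp only [hE] at h3
    have h4 : 2 * π * (0.693 : ℝ) * x ≤ 2 * π * Real.log 2 * x := by
      gcongr
      linarith [Real.log_two_gt_d9]
    have h5 : π * x * (1.386 - 0.25) ≤ π * a ^ 2 * 6.5 := by linarith [hk2, h3, h4]
    have h6 : x * (1.386 - 0.25) ≤ a ^ 2 * 6.5 := by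
      refine le_of_mul_le_mul_left (a := π) ?_ hπ
      linarith
    nlinarith [sq_nonneg a]
  have hφbd : ∀ z₀ : ℂ, ‖z₀‖ = 2 * a → ‖φ z₀‖ ≤ 4 := by
    intro z₀ hz₀
    set ψ : ℂ → ℂ := fun v => φ (z₀ + v) with hψ
    have hsub : ∀ v ∈ closedBall (0 : ℂ) a, z₀ + v ∈ {w : ℂ | R < ‖w‖} := fun v hv => by
      show R < ‖z₀ + v‖
      have := norm_sub_norm_le z₀ (-v)
      rw [norm_neg, sub_neg_eq_add] at this
      linarith [mem_closedBall_zero_iff.1 hv]
    have hψd : DifferentiableOn ℂ ψ (closedBall 0 a) :=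
      hφd.comp (differentiable_id.const_add z₀).differentiableOn hsub
    have h1 : ∫ v in closedBall (0 : ℂ) a, ψ v = (π * a ^ 2 : ℝ) * φ z₀ := by
      rw [P142.Area.setIntegral_ball_polar hψd.continuousOn]
      have hcongr : EqOn (fun r : ℝ => ((2 * π * r : ℝ) : ℂ) * Real.circleAverage ψ 0 r)
          (fun r : ℝ => ((r : ℝ) : ℂ) * ((2 * π : ℝ) * φ z₀)) (Ioc 0 a) := by
        intro r hr
        have hr' : |r| ≤ a := by rw [abs_of_pos hr.1]; exact hr.2
        simp only
        rw [((hψd.mono (closedBall_subset_closedBall hr')).diffContOnCl_ball subset_rfl).circleAverage]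
        simp [hψ]
        ring
      rw [setIntegral_congr_fun measurableSet_Ioc hcongr, integral_mul_const,
        integral_complex_ofReal, ← intervalIntegral.integral_of_le hap.le, integral_id]
      push_cast
      ring
    have hball : closedBall z₀ a ⊆ cAnn a (3 * a) := fun w hw => by
      rw [mem_cAnn]
      rw [mem_closedBall, dist_eq_norm] at hw
      constructor <;> linarith [norm_sub_norm_le z₀ w, norm_sub_rev z₀ w,
        norm_le_norm_add_norm_sub' w z₀]
    have h2 : ∫ v in closedBall (0 : ℂ) a, ‖ψ v‖ = ∫ w in closedBall z₀ a, ‖φ w‖ := by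
      have h3 := (measurePreserving_add_left (volume : Measure ℂ) z₀).setIntegral_preimage_emb
        (measurableEmbedding_addLeft z₀) (fun w => ‖φ w‖) (closedBall z₀ a)
      rwa [preimage_add_closedBall, sub_self] at h3
    have h4 : ∫ w in closedBall z₀ a, ‖φ w‖ ≤ 4 * π * a ^ 2 := by
      have hi2 : IntegrableOn (fun w => ‖φ w‖ ^ 2) (closedBall z₀ a) := (hint2 _).mono_set hball
      have hic : IntegrableOn (fun _ : ℂ => (2 : ℝ)) (closedBall z₀ a) :=
        integrableOn_const (isCompact_closedBall _ _).measure_lt_top.ne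
      have hi8 : IntegrableOn (fun w => ‖φ w‖ ^ 2 / 8 + 2) (closedBall z₀ a) :=
        (hi2.div_const 8).fun_add hic
      refine (setIntegral_mono_on (g := fun w => ‖φ w‖ ^ 2 / 8 + 2)
        (((hφc _).mono hball).norm.integrableOn_compact (isCompact_closedBall _ _))
        hi8 measurableSet_closedBall fun w _ => ?_).trans ?_
      · nlinarith [sq_nonneg (‖φ w‖ - 4)]
      · rw [integral_add (hi2.div_const 8) hic, integral_div, setIntegral_const,
          volume_real_closedBall _ hap.le, smul_eq_mul]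
        have h5 := (setIntegral_mono_set (hint2 (3 * a))
          (Eventually.of_forall fun w => by positivity) hball.eventuallyLE).trans (hEbd (3 * a))
        nlinarith [mul_le_mul_of_nonneg_left hxbd hπ.le]
    have h5 := norm_integral_le_integral_norm (μ := volume.restrict (closedBall (0 : ℂ) a)) ψ
    rw [h1, norm_mul, Complex.norm_real, Real.norm_eq_abs, abs_of_pos (by positivity), h2] at h5
    have h7 : π * a ^ 2 * ‖φ z₀‖ ≤ π * a ^ 2 * 4 := by linarith
    exact le_of_mul_le_mul_left h7 (by positivity)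
  have hsub : closedBall (0 : ℂ) (2 * a)⁻¹ ⊆ ball 0 R⁻¹ :=
    closedBall_subset_ball (inv_strictAnti₀ hR (by linarith))
  have hg'bd : ∀ ζ ∈ closedBall (0 : ℂ) (2 * a)⁻¹, ‖g' ζ‖ ≤ 16 * a ^ 2 := by
    intro ζ hζ
    refine Complex.norm_le_of_forall_mem_frontier_norm_le isBounded_ball
      ((hg'd.mono hsub).diffContOnCl_ball subset_rfl) (fun v hv => ?_) (z := ζ) ?_
    · rw [frontier_ball _ (by positivity), mem_sphere_zero_iff_norm] at hv
      have h1 := hφbd v⁻¹ (by rw [norm_inv, hv, inv_inv])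
      simp only [hφ, hh, inv_inv, norm_neg, norm_mul, norm_pow, hv] at h1
      rw [inv_pow, ← div_eq_mul_inv, div_le_iff₀ (by positivity)] at h1
      linarith
    · rwa [closure_ball _ (by positivity)]
  have hw : R < ‖z‖ := by linarith
  have hzpos : 0 < ‖z‖ := hR.trans hw
  have hζ : z⁻¹ ∈ closedBall (0 : ℂ) (2 * a)⁻¹ := by
    rw [mem_closedBall_zero_iff, norm_inv]
    exact inv_anti₀ (by positivity) (by linarith)
  have h1 := (convex_closedBall (0 : ℂ) (2 * a)⁻¹).norm_image_sub_le_of_norm_deriv_le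
    (fun w hw => hg.differentiableAt (isOpen_ball.mem_nhds (hsub hw))) hg'bd
    (mem_closedBall_self (by positivity)) hζ
  rw [hg0, sub_zero, sub_zero, norm_inv, ← div_eq_mul_inv] at h1
  rw [hfg z hw, add_sub_cancel_left]
  exact h1.trans_eq (by rw [ha]; ring)

/-- `AreaBoundStmt`. -/
theorem areaBound : AreaBoundStmt := by
  refine ⟨20, by norm_num, fun U f R hR hf hU => ?_⟩
  have hmem : ∀ {w : ℂ}, R < ‖w‖ → w ∈ U := fun {w} hw => by_contra fun h =>
    absurd (mem_closedBall_zero_iff.1 (hU h)) (not_le.2 hw)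
  have hfar : ∀ z : ℂ, 4 * R ≤ ‖z‖ → ‖f z‖ ≤ ‖z‖ + 16 * R := by
    intro z hz
    have h1 := hf.norm_sub_id_le hR hU hz
    have h2 : 64 * R ^ 2 / ‖z‖ ≤ 16 * R := by
      rw [div_le_iff₀ (by linarith)]; nlinarith
    linarith [norm_le_norm_add_norm_sub' (f z) z]
  obtain ⟨hcov, hin⟩ := hf.covers (T := 4 * R) (M := 20 * R) (by positivity) (by positivity)
    (fun z hz => hmem (by linarith)) fun z hz => by linarith [hfar z hz.ge]
  refine ⟨fun w hw => mem_closedBall_zero_iff.2 ?_, fun z hz => ?_⟩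
  · by_contra h
    obtain ⟨z, hz, rfl⟩ := hcov w (not_le.1 h)
    exact hw ⟨z, hmem (by linarith), rfl⟩
  · rcases le_total ‖z‖ (4 * R) with h | h
    · linarith [hin z hz h, norm_nonneg z]
    · linarith [hfar z h]

end Vale.Agent.P116.Pack
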