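import Vale.Agent.P116.Pack.Basic
import Vale.Agent.P142.Area

/-!
P116 Pack: tools for the area bound: polar coordinates on annuli, the area of an injective
holomorphic image, exterior expansions and the covering of the exterior by the image.
-/

noncomputable section

namespace Vale.Agent.P116.Pack

open Set Filter Metric MeasureTheory Function Complex
open scoped Topology ComplexConjugate Real

/-- The closed annulus `a ≤ |z| ≤ T`. -/
def cAnn (a T : ℝ) : Set ℂ := closedBall 0 T \ ball 0 a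

lemma mem_cAnn {a T : ℝ} {z : ℂ} : z ∈ cAnn a T ↔ a ≤ ‖z‖ ∧ ‖z‖ ≤ T := by
  simp [cAnn, and_comm]

lemma isCompact_cAnn (a T : ℝ) : IsCompact (cAnn a T) :=
  (isCompact_closedBall 0 T).diff isOpen_ball

lemma cAnn_mono {a T T' : ℝ} (h : T ≤ T') : cAnn a T ⊆ cAnn a T' := fun z hz =>
  mem_cAnn.2 ⟨(mem_cAnn.1 hz).1, (mem_cAnn.1 hz).2.trans h⟩

lemma volume_real_closedBall (c : ℂ) {r : ℝ} (hr : 0 ≤ r) :
    volume.real (closedBall c r) = π * r ^ 2 := by
  rw [Measure.real, Complex.volume_closedBall]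
  simp [ENNReal.toReal_ofReal hr]
  ring

lemma volume_real_cAnn {a T : ℝ} (ha : 0 ≤ a) (hT : a ≤ T) :
    volume.real (cAnn a T) = π * T ^ 2 - π * a ^ 2 := by
  have hb : volume.real (ball (0 : ℂ) a) = π * a ^ 2 := by
    rw [Measure.real, Complex.volume_ball]
    simp [ENNReal.toReal_ofReal ha]
    ring
  rw [cAnn, measureReal_sdiff ((ball_subset_closedBall).trans (closedBall_subset_closedBall hT))
    measurableSet_ball (isCompact_closedBall _ _).measure_lt_top.ne,
    volume_real_closedBall 0 (ha.trans hT), hb]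

lemma polar_eq_circleMap (r θ : ℝ) : Complex.polarCoord.symm (r, θ) = circleMap 0 r θ := by
  rw [Complex.polarCoord_symm_apply, circleMap, zero_add, Complex.exp_mul_I]
  simp [Complex.ofReal_cos, Complex.ofReal_sin]

/-- Polar coordinates on an annulus. -/
lemma setIntegral_cAnn {a T : ℝ} (ha : 0 < a) {G : ℂ → ℂ} (hG : ContinuousOn G (cAnn a T)) :
    ∫ z in cAnn a T, G z =
      ∫ r in Icc a T, ((2 * π * r : ℝ) : ℂ) * Real.circleAverage G 0 r := by
  rw [← MeasureTheory.integral_indicator (isCompact_cAnn a T).measurableSet,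
    ← Complex.integral_comp_polarCoord_symm, polarCoord_target]
  set H : ℝ × ℝ → ℂ := fun p => p.1 • G (Complex.polarCoord.symm p) with hH
  have hnorm : ∀ p : ℝ × ℝ, 0 < p.1 → ‖Complex.polarCoord.symm p‖ = p.1 := by
    intro p hp
    rw [Complex.norm_polarCoord_symm, abs_of_pos hp]
  have hset : Set.EqOn (fun p => p.1 • (cAnn a T).indicator G (Complex.polarCoord.symm p))
      ((Icc a T ×ˢ Ioo (-π) π).indicator H) (Ioi (0 : ℝ) ×ˢ Ioo (-π) π) := by
    rintro p ⟨hp1, hp2⟩
    by_cases h : p.1 ∈ Icc a T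
    · rw [indicator_of_mem (show p ∈ Icc a T ×ˢ Ioo (-π) π from ⟨h, hp2⟩)]
      simp only [hH]
      rw [indicator_of_mem (mem_cAnn.2 (by rw [hnorm p hp1]; exact h))]
    · rw [indicator_of_notMem (fun hh : p ∈ Icc a T ×ˢ Ioo (-π) π => h hh.1)]
      simp only
      rw [indicator_of_notMem (fun hh => h (by
        have := mem_cAnn.1 hh; rwa [hnorm p hp1] at this)), smul_zero]
  rw [setIntegral_congr_fun (measurableSet_Ioi.prod measurableSet_Ioo) hset,
    setIntegral_indicator (measurableSet_Icc.prod measurableSet_Ioo),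
    inter_eq_self_of_subset_right (Set.prod_mono (show Icc a T ⊆ Ioi 0 from fun r hr => ha.trans_le hr.1) subset_rfl)]
  have hsym : Continuous fun p : ℝ × ℝ => Complex.polarCoord.symm p := by
    simp only [Complex.polarCoord_symm_apply]
    fun_prop
  have hint : IntegrableOn H (Icc a T ×ˢ Ioo (-π) π) := by
    refine IntegrableOn.mono_set ?_ (Set.prod_mono subset_rfl Ioo_subset_Icc_self)
    refine ContinuousOn.integrableOn_compact (isCompact_Icc.prod isCompact_Icc) ?_
    refine continuous_fst.continuousOn.smul (hG.comp hsym.continuousOn fun p hp => ?_)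
    rw [mem_cAnn, hnorm p (ha.trans_le hp.1.1)]
    exact hp.1
  rw [Measure.volume_eq_prod] at hint ⊢
  rw [setIntegral_prod _ hint]
  refine setIntegral_congr_fun measurableSet_Icc fun r hr => ?_
  have hci : ∫ θ in Ioo (-π) π, G (circleMap 0 r θ) =
      ∫ θ in (0)..(2 * π), G (circleMap 0 r θ) := by
    rw [← integral_Ioc_eq_integral_Ioo,
      ← intervalIntegral.integral_of_le (by linarith [Real.pi_pos])]
    have hper : Function.Periodic (fun θ => G (circleMap 0 r θ)) (2 * π) := fun θ => by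
      simp only [periodic_circleMap (0 : ℂ) r θ]
    have := hper.intervalIntegral_add_eq (-π) 0
    rw [zero_add, show -π + 2 * π = π by ring] at this
    exact this
  rw [Real.circleAverage_def, ← hci]
  simp only [hH]
  rw [integral_smul, Complex.real_smul, Complex.real_smul]
  simp only [polar_eq_circleMap]
  have hpi : (π : ℝ) ≠ 0 := Real.pi_ne_zero
  push_cast
  field_simp

/-- The area of an injective holomorphic image. -/
lemma setIntegral_norm_deriv_sq {f : ℂ → ℂ} {A : Set ℂ} (hA : MeasurableSet A)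
    (hd : ∀ z ∈ A, DifferentiableAt ℂ f z) (hinj : InjOn f A) :
    ∫ z in A, ‖deriv f z‖ ^ 2 = volume.real (f '' A) := by
  have h := integral_image_eq_integral_abs_det_fderiv_smul volume hA
    (fun z hz => ((hd z hz).hasDerivAt.hasFDerivAt.restrictScalars ℝ).hasFDerivWithinAt)
    hinj (fun _ => (1 : ℝ))
  simp only [P142.Area.abs_det_mul, smul_eq_mul, mul_one] at h
  rw [← h]
  simp

/-- A circle average after inversion. -/
lemma circleAverage_comp_inv (g : ℂ → ℂ) (t : ℝ) :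
    Real.circleAverage (fun z => g z⁻¹) 0 t = Real.circleAverage g 0 t⁻¹ := by
  rw [Real.circleAverage_eq_circleAverage_zero_one, ← Real.circleAverage_zero_one_congr_inv,
    eq_comm, Real.circleAverage_eq_circleAverage_zero_one]
  simp [mul_comm]

/-- The expansion at infinity of a normalised map. -/
lemma exists_expansion {U : Set ℂ} {f : ℂ → ℂ} {R : ℝ} (hR : 0 < R) (hf : IsExt U f)
    (hU : Uᶜ ⊆ closedBall 0 R) :
    ∃ g : ℂ → ℂ, DifferentiableOn ℂ g (ball 0 R⁻¹) ∧ g 0 = 0 ∧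
      ∀ z : ℂ, R < ‖z‖ → f z = z + g z⁻¹ := by
  classical
  have hmem : ∀ z : ℂ, R < ‖z‖ → z ∈ U := fun z hz => by_contra fun h =>
    absurd (mem_closedBall_zero_iff.1 (hU h)) (not_le.2 hz)
  set g : ℂ → ℂ := fun ζ => if ζ = 0 then 0 else f ζ⁻¹ - ζ⁻¹ with hg
  refine ⟨g, ?_, by simp [hg], fun z hz => ?_⟩
  · refine (Complex.differentiableOn_compl_singleton_and_continuousAt_iff
      (isOpen_ball.mem_nhds (mem_ball_self (inv_pos.2 hR)))).1 ⟨?_, ?_⟩
    · rintro ζ ⟨hζ, hζ0 : ζ ≠ 0⟩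
      have hn : R < ‖ζ⁻¹‖ := by
        rw [norm_inv]
        exact lt_inv_of_lt_inv₀ (norm_pos_iff.2 hζ0) (mem_ball_zero_iff.1 hζ)
      have hd : DifferentiableAt ℂ (fun w : ℂ => f w⁻¹ - w⁻¹) ζ := by
        have h1 : DifferentiableAt ℂ (fun w : ℂ => w⁻¹) ζ := differentiableAt_inv hζ0
        exact ((hf.diff.differentiableAt (hf.dom.isOpen.mem_nhds (hmem _ hn))).comp ζ h1).sub h1
      refine (hd.congr_of_eventuallyEq ?_).differentiableWithinAt
      filter_upwards [isOpen_ne.mem_nhds hζ0] with w hw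
      simp [hg, show w ≠ 0 from hw]
    · rw [continuousAt_iff_punctured_nhds]
      have h1 : Tendsto (fun ζ : ℂ => ζ⁻¹) (𝓝[≠] 0) (cocompact ℂ) := by
        rw [← cobounded_eq_cocompact]
        exact tendsto_inv₀_nhdsNE_zero
      have h2 := hf.norm_inf.comp h1
      simp only [hg, if_pos rfl]
      refine h2.congr' ?_
      filter_upwards [self_mem_nhdsWithin] with ζ hζ
      simp [Function.comp_apply, show ζ ≠ 0 from hζ]
  · have hz0 : z ≠ 0 := norm_pos_iff.1 (hR.trans hz)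
    simp [hg, inv_eq_zero, hz0]

lemma isPreconnected_ext (M : ℝ) (hM : 0 ≤ M) : IsPreconnected {w : ℂ | M < ‖w‖} := by
  have hsph : IsPreconnected (sphere (0 : ℂ) 1) :=
    isPreconnected_sphere (by rw [Complex.rank_real_complex]; norm_num) 0 1
  have himg : {w : ℂ | M < ‖w‖} =
      (fun p : ℝ × ℂ => (p.1 : ℂ) * p.2) '' (Ioi M ×ˢ sphere (0 : ℂ) 1) := by
    ext w
    constructor
    · intro (hw : M < ‖w‖)
      have h0 : (‖w‖ : ℂ) ≠ 0 := by exact_mod_cast (hM.trans_lt hw).ne'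
      refine ⟨(‖w‖, w / (‖w‖ : ℂ)), ⟨hw, ?_⟩, by field_simp⟩
      rw [mem_sphere_zero_iff_norm, norm_div, Complex.norm_real, Real.norm_eq_abs, abs_norm,
        div_self (hM.trans_lt hw).ne']
    · rintro ⟨⟨t, u⟩, ⟨ht, hu⟩, rfl⟩
      have ht' : M < t := ht
      show M < ‖(t : ℂ) * u‖
      rw [norm_mul, mem_sphere_zero_iff_norm.1 hu, mul_one, Complex.norm_real, Real.norm_eq_abs,
        abs_of_pos (hM.trans_lt ht')]
      exact ht'
  rw [himg]
  exact (isPreconnected_Ioi.prod hsph).image _ (by fun_prop)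

/-- An injective holomorphic map is open. -/
lemma IsExt.isOpen_image {U : Set ℂ} {f : ℂ → ℂ} (hf : IsExt U f) {V : Set ℂ} (hV : IsOpen V)
    (hVU : V ⊆ U) : IsOpen (f '' V) := by
  refine isOpen_iff_mem_nhds.2 ?_
  rintro _ ⟨z, hz, rfl⟩
  have hne := P142.Area.deriv_ne_zero_of_injOn hf.dom.isOpen hf.diff hf.injOn (hVU hz)
  rw [← ((hf.diff.analyticAt (hf.dom.isOpen.mem_nhds (hVU hz))).hasStrictDerivAt).map_nhds_eq hne]
  exact image_mem_map (hV.mem_nhds hz)

/-- The exterior of a circle covers the exterior of its image bound. -/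
lemma IsExt.covers {U : Set ℂ} {f : ℂ → ℂ} (hf : IsExt U f) {T M : ℝ} (hT : 0 ≤ T) (hM : 0 ≤ M)
    (hU : ∀ z : ℂ, T ≤ ‖z‖ → z ∈ U) (hb : ∀ z : ℂ, ‖z‖ = T → ‖f z‖ ≤ M) :
    (∀ w : ℂ, M < ‖w‖ → ∃ z, T < ‖z‖ ∧ f z = w) ∧ ∀ z ∈ U, ‖z‖ ≤ T → ‖f z‖ ≤ M := by
  set V := {z : ℂ | T < ‖z‖} with hV
  have hVo : IsOpen V := isOpen_lt continuous_const continuous_norm
  set S := f '' V with hS
  have hSo : IsOpen S := hf.isOpen_image hVo fun z hz => hU z (le_of_lt hz)
  have hfar : ∀ B : ℝ, ∃ N : ℝ, T ≤ N ∧ ∀ z : ℂ, N < ‖z‖ → B < ‖f z‖ := by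
    intro B
    have h1 := Metric.tendsto_nhds.1 hf.norm_inf 1 one_pos
    rw [← cobounded_eq_cocompact, ← comap_norm_atTop] at h1
    obtain ⟨N, hN⟩ := eventually_atTop.1 (eventually_comap.1 h1)
    refine ⟨max T (max N (B + 1)), le_max_left _ _, fun z hz => ?_⟩
    simp only [max_lt_iff] at hz
    have h2 := hN ‖z‖ hz.2.1.le z rfl
    rw [dist_zero_right] at h2
    linarith [norm_sub_norm_le z (f z), norm_sub_rev z (f z)]
  have hcov : {w : ℂ | M < ‖w‖} ⊆ S := by
    refine (isPreconnected_ext M hM).subset_of_closure_inter_subset hSo ?_ ?_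
    · obtain ⟨N, hTN, hN⟩ := hfar M
      refine ⟨f ((N + 1 : ℝ) : ℂ), ?_, (N + 1 : ℝ), ?_, rfl⟩
      · refine hN _ ?_
        rw [Complex.norm_of_nonneg (by linarith)]; linarith
      · show T < ‖((N + 1 : ℝ) : ℂ)‖
        rw [Complex.norm_of_nonneg (by linarith)]; linarith
    · rintro w ⟨hwc, hw⟩
      obtain ⟨N, -, hN⟩ := hfar (‖w‖ + 1)
      have hAU : cAnn T N ⊆ U := fun z hz => hU z (mem_cAnn.1 hz).1
      have hcl : IsClosed (f '' cAnn T N) :=
        ((isCompact_cAnn T N).image_of_continuousOn (hf.diff.continuousOn.mono hAU)).isClosed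
      have hwA : w ∈ f '' cAnn T N := by
        rw [← hcl.closure_eq]
        refine mem_closure_iff_nhds.2 fun O hO => ?_
        obtain ⟨v, ⟨hvO, hvb⟩, hvS⟩ := mem_closure_iff_nhds.1 hwc (O ∩ ball w 1)
          (inter_mem hO (ball_mem_nhds _ one_pos))
        obtain ⟨z, hz, rfl⟩ := hvS
        refine ⟨f z, hvO, z, mem_cAnn.2 ⟨le_of_lt hz, ?_⟩, rfl⟩
        by_contra h
        rw [not_le] at h
        have h3 := hN z h
        rw [mem_ball, dist_eq_norm] at hvb
        linarith [norm_le_norm_add_norm_sub' (f z) w]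
      obtain ⟨z, hz, rfl⟩ := hwA
      refine ⟨z, lt_of_le_of_ne (mem_cAnn.1 hz).1 fun h => ?_, rfl⟩
      exact absurd (hb z h.symm) (not_le.2 hw)
  refine ⟨fun w hw => hcov hw, fun z hz hzT => ?_⟩
  by_contra h
  rw [not_le] at h
  obtain ⟨z', hz', he⟩ := hcov h
  have := hf.injOn (hU z' (le_of_lt hz')) hz he
  subst this
  exact absurd hz' (not_lt.2 hzT)

end Vale.Agent.P116.Pack
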