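import Vale.Agent.P116.Pack.Spec

/-!
P116 Pack: elementary facts about components of compact sets and domains with compact complement.
-/

noncomputable section

namespace Vale.Agent.P116.Pack

open Set Filter Metric Function
open scoped Topology

variable {K E E' U : Set ℂ} {p : ℂ}

lemma mem_comps (hp : p ∈ K) : connectedComponentIn K p ∈ comps K := mem_image_of_mem _ hp

lemma comps_eq (hE : E ∈ comps K) (hp : p ∈ E) : connectedComponentIn K p = E := by
  obtain ⟨q, hq, rfl⟩ := hE
  exact (connectedComponentIn_eq hp).symm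

lemma comps_subset (hE : E ∈ comps K) : E ⊆ K := by
  obtain ⟨q, -, rfl⟩ := hE
  exact connectedComponentIn_subset _ _

lemma comps_nonempty (hE : E ∈ comps K) : E.Nonempty := by
  obtain ⟨q, hq, rfl⟩ := hE
  exact ⟨q, mem_connectedComponentIn hq⟩

lemma comps_preconnected (hE : E ∈ comps K) : IsPreconnected E := by
  obtain ⟨q, -, rfl⟩ := hE
  exact isPreconnected_connectedComponentIn

lemma comps_disjoint (hE : E ∈ comps K) (hE' : E' ∈ comps K) (hne : E' ≠ E) : Disjoint E E' :=
  Set.disjoint_left.2 fun _ hp hp' => hne ((comps_eq hE' hp').symm.trans (comps_eq hE hp))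

lemma sUnion_comps (K : Set ℂ) : ⋃₀ comps K = K :=
  Subset.antisymm (sUnion_subset fun _ h => comps_subset h)
    fun p hp => ⟨_, mem_comps hp, mem_connectedComponentIn hp⟩

lemma comps_eq_of_preconnected (hE : E ∈ comps K) {T : Set ℂ} (hT : IsPreconnected T) (hTK : T ⊆ K)
    (hm : (T ∩ E).Nonempty) : T ⊆ E := by
  obtain ⟨q, hqT, hqE⟩ := hm
  rw [← comps_eq hE hqE]
  exact hT.subset_connectedComponentIn hqT hTK

lemma comps_compact (hK : IsCompact K) (hE : E ∈ comps K) : IsCompact E := by
  obtain ⟨q, hq, hqE⟩ := hE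
  refine hK.of_isClosed_subset (isClosed_of_closure_subset ?_) (hqE ▸ connectedComponentIn_subset K q)
  subst hqE
  exact isPreconnected_connectedComponentIn.closure.subset_connectedComponentIn
    (subset_closure (mem_connectedComponentIn hq))
    (closure_minimal (connectedComponentIn_subset _ _) hK.isClosed)

/-- A finite union of components has these components. -/
lemma comps_finite_union (hK : IsCompact K) {F : Set (Set ℂ)} (hF : F.Finite) (hFK : F ⊆ comps K) :
    IsCompact (⋃₀ F) ∧ comps (⋃₀ F) = F := by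
  refine ⟨hF.isCompact_sUnion fun E hE => comps_compact hK (hFK hE), ?_⟩
  have key : ∀ p ∈ ⋃₀ F, ∀ E ∈ F, p ∈ E → connectedComponentIn (⋃₀ F) p = E := by
    intro p hp E hE hpE
    refine Subset.antisymm ?_ ((comps_preconnected (hFK hE)).subset_connectedComponentIn hpE
      (subset_sUnion_of_mem hE))
    rw [← comps_eq (hFK hE) hpE]
    exact connectedComponentIn_mono _ (sUnion_subset fun E' h => comps_subset (hFK h))
  refine Subset.antisymm ?_ fun E hE => ?_
  · rintro _ ⟨p, hp, rfl⟩
    obtain ⟨E, hE, hpE⟩ := hp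
    show connectedComponentIn (⋃₀ F) p ∈ F
    rwa [key p ⟨E, hE, hpE⟩ E hE hpE]
  · obtain ⟨p, hp⟩ := comps_nonempty (hFK hE)
    exact ⟨p, ⟨E, hE, hp⟩, key p ⟨E, hE, hp⟩ E hE hp⟩

namespace Dom

variable (hU : Dom U)
include hU

lemma exists_radius : ∃ R : ℝ, 1 ≤ R ∧ Uᶜ ⊆ closedBall 0 R := by
  obtain ⟨R, hR⟩ := hU.compact_compl.isBounded.subset_closedBall 0
  exact ⟨max R 1, le_max_right _ _, hR.trans (closedBall_subset_closedBall (le_max_left _ _))⟩

lemma nonempty : U.Nonempty := by
  obtain ⟨R, hR1, hR⟩ := hU.exists_radius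
  refine ⟨((R + 1 : ℝ) : ℂ), by_contra fun h => ?_⟩
  have := mem_closedBall_zero_iff.1 (hR h)
  rw [Complex.norm_of_nonneg (by linarith)] at this
  linarith

/-- Removing only some components leaves a domain. -/
lemma of_finite_union {F : Set (Set ℂ)} (hF : F.Finite) (hFK : F ⊆ comps Uᶜ) :
    Dom (⋃₀ F)ᶜ ∧ U ⊆ (⋃₀ F)ᶜ ∧ comps ((⋃₀ F)ᶜ)ᶜ = F := by
  obtain ⟨hc, he⟩ := comps_finite_union hU.compact_compl hF hFK
  have hsub : ⋃₀ F ⊆ Uᶜ := sUnion_subset fun E hE => comps_subset (hFK hE)
  refine ⟨⟨hc.isClosed.isOpen_compl, ?_, by rw [compl_compl]; exact hc⟩,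
    subset_compl_comm.1 hsub, by rw [compl_compl]; exact he⟩
  have hUn := subset_compl_comm.1 hsub
  obtain ⟨u, hu⟩ := hU.nonempty
  refine isPreconnected_of_forall u fun y hy => ?_
  by_cases hyU : y ∈ U
  · exact ⟨U, hUn, hu, hyU, hU.isPreconnected⟩
  set E := connectedComponentIn Uᶜ y with hEd
  have hE : E ∈ comps Uᶜ := mem_comps hyU
  have hyE : y ∈ E := mem_connectedComponentIn hyU
  have hEn : E ⊆ (⋃₀ F)ᶜ := by
    rintro z hz ⟨E', hE', hz'⟩
    have : E' = E := (comps_eq (hFK hE') hz').symm.trans (comps_eq hE hz)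
    exact hy ⟨E', hE', this ▸ hyE⟩
  obtain ⟨x, hxE, hxU⟩ : (E ∩ closure U).Nonempty := by
    by_contra hne
    have hEi : E ⊆ (closure U)ᶜ := fun z hz hzc => hne ⟨z, hz, hzc⟩
    have hbig : ∃ T, IsPreconnected T ∧ y ∈ T ∧ T ⊆ Uᶜ ∧ ¬ T ⊆ (closure U)ᶜ := by
      set O := connectedComponentIn (closure U)ᶜ y with hO
      have hyc : y ∈ (closure U)ᶜ := hEi hyE
      have hOo : IsOpen O := isClosed_closure.isOpen_compl.connectedComponentIn
      have hOU : closure O ⊆ Uᶜ := closure_minimal
        ((connectedComponentIn_subset _ _).trans (compl_subset_compl.2 subset_closure))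
        hU.isOpen.isClosed_compl
      refine ⟨closure O, isPreconnected_connectedComponentIn.closure,
        subset_closure (mem_connectedComponentIn hyc), hOU, fun hsub' => ?_⟩
      have hcl : IsClosed O := by
        refine isClosed_of_closure_subset ?_
        exact isPreconnected_connectedComponentIn.closure.subset_connectedComponentIn
          (subset_closure (mem_connectedComponentIn hyc)) hsub'
      rcases isClopen_iff.1 ⟨hcl, hOo⟩ with h | h
      · have := mem_connectedComponentIn hyc
        rw [← hO, h] at this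
        exact this
      · obtain ⟨v, hv⟩ := hU.nonempty
        exact hOU (subset_closure (h ▸ mem_univ v)) hv
    obtain ⟨T, hT, hyT, hTK, hTn⟩ := hbig
    exact hTn ((hT.subset_connectedComponentIn hyT hTK).trans hEi)
  refine ⟨U ∪ {x} ∪ E, union_subset (union_subset hUn (singleton_subset_iff.2 (hEn hxE))) hEn,
    Or.inl (Or.inl hu), Or.inr hyE, ?_⟩
  exact IsPreconnected.union x (Or.inr rfl) hxE
    (hU.isPreconnected.subset_closure subset_union_left
      (union_subset subset_closure (singleton_subset_iff.2 hxU))) (comps_preconnected hE)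

end Dom

lemma IsExt.continuousAt {f : ℂ → ℂ} (hf : IsExt U f) (hp : p ∈ U) : ContinuousAt f p :=
  (hf.diff.differentiableAt (hf.dom.isOpen.mem_nhds hp)).continuousAt

lemma IsExt.comp {f g : ℂ → ℂ} (hf : IsExt U f) (hg : IsExt (f '' U) g) : IsExt U (g ∘ f) where
  dom := hf.dom
  diff := hg.diff.comp hf.diff (mapsTo_image f U)
  injOn := hg.injOn.comp hf.injOn (mapsTo_image f U)
  norm_inf := by
    have hc : Tendsto f (cocompact ℂ) (cocompact ℂ) := by
      rw [← cobounded_eq_cocompact, ← tendsto_norm_atTop_iff_cobounded]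
      have h1 := hf.norm_inf.norm
      rw [norm_zero] at h1
      have h2 : Tendsto (fun z : ℂ => ‖z‖ - ‖f z - z‖) (Bornology.cobounded ℂ) atTop := by
        rw [cobounded_eq_cocompact]
        exact (tendsto_norm_cocompact_atTop.atTop_add (h1.neg)).congr fun z => by ring
      refine tendsto_atTop_mono (fun z => ?_) h2
      linarith [norm_sub_norm_le z (f z), norm_sub_rev z (f z)]
    have := (hg.norm_inf.comp hc).add hf.norm_inf
    rw [add_zero] at this
    exact this.congr fun z => by simp [Function.comp]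

end Vale.Agent.P116.Pack
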