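import Vale.Agent.P116.Pack.Ind

/-!
P116 Pack: the cluster sets of the components partition the complement of the image.
-/

noncomputable section

namespace Vale.Agent.P116.Pack.Wind

open Set Filter Metric Complex
open scoped Topology ContDiff

variable {U K E E' S : Set ℂ} {f : ℂ → ℂ} {χ : ℂ → ℂ} {a v w p q : ℂ}

lemma Sep.const_on (hχ : Sep U χ) (hS : IsPreconnected S) (hSU : S ⊆ Uᶜ) {x y : ℂ} (hx : x ∈ S)
    (hy : y ∈ S) : χ y = χ x :=
  eq_on_preconnected hS (fun _ hz => sep_const_near (fun h => hSU hz (hχ.supp h)) hχ.smooth) hx hy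

/-- A component and a point off it are separated by a test function. -/
lemma exists_sep (hU : Dom U) (hE : E ∈ comps Uᶜ) (hq : q ∉ U) (hqE : q ∉ E) :
    ∃ χ : ℂ → ℂ, Sep U χ ∧ (∀ p ∈ E, χ p = 1) ∧ χ q = 0 := by
  have : CompactSpace ↥(Uᶜ) := isCompact_iff_compactSpace.mp hU.compact_compl
  obtain ⟨p, hp, rfl⟩ := hE
  dsimp only at hqE ⊢
  have hq' : (⟨q, hq⟩ : ↥(Uᶜ)) ∉ connectedComponent (⟨p, hp⟩ : ↥(Uᶜ)) := by
    intro h
    rw [connectedComponentIn_eq_image hp] at hqE
    exact hqE ⟨_, h, rfl⟩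
  rw [connectedComponent_eq_iInter_isClopen, mem_iInter] at hq'
  obtain ⟨⟨S, hS, hpS⟩, hqS⟩ := not_forall.1 hq'
  simp only at hqS
  set A : Set ℂ := Subtype.val '' S with hA
  set B : Set ℂ := Subtype.val '' Sᶜ with hB
  have hAc : IsCompact A := hS.isClosed.isCompact.image continuous_subtype_val
  have hBc : IsCompact B := hS.compl.isClosed.isCompact.image continuous_subtype_val
  obtain ⟨R, hR1, hR⟩ := hU.exists_radius
  set T : Set ℂ := B ∪ {z : ℂ | R + 1 ≤ ‖z‖} with hT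
  have hTc : IsClosed T := hBc.isClosed.union (isClosed_le continuous_const continuous_norm)
  have hd : Disjoint T A := by
    rw [disjoint_left]
    rintro z (⟨y, hy, rfl⟩ | hz) ⟨y', hy', he⟩
    · exact hy (Subtype.val_injective he ▸ hy')
    · have h1 := mem_closedBall_zero_iff.1 (hR y'.2)
      rw [he] at h1
      have h2 : R + 1 ≤ ‖z‖ := hz
      linarith
  obtain ⟨θ, h0, h1, -⟩ := exists_contMDiffMap_zero_one_nhds_of_isClosed (n := (⊤ : ℕ∞))
    (modelWithCornersSelf ℝ ℂ) hTc hAc.isClosed hd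
  have hθs : ContDiff ℝ ∞ ⇑θ := contMDiff_iff_contDiff.1 θ.contMDiff
  refine ⟨fun z => (θ z : ℂ), ⟨Complex.ofRealCLM.contDiff.comp hθs, ?_, ?_⟩, ?_, ?_⟩
  · refine HasCompactSupport.intro (isCompact_closedBall (0 : ℂ) (R + 1)) fun z hz => ?_
    have hzT : z ∈ T := Or.inr (show R + 1 ≤ ‖z‖ by
      rw [mem_closedBall_zero_iff, not_le] at hz; exact hz.le)
    simp [h0.self_of_nhdsSet z hzT]
  · intro z hz
    by_contra hzU
    have hzc : ∃ c : ℂ, (fun y => (θ y : ℂ)) =ᶠ[𝓝 z] fun _ => c := by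
      by_cases hzS : (⟨z, hzU⟩ : ↥(Uᶜ)) ∈ S
      · exact ⟨1, (h1.filter_mono (nhds_le_nhdsSet (show z ∈ A from ⟨_, hzS, rfl⟩))).mono fun y hy => by simp [hy]⟩
      · exact ⟨0, (h0.filter_mono (nhds_le_nhdsSet (show z ∈ T from Or.inl ⟨_, hzS, rfl⟩))).mono
          fun y hy => by simp [hy]⟩
    obtain ⟨c, hc⟩ := hzc
    refine notMem_tsupport_iff_eventuallyEq.2 (hc.fderiv.trans ?_) hz
    simp [Filter.EventuallyEq]
  · intro z hz
    rw [connectedComponentIn_eq_image hp] at hz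
    obtain ⟨y, hy, rfl⟩ := hz
    simp [h1.self_of_nhdsSet y ⟨y, hS.connectedComponent_subset hpS hy, rfl⟩]
  · simp [h0.self_of_nhdsSet q (Or.inl ⟨⟨q, hq⟩, hqS, rfl⟩)]

/-- A bump at a point of `U`. -/
lemma exists_bump (hU : IsOpen U) {O : Set ℂ} (hO : O ∈ 𝓝 a) (ha : a ∈ U) :
    ∃ χ : ℂ → ℂ, Sep U χ ∧ χ a = 1 ∧ (∀ z ∉ O, χ z = 0) ∧
      tsupport (fderiv ℝ χ) ⊆ O ∧ a ∉ tsupport (fderiv ℝ χ) := by
  obtain ⟨δ, hδ, hball⟩ := Metric.mem_nhds_iff.1 (inter_mem hO (hU.mem_nhds ha))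
  let b : ContDiffBump a := ⟨δ / 4, δ / 2, by linarith, by linarith⟩
  have hs : tsupport (fun z => (b z : ℂ)) ⊆ O ∩ U := by
    refine (tsupport_comp_subset (g := fun t : ℝ => (t : ℂ)) (by simp) _).trans ?_
    rw [b.tsupport_eq]
    exact (closedBall_subset_ball (by simp [b]; linarith)).trans hball
  have hd : tsupport (fderiv ℝ fun z => (b z : ℂ)) ⊆ O ∩ U := (tsupport_fderiv_subset ℝ).trans hs
  refine ⟨fun z => (b z : ℂ), ⟨Complex.ofRealCLM.contDiff.comp b.contDiff,
    b.hasCompactSupport.comp_left (g := fun t : ℝ => (t : ℂ)) (by simp),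
    hd.trans inter_subset_right⟩, ?_, ?_, hd.trans inter_subset_left, ?_⟩
  · simp [b.one_of_mem_closedBall (mem_closedBall_self (show 0 ≤ b.rIn by simp [b]; linarith))]
  · exact fun z hz =>
      image_eq_zero_of_notMem_tsupport (f := fun z => (b z : ℂ)) fun h => hz (hs h).1
  · refine notMem_tsupport_iff_eventuallyEq.2 ?_
    have h : (fun z => (b z : ℂ)) =ᶠ[𝓝 a] fun _ => 1 :=
      b.eventuallyEq_one.mono fun z hz => by simp [hz]
    refine h.fderiv.trans ?_
    simp [Filter.EventuallyEq]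

/-- The index at a boundary cluster value. -/
lemma idx_bclus (hf : IsExt U f) (hχ : Sep U χ) (hw : w ∉ f '' tsupport (fderiv ℝ χ))
    (hp : p ∉ U) (hcl : MapClusterPt w (𝓝[U] p) f) : idx f χ w = χ p := by
  have hU := hf.dom.isOpen
  have h1 : ∀ᶠ y in 𝓝 w, idx f χ y = idx f χ w := idx_eventuallyEq hU hf.diff hχ hw
  have h2 : ∀ᶠ y in 𝓝 w, y ∉ f '' tsupport (fderiv ℝ χ) :=
    (hχ.isCompact_supp.image_of_continuousOn
      (hf.diff.continuousOn.mono hχ.supp)).isClosed.isOpen_compl.mem_nhds hw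
  have h3 : ∀ᶠ z in 𝓝[U] p, χ z = χ p :=
    (sep_const_near (fun h => hp (hχ.supp h)) hχ.smooth).filter_mono nhdsWithin_le_nhds
  obtain ⟨z, hz, hz3, hzU⟩ := ((mapClusterPt_iff_frequently.1 hcl _ (h1.and h2)).and_eventually
    (h3.and self_mem_nhdsWithin)).exists
  rw [← hz.1, idx_eq_value hf hχ hzU hz.2, hz3]

/-- Boundary cluster values are not values. -/
lemma bclus_notMem (hf : IsExt U f) (hp : p ∉ U) (hcl : MapClusterPt w (𝓝[U] p) f) :
    w ∉ f '' U := by
  rintro ⟨a, ha, rfl⟩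
  obtain ⟨χ, hχ, h1, h0, -, haL⟩ := exists_bump hf.dom.isOpen (hf.dom.isOpen.mem_nhds ha) ha
  have hw : f a ∉ f '' tsupport (fderiv ℝ χ) := by
    rintro ⟨z, hz, e⟩
    exact haL (hf.injOn (hχ.supp hz) ha e ▸ hz)
  have := idx_bclus hf hχ hw hp hcl
  rw [idx_eq_value hf hχ ha hw, h1, h0 p hp] at this
  exact one_ne_zero this

lemma bclus_subset_clus (hf : IsExt U f) (hE : E ⊆ Uᶜ) : bclus U f E ⊆ clus U f E := by
  rintro w ⟨p, hp, hcl⟩
  have hw := bclus_notMem hf (hE hp) hcl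
  exact ⟨hw, w, mem_connectedComponentIn hw, p, hp, hcl⟩

/-- The index on the images of a point. -/
lemma idx_img (hf : IsExt U f) (hχ : Sep U χ) (hv : v ∈ img U f p)
    (hw : v ∉ f '' tsupport (fderiv ℝ χ)) : idx f χ v = χ p := by
  rcases hv with ⟨hp, rfl⟩ | ⟨hp, hv, v', hv', p', hp', hcl⟩
  · exact idx_eq_value hf hχ hp hw
  · have hv'U : v' ∉ f '' U := connectedComponentIn_subset _ _ hv'
    have hd : Disjoint (connectedComponentIn (f '' U)ᶜ v) (f '' tsupport (fderiv ℝ χ)) :=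
      disjoint_left.2 fun y hy h => connectedComponentIn_subset _ _ hy (image_mono hχ.supp h)
    have hp'U : p' ∉ U := connectedComponentIn_subset _ _ hp'
    rw [idx_eq_on hf.dom.isOpen hf.diff hχ isPreconnected_connectedComponentIn hd hv'
      (mem_connectedComponentIn hv),
      idx_bclus hf hχ (fun h => hv'U (image_mono hχ.supp h)) hp'U hcl]
    exact hχ.const_on isPreconnected_connectedComponentIn (connectedComponentIn_subset _ _)
      (mem_connectedComponentIn hp) hp'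

lemma img_of_clus (hE : E ∈ comps Uᶜ) (hp : p ∈ E) (hw : w ∈ clus U f E) : w ∈ img U f p :=
  Or.inr ⟨comps_subset hE hp, by rwa [comps_eq hE hp]⟩

/-- The index on the part of a component. -/
lemma idx_clus (hf : IsExt U f) (hχ : Sep U χ) (hE : E ∈ comps Uᶜ) (hp : p ∈ E)
    (hw : w ∈ clus U f E) : idx f χ w = χ p :=
  idx_img hf hχ (img_of_clus hE hp hw) fun h => hw.1 (image_mono hχ.supp h)

/-- The image contains a neighbourhood of infinity, and the map is bounded on bounded sets. -/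
lemma exists_bound (hf : IsExt U f) : ∃ R : ℝ, 1 ≤ R ∧
    {w : ℂ | R + 2 < ‖w‖} ⊆ f '' U ∧ ∀ z ∈ U, ‖f z‖ ≤ max ‖z‖ R + 2 := by
  have h1 : ∀ᶠ z in cocompact ℂ, ‖f z - z‖ < 1 :=
    hf.norm_inf.norm.eventually (gt_mem_nhds (by simp : ‖(0 : ℂ)‖ < 1))
  rw [← cobounded_eq_cocompact] at h1
  obtain ⟨R₀, -, hR₀⟩ := hasBasis_cobounded_norm.eventually_iff.1 h1
  obtain ⟨R₁, hR1, hR⟩ := hf.dom.exists_radius
  set R := max R₀ R₁ with hRd
  have hbig : ∀ z : ℂ, R ≤ ‖z‖ → ‖f z - z‖ < 1 := fun z hz =>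
    hR₀ (show R₀ ≤ ‖z‖ from (le_max_left _ _).trans hz)
  have hVU : ∀ z : ℂ, R < ‖z‖ → z ∈ U := fun z hz => by_contra fun h => by
    have := mem_closedBall_zero_iff.1 (hR h); linarith [le_max_right R₀ R₁]
  set V : Set ℂ := {z | R < ‖z‖} with hV
  have hVo : IsOpen V := isOpen_lt continuous_const continuous_norm
  have hfV : IsOpen (f '' V) := by
    rw [isOpen_iff_mem_nhds]
    rintro _ ⟨z, hz, rfl⟩
    have han : AnalyticAt ℂ f z := hf.diff.analyticAt (hf.dom.isOpen.mem_nhds (hVU z hz))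
    rcases han.eventually_constant_or_nhds_le_map_nhds with hc | hm
    · obtain ⟨δ, hδ, hball⟩ := Metric.eventually_nhds_iff_ball.1
        (hc.and (hf.dom.isOpen.eventually_mem (hVU z hz)))
      have hne : z + ((δ / 2 : ℝ) : ℂ) ≠ z := by simp; linarith
      have hmem : z + ((δ / 2 : ℝ) : ℂ) ∈ ball z δ := by
        rw [mem_ball, dist_eq_norm, add_sub_cancel_left, Complex.norm_of_nonneg (by linarith)]
        linarith
      exact absurd (hf.injOn (hball _ hmem).2 (hVU z hz) (hball _ hmem).1) hne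
    · exact hm (image_mem_map (hVo.mem_nhds hz))
  have hsub : {w : ℂ | R + 2 < ‖w‖} ⊆ f '' V := by
    have hR0 : (0 : ℝ) ≤ R := le_trans zero_le_one (hR1.trans (le_max_right _ _))
    set x₀ : ℂ := ((R + 4 : ℝ) : ℂ) with hx₀
    have hx₀n : ‖x₀‖ = R + 4 := by rw [hx₀, Complex.norm_of_nonneg (by linarith)]
    have hfx : R + 2 < ‖f x₀‖ := by
      have := hbig x₀ (by linarith)
      linarith [norm_sub_norm_le x₀ (f x₀), norm_sub_rev x₀ (f x₀)]
    intro w hw
    refine (isPreconnected_exterior ((R + 2 + min ‖w‖ ‖f x₀‖) / 2)).subset_of_closure_inter_subset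
      hfV ⟨f x₀, ?_, mem_image_of_mem f (show R < ‖x₀‖ by linarith)⟩ ?_ ?_
    · show (R + 2 + min ‖w‖ ‖f x₀‖) / 2 ≤ ‖f x₀‖
      linarith [min_le_right ‖w‖ ‖f x₀‖]
    · rintro y ⟨hy, hyb⟩
      have hyb : R + 2 < ‖y‖ := by
        have h := hyb
        simp only [mem_ofPred_eq] at h
        have := lt_min (show R + 2 < ‖w‖ from hw) hfx
        linarith
      obtain ⟨s, hs, hst⟩ := mem_closure_iff_seq_limit.1 hy
      choose z hz hze using hs
      have hb : ∀ n, ‖z n‖ < ‖s n‖ + 1 := fun n => by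
        have := hbig (z n) (hz n).le
        rw [hze n] at this
        linarith [norm_sub_norm_le (z n) (s n), norm_sub_rev (z n) (s n)]
      obtain ⟨M, hM⟩ := (hst.norm.isBoundedUnder_le.bddAbove_range)
      obtain ⟨q, -, φ, hφ, hq⟩ := (isCompact_closedBall (0 : ℂ) (M + 1)).tendsto_subseq (x := z)
        fun n => mem_closedBall_zero_iff.2 (by linarith [hb n, hM (mem_range_self n)])
      have hqn : ‖y‖ - 1 ≤ ‖q‖ := by
        refine le_of_tendsto_of_tendsto' (((hst.norm).comp hφ.tendsto_atTop).sub_const 1) hq.norm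
          fun n => ?_
        have := hbig (z (φ n)) (hz _).le
        rw [hze] at this
        simp only [Function.comp_apply]
        linarith [norm_sub_norm_le (s (φ n)) (z (φ n))]
      have hqV : q ∈ V := show R < ‖q‖ by linarith
      have hlim : Tendsto (fun n => f (z (φ n))) atTop (𝓝 (f q)) :=
        ((hf.continuousAt (hVU q hqV)).tendsto).comp hq
      exact ⟨q, hqV, tendsto_nhds_unique hlim
        ((hst.comp hφ.tendsto_atTop).congr fun n => (hze _).symm)⟩
    · show (R + 2 + min ‖w‖ ‖f x₀‖) / 2 ≤ ‖w‖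
      have : R + 2 < ‖w‖ := hw
      linarith [min_le_left ‖w‖ ‖f x₀‖]
  refine ⟨R, hR1.trans (le_max_right _ _), hsub.trans (image_mono fun z hz => hVU z hz),
    fun z hz => ?_⟩
  by_cases h : R ≤ ‖z‖
  · have := hbig z h
    linarith [norm_sub_norm_le (f z) z, le_max_left ‖z‖ R]
  · by_contra hlt
    rw [not_le] at hlt
    obtain ⟨z', hz', e⟩ := hsub (show R + 2 < ‖f z‖ by linarith [le_max_right ‖z‖ R])
    rw [hf.injOn (hVU z' hz') hz e] at hz'
    exact h (le_of_lt hz')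

lemma isOpen_image (hf : IsExt U f) : IsOpen (f '' U) := by
  rw [isOpen_iff_mem_nhds]
  rintro _ ⟨z, hz, rfl⟩
  have han : AnalyticAt ℂ f z := hf.diff.analyticAt (hf.dom.isOpen.mem_nhds hz)
  rcases han.eventually_constant_or_nhds_le_map_nhds with hc | hm
  · obtain ⟨δ, hδ, hball⟩ := Metric.eventually_nhds_iff_ball.1
      (hc.and (hf.dom.isOpen.eventually_mem hz))
    have hne : z + ((δ / 2 : ℝ) : ℂ) ≠ z := by simp; linarith
    have hmem : z + ((δ / 2 : ℝ) : ℂ) ∈ ball z δ := by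
      rw [mem_ball, dist_eq_norm, add_sub_cancel_left, Complex.norm_of_nonneg (by linarith)]
      linarith
    exact absurd (hf.injOn (hball _ hmem).2 hz (hball _ hmem).1) hne
  · exact hm (image_mem_map (hf.dom.isOpen.mem_nhds hz))

/-- The image is again a domain. -/
lemma dom_image (hf : IsExt U f) : Dom (f '' U) := by
  obtain ⟨R, hR1, hsub, -⟩ := (exists_bound hf)
  refine ⟨(isOpen_image hf), hf.dom.isPreconnected.image f hf.diff.continuousOn,
    (isCompact_closedBall (0 : ℂ) (R + 2)).of_isClosed_subset (isOpen_image hf).isClosed_compl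
      fun w hw => ?_⟩
  rw [mem_closedBall_zero_iff]
  by_contra h
  exact hw (hsub (not_le.1 h))

/-- Every complementary component reaches the closure of the domain. -/
lemma comps_meet_closure (hU : Dom U) (hE : E ∈ comps Uᶜ) : (E ∩ closure U).Nonempty := by
  by_contra hne
  have hEi : E ⊆ (closure U)ᶜ := fun z hz hzc => hne ⟨z, hz, hzc⟩
  obtain ⟨y, hy⟩ := comps_nonempty hE
  have hsub : connectedComponentIn (closure U)ᶜ y ⊆ E :=
    comps_eq_of_preconnected hE isPreconnected_connectedComponentIn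
      ((connectedComponentIn_subset _ _).trans (compl_subset_compl.2 subset_closure))
      ⟨y, mem_connectedComponentIn (hEi hy), hy⟩
  have he : connectedComponentIn (closure U)ᶜ y = E :=
    hsub.antisymm ((comps_preconnected hE).subset_connectedComponentIn hy hEi)
  have ho : IsOpen E := he ▸ isClosed_closure.isOpen_compl.connectedComponentIn
  have huniv := IsClopen.eq_univ ⟨(comps_compact hU.compact_compl hE).isClosed, ho⟩ ⟨y, hy⟩
  obtain ⟨u, hu⟩ := hU.nonempty
  exact comps_subset hE (huniv ▸ mem_univ u) hu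

lemma clus_nonempty (hf : IsExt U f) (hE : E ∈ comps Uᶜ) : (bclus U f E).Nonempty := by
  obtain ⟨x, hxE, hxU⟩ := comps_meet_closure hf.dom hE
  have : (𝓝[U] x).NeBot := mem_closure_iff_nhdsWithin_neBot.1 hxU
  obtain ⟨R, -, -, hb⟩ := (exists_bound hf)
  obtain ⟨w, -, hw⟩ := (isCompact_closedBall (0 : ℂ) (max (‖x‖ + 1) R + 2)).exists_mapClusterPt
    (f := 𝓝[U] x) (u := f) (by
      rw [le_principal_iff, mem_map]
      filter_upwards [self_mem_nhdsWithin, nhdsWithin_le_nhds (ball_mem_nhds x one_pos)] with z hz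
        hzb
      rw [mem_preimage, mem_closedBall_zero_iff]
      refine (hb z hz).trans ?_
      rw [mem_ball, dist_eq_norm] at hzb
      gcongr
      linarith [norm_sub_norm_le z x])
  exact ⟨w, x, hxE, hw⟩

/-- Boundary points of the image are cluster values. -/
lemma exists_bclus (hf : IsExt U f) (hv : v ∈ closure (f '' U)) (hvU : v ∉ f '' U) :
    ∃ p ∉ U, MapClusterPt v (𝓝[U] p) f := by
  obtain ⟨R, hR1, hsub, hb⟩ := (exists_bound hf)
  obtain ⟨s, hs, hst⟩ := mem_closure_iff_seq_limit.1 hv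
  choose z hz hze using hs
  obtain ⟨M, hM⟩ := hst.norm.isBoundedUnder_le.bddAbove_range
  have hbig : ∀ᶠ y in cocompact ℂ, M + 2 < ‖y‖ ∧ ‖f y - y‖ < 1 :=
    ((tendsto_norm_cocompact_atTop (E := ℂ)).eventually (eventually_gt_atTop _)).and
      (hf.norm_inf.norm.eventually (gt_mem_nhds (by simp : ‖(0 : ℂ)‖ < 1)))
  obtain ⟨C, hC, hCsub⟩ := mem_cocompact.1 hbig
  have hzC : ∀ n, z n ∈ C := fun n => by_contra fun h => by
    have h1 := hCsub h
    simp only [mem_ofPred_eq, hze] at h1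
    linarith [hM (mem_range_self n), norm_sub_norm_le (z n) (s n), norm_sub_rev (z n) (s n)]
  obtain ⟨p, -, φ, hφ, hp⟩ := hC.tendsto_subseq hzC
  have hlim : Tendsto (fun n => f (z (φ n))) atTop (𝓝 v) :=
    (hst.comp hφ.tendsto_atTop).congr fun n => (hze _).symm
  have hw : Tendsto (fun n => z (φ n)) atTop (𝓝[U] p) :=
    tendsto_nhdsWithin_iff.2 ⟨hp, Eventually.of_forall fun n => hz _⟩
  refine ⟨p, fun hpU => ?_, MapClusterPt.of_comp hw hlim.mapClusterPt⟩
  exact hvU ⟨p, hpU, tendsto_nhds_unique ((hf.continuousAt hpU).tendsto.comp hp) hlim⟩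

/-- The complement of the image is covered by the parts of the components. -/
lemma exists_clus (hf : IsExt U f) (hw : w ∉ f '' U) : ∃ E ∈ comps Uᶜ, w ∈ clus U f E := by
  obtain ⟨v, hv, hvc⟩ := comps_meet_closure (dom_image hf) (mem_comps (K := (f '' U)ᶜ) hw)
  obtain ⟨p, hp, hcl⟩ := exists_bclus hf hvc (connectedComponentIn_subset _ _ hv)
  exact ⟨_, mem_comps hp, hw, v, hv, p, mem_connectedComponentIn hp, hcl⟩

lemma disjoint_clus (hf : IsExt U f) (hE : E ∈ comps Uᶜ) (hE' : E' ∈ comps Uᶜ) (hne : E' ≠ E) :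
    Disjoint (clus U f E) (clus U f E') := by
  rw [disjoint_left]
  intro w h h'
  obtain ⟨q, hq⟩ := comps_nonempty hE'
  obtain ⟨p, hp⟩ := comps_nonempty hE
  obtain ⟨χ, hχ, h1, h0⟩ := exists_sep hf.dom hE (comps_subset hE' hq)
    fun hqE => disjoint_left.1 (comps_disjoint hE hE' hne) hqE hq
  have := (idx_clus hf hχ hE hp h).symm.trans (idx_clus hf hχ hE' hq h')
  rw [h1 p hp, h0] at this
  exact one_ne_zero this

lemma isCompact_clus (hf : IsExt U f) (hE : E ∈ comps Uᶜ) : IsCompact (clus U f E) := by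
  have hK := (dom_image hf).compact_compl
  refine hK.of_isClosed_subset (isClosed_of_closure_subset fun w hw => ?_) fun w hw => hw.1
  have hwU : w ∉ f '' U := closure_minimal (fun y hy => hy.1) hK.isClosed hw
  obtain ⟨E', hE', hw'⟩ := exists_clus hf hwU
  by_contra hne
  have hEE : E' ≠ E := fun e => hne (e ▸ hw')
  obtain ⟨q, hq⟩ := comps_nonempty hE'
  obtain ⟨p, hp⟩ := comps_nonempty hE
  obtain ⟨χ, hχ, h1, h0⟩ := exists_sep hf.dom hE (comps_subset hE' hq)
    fun hqE => disjoint_left.1 (comps_disjoint hE hE' hEE) hqE hq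
  have hev := idx_eventuallyEq hf.dom.isOpen hf.diff hχ fun h => hwU (image_mono hχ.supp h)
  obtain ⟨y, hy, hyE⟩ := mem_closure_iff_nhds.1 hw _ hev
  simp only [mem_ofPred_eq, idx_clus hf hχ hE hp hyE, idx_clus hf hχ hE' hq hw', h1 p hp, h0] at hy
  exact one_ne_zero hy

end Wind

open Set Filter Wind in
/-- The cluster sets of the components partition the complement of the image. -/
theorem clusStmt : ClusStmt := fun U f hf => by
  refine ⟨(dom_image hf), Subset.antisymm (fun w hw => ?_) (iUnion₂_subset fun E _ w hw => hw.1),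
    fun E hE => ⟨?_, isCompact_clus hf hE, fun w hw => ?_, fun E' hE' hne =>
      disjoint_clus hf hE hE' hne⟩⟩
  · obtain ⟨E, hE, h⟩ := exists_clus hf hw
    exact mem_iUnion₂.2 ⟨E, hE, h⟩
  · exact (clus_nonempty hf hE).mono (bclus_subset_clus hf (comps_subset hE))
  · intro y hy
    refine ⟨connectedComponentIn_subset _ _ hy, ?_⟩
    rw [← connectedComponentIn_eq hy]
    exact hw.2

end Vale.Agent.P116.Pack
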