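import Vale.Agent.P116.Pack.Spec

/-!
P116 Pack: `CountStmt`.

If uncountably many good components had diameter at least `δ`, all but countably many of them
would consist of points near which uncountably many of them pass, and each of these crosses all
small circles around such a point, against `Good`.
-/

noncomputable section

namespace Vale.Agent.P116.Pack

open Set Metric TopologicalSpace

/-- A member of `S` whose points are all accumulated by uncountably many members. -/
lemma exists_condensed {α : Type*} [TopologicalSpace α] [SecondCountableTopology α]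
    {S : Set (Set α)} (hS : ¬ S.Countable) :
    ∃ E ∈ S, ∀ q ∈ E, ∀ V : Set α, IsOpen V → q ∈ V → ¬ {F ∈ S | (F ∩ V).Nonempty}.Countable := by
  by_contra! h
  have hcount : (⋃ b ∈ {b ∈ countableBasis α | {F ∈ S | (F ∩ b).Nonempty}.Countable},
      {F ∈ S | (F ∩ b).Nonempty}).Countable :=
    ((countable_countableBasis α).mono (sep_subset _ _)).biUnion fun b hb => hb.2
  refine hS (hcount.mono fun E hE => ?_)
  obtain ⟨q, hqE, V, hVo, hqV, hV⟩ := h E hE
  obtain ⟨b, hb, hqb, hbV⟩ := (isBasis_countableBasis α).exists_subset_of_mem_open hqV hVo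
  refine mem_biUnion ⟨hb, hV.mono ?_⟩ ⟨hE, q, hqE, hqb⟩
  rintro F ⟨hF, x, hxF, hxb⟩
  exact ⟨hF, x, hxF, hbV hxb⟩

theorem count : CountStmt := by
  intro K hK hbad
  by_contra hun
  set S : ℕ → Set (Set ℂ) := fun n =>
    {E | E ∈ comps K ∧ Good K E ∧ ((n : ℝ) + 1)⁻¹ ≤ diam E} with hSdef
  have hcover : {E ∈ comps K | E.Nontrivial} ⊆ {E ∈ comps K | ¬ Good K E} ∪ ⋃ n, S n := by
    rintro E ⟨hE, hnt⟩
    by_cases hg : Good K E
    · right
      obtain ⟨p, -, hp⟩ := id hE
      have hEK : E ⊆ K := hp ▸ connectedComponentIn_subset K p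
      have hd : 0 < diam E := by
        obtain ⟨x, hx, y, hy, hxy⟩ := hnt
        exact (dist_pos.2 hxy).trans_le (dist_le_diam_of_mem (hK.isBounded.subset hEK) hx hy)
      obtain ⟨n, hn⟩ := exists_nat_one_div_lt hd
      exact mem_iUnion.2 ⟨n, hE, hg, by simpa [one_div] using hn.le⟩
    · exact .inl ⟨hE, hg⟩
  obtain ⟨n, hn⟩ : ∃ n, ¬ (S n).Countable := by
    by_contra! h
    exact hun ((hbad.union (countable_iUnion h)).mono hcover)
  obtain ⟨E, ⟨hE, hg, -⟩, hcond⟩ := exists_condensed hn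
  obtain ⟨p, hp, hpE⟩ := id hE
  have hqE : p ∈ E := hpE ▸ mem_connectedComponentIn hp
  obtain ⟨C, hC⟩ := hg p hqE
  set δ : ℝ := ((n : ℝ) + 1)⁻¹ with hδ
  have hδ0 : 0 < δ := by positivity
  obtain ⟨r, hr0, hr, hrF⟩ := hC (δ / 4) (by linarith)
  obtain ⟨N, hN⟩ := exists_nat_gt C
  have hinf : ({F ∈ S n | (F ∩ ball p r).Nonempty} \ {E}).Infinite := fun hfin =>
    hcond p hqE (ball p r) isOpen_ball (mem_ball_self hr0)
      ((hfin.countable.union (countable_singleton E)).mono (by simp))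
  obtain ⟨F, hFsub, hFcard⟩ := hinf.exists_subset_card_eq N
  have key : ∀ E' ∈ F, E' ∈ comps K ∧ E' ≠ E ∧ (E' ∩ ring2 p r).Nonempty ∧ r ≤ diam E' := by
    intro E' hE'
    obtain ⟨⟨⟨hc, -, hd⟩, x, hxE, hxb⟩, hne⟩ := hFsub hE'
    obtain ⟨a, -, ha⟩ := id hc
    have hconn : IsPreconnected E' := ha ▸ isPreconnected_connectedComponentIn
    refine ⟨hc, hne, ?_, by linarith⟩
    obtain ⟨y, hy, hyr⟩ : ∃ y ∈ E', r ≤ dist y p := by
      by_contra! h
      have : diam E' ≤ 2 * r := diam_le_of_forall_dist_le (by linarith) fun u hu v hv => by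
        linarith [h u hu, h v hv, dist_triangle_right u v p]
      linarith
    obtain ⟨z, hz, hzr⟩ := hconn.intermediate_value hxE hy
      (f := fun z => dist z p) (by fun_prop) ⟨(mem_ball.1 hxb).le, hyr⟩
    exact ⟨z, hz, by simp only at hzr; exact ⟨hzr.ge, by linarith⟩⟩
  have hsum := hrF F fun E' h => ⟨(key E' h).1, (key E' h).2.1, (key E' h).2.2.1⟩
  rw [Finset.sum_congr rfl fun E' h => by rw [min_eq_right (key E' h).2.2.2],
    Finset.sum_const, hFcard, nsmul_eq_mul] at hsum
  nlinarith [mul_pos hr0 hr0]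

end Vale.Agent.P116.Pack
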