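import Vale.Agent.P116.Pack.Spec
import Vale.Agent.P136.Full.Transport.Cauchy
import Vale.Agent.P142.Area

/-!
P116 Pack: `CutBoundStmt`.

The Cauchy–Pompeiu formula is applied to `(M w - w)` times a cutoff which is a radial step in the
coordinate of each annulus. On each circle of the annulus the constant part of `M w - w` drops out,
and the oscillation is bounded by the lengths of the two image curves.
-/

noncomputable section

namespace Vale.Agent.P116.Pack

open Set Filter Metric MeasureTheory Function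
open Complex (I)
open scoped Topology ComplexConjugate BigOperators Real

open Vale.Agent.P136.Full.Transport (circ hasDerivAt_circ norm_circ continuous_circ cauchy_pompeiu)

namespace Cut

/-- A smooth step from `0` to `1` on `[t₁, t₂]`. -/
lemma exists_step {t₁ t₂ : ℝ} (h : t₁ < t₂) :
    ∃ (η : ℝ → ℝ) (B : ℝ), 0 ≤ B ∧ ContDiff ℝ 1 η ∧ (∀ t ≤ t₁, η t = 0) ∧
      (∀ t, t₂ ≤ t → η t = 1) ∧ ∀ t ∈ Icc t₁ t₂, |deriv η t| ≤ B := by
  refine ⟨fun t => Real.smoothTransition ((t - t₁) / (t₂ - t₁)), ?_⟩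
  have hc : ContDiff ℝ 1 fun t => Real.smoothTransition ((t - t₁) / (t₂ - t₁)) :=
    Real.smoothTransition.contDiff.comp ((contDiff_id.sub contDiff_const).div_const _)
  obtain ⟨B, hB⟩ :=
    (isCompact_Icc (a := t₁) (b := t₂)).exists_bound_of_continuousOn
      (hc.continuous_deriv le_rfl).continuousOn
  refine ⟨max B 0, le_max_right _ _, hc, fun t ht => ?_, fun t ht => ?_, fun t ht => ?_⟩
  · exact Real.smoothTransition.zero_of_nonpos
      (div_nonpos_of_nonpos_of_nonneg (by linarith) (by linarith))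
  · exact Real.smoothTransition.one_of_one_le (by rw [le_div_iff₀ (by linarith)]; linarith)
  · exact ((Real.norm_eq_abs _).symm.le.trans (hB t ht)).trans (le_max_left _ _)

/-- Twice the derivative in the conjugate variable. -/
def dbar (f : ℂ → ℂ) (w : ℂ) : ℂ := fderiv ℝ f w 1 + I * fderiv ℝ f w I

lemma dbar_eq_zero {f : ℂ → ℂ} {w : ℂ} (h : DifferentiableAt ℂ f w) : dbar f w = 0 := by
  rw [dbar, (h.hasDerivAt.hasFDerivAt.restrictScalars ℝ).fderiv]
  simp [← mul_assoc]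

lemma dbar_congr {f g : ℂ → ℂ} {w : ℂ} (h : f =ᶠ[𝓝 w] g) : dbar f w = dbar g w := by
  rw [dbar, dbar, h.fderiv_eq]

lemma dbar_const (c : ℂ) (w : ℂ) : dbar (fun _ => c) w = 0 :=
  dbar_eq_zero (differentiableAt_const _)

lemma dbar_mul {f g : ℂ → ℂ} {w : ℂ} (hf : DifferentiableAt ℝ f w) (hg : DifferentiableAt ℝ g w) :
    dbar (fun x => f x * g x) w = f w * dbar g w + g w * dbar f w := by
  rw [dbar, dbar, dbar, fderiv_fun_mul hf hg]
  simp
  ring

lemma hasFDerivAt_norm_eval {ζ : ℂ} (h : ζ ≠ 0) :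
    ∃ L : ℂ →L[ℝ] ℝ, HasFDerivAt (fun x : ℂ => ‖x‖) L ζ ∧
      ∀ v, L v = (v * conj ζ).re / ‖ζ‖ := by
  have h1 := (hasFDerivAt_id (𝕜 := ℝ) ζ).norm_sq.sqrt (by simpa using h)
  refine ⟨_, h1.congr_of_eventuallyEq (.of_forall fun x => by simp), fun v => ?_⟩
  simp [Complex.inner, Real.sqrt_sq]
  field_simp

/-- The conjugate derivative of a radial step in the coordinate `g = a⁻¹`. -/
lemma dbar_step {η : ℝ → ℝ} {g : ℂ → ℂ} {d w ζ : ℂ} (hg : HasDerivAt g d w) (hgw : g w = ζ)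
    (hζ : ζ ≠ 0) (hη : DifferentiableAt ℝ η ‖ζ‖) :
    DifferentiableAt ℝ (fun x => (η ‖g x‖ : ℂ)) w ∧
      dbar (fun x => (η ‖g x‖ : ℂ)) w = (deriv η ‖ζ‖ / ‖ζ‖ : ℝ) * (ζ * conj d) := by
  obtain ⟨L, hL, hLv⟩ := hasFDerivAt_norm_eval hζ
  subst hgw
  have h1 := hL.comp w (hg.hasFDerivAt.restrictScalars ℝ)
  have h2 := Complex.ofRealCLM.hasFDerivAt.comp w
    (hη.hasDerivAt.hasFDerivAt.comp w h1)
  refine ⟨h2.differentiableAt, ?_⟩
  have h3 : fderiv ℝ (fun x => (η ‖g x‖ : ℂ)) w = _ := h2.fderiv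
  rw [dbar, h3]
  apply Complex.ext <;> simp [hLv, Complex.mul_re, Complex.mul_im] <;> ring

/-- The closed annulus. -/
def band (t₁ t₂ : ℝ) : Set ℂ := {ζ | t₁ ≤ ‖ζ‖ ∧ ‖ζ‖ ≤ t₂}

lemma isCompact_band (t₁ t₂ : ℝ) : IsCompact (band t₁ t₂) := by
  refine (isCompact_closedBall (0 : ℂ) t₂).of_isClosed_subset ?_ fun ζ hζ => by simpa using hζ.2
  exact (isClosed_le continuous_const continuous_norm).inter
    (isClosed_le continuous_norm continuous_const)

lemma band_subset_annu {t₁ t₂ ρ : ℝ} (h₁ : 1 < t₁) (h₂ : t₂ < ρ) : band t₁ t₂ ⊆ annu ρ :=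
  fun _ h => ⟨h₁.trans_le h.1, h.2.trans_lt h₂⟩

/-- The point of polar coordinates `q`. -/
def pol (q : ℝ × ℝ) : ℂ := (q.1 : ℂ) * circ q.2

lemma continuous_pol : Continuous pol :=
  (Complex.continuous_ofReal.comp continuous_fst).mul (continuous_circ.comp continuous_snd)

lemma norm_pol {t θ : ℝ} (ht : 0 ≤ t) : ‖pol (t, θ)‖ = t := by
  simp [pol, norm_circ, abs_of_nonneg ht]

lemma polarCoord_symm_eq_pol (q : ℝ × ℝ) : Complex.polarCoord.symm q = pol q := by
  rw [Complex.polarCoord_symm_apply, pol, Vale.Agent.P136.Full.Transport.circ_apply]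

section Polar

variable {F : Type*} [NormedAddCommGroup F] [NormedSpace ℝ F] [CompleteSpace F]

omit [CompleteSpace F] in
lemma integrableOn_polar {t₁ t₂ : ℝ} (ht : 0 < t₁) {G : ℂ → F}
    (hG : ContinuousOn G (band t₁ t₂)) :
    IntegrableOn (fun q : ℝ × ℝ => q.1 • G (pol q)) (Icc t₁ t₂ ×ˢ Ioo (-π) π)
      (volume.prod volume) := by
  have hm : MapsTo pol (Icc t₁ t₂ ×ˢ Icc (-π) π) (band t₁ t₂) := by
    rintro ⟨t, θ⟩ ⟨hq, -⟩
    have := norm_pol (θ := θ) (ht.le.trans hq.1)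
    exact ⟨hq.1.trans_eq this.symm, this.trans_le hq.2⟩
  exact ((continuous_fst.continuousOn.smul (hG.comp continuous_pol.continuousOn hm)).integrableOn_compact
    (isCompact_Icc.prod isCompact_Icc)).mono_set (prod_mono Subset.rfl Ioo_subset_Icc_self)

omit [CompleteSpace F] in
lemma setIntegral_band {t₁ t₂ : ℝ} (ht : 0 < t₁) {G : ℂ → F} (hG : ContinuousOn G (band t₁ t₂)) :
    ∫ ζ in band t₁ t₂, G ζ = ∫ t in Icc t₁ t₂, ∫ θ in Ioo (-π) π, t • G (pol (t, θ)) := by
  rw [← integral_indicator (isCompact_band t₁ t₂).isClosed.measurableSet,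
    ← Complex.integral_comp_polarCoord_symm, polarCoord_target]
  have hc : ∀ q ∈ Ioi (0 : ℝ) ×ˢ Ioo (-π) π,
      q.1 • (band t₁ t₂).indicator G (Complex.polarCoord.symm q) =
        (Icc t₁ t₂ ×ˢ univ).indicator (fun q => q.1 • G (pol q)) q := by
    rintro ⟨t, θ⟩ ⟨hq, -⟩
    rw [polarCoord_symm_eq_pol]
    by_cases h : t ∈ Icc t₁ t₂
    · rw [indicator_of_mem (show pol (t, θ) ∈ band t₁ t₂ by
          rw [band, mem_ofPred_eq, norm_pol (le_of_lt hq)]; exact h),
        indicator_of_mem (show (t, θ) ∈ Icc t₁ t₂ ×ˢ univ from ⟨h, trivial⟩)]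
    · rw [indicator_of_notMem (show pol (t, θ) ∉ band t₁ t₂ by
          rw [band, mem_ofPred_eq, norm_pol (le_of_lt hq)]; exact h),
        indicator_of_notMem (show (t, θ) ∉ Icc t₁ t₂ ×ˢ univ from fun e => h e.1), smul_zero]
  rw [setIntegral_congr_fun (measurableSet_Ioi.prod measurableSet_Ioo) hc,
    setIntegral_indicator (measurableSet_Icc.prod MeasurableSet.univ), prod_inter_prod, inter_univ,
    inter_eq_right.2 (show Icc t₁ t₂ ⊆ Ioi (0 : ℝ) from fun t h => ht.trans_le h.1),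
    Measure.volume_eq_prod,
    setIntegral_prod _ (integrableOn_polar ht hG)]

end Polar

lemma sq_setIntegral_le {f : ℝ → ℝ} (hf : Continuous f) :
    (∫ θ in Ioo (-π) π, f θ) ^ 2 ≤ 2 * π * ∫ θ in Ioo (-π) π, f θ ^ 2 := by
  set s : ℝ := (∫ θ in Ioo (-π) π, f θ) / (2 * π) with hs
  have hi : ∀ g : ℝ → ℝ, Continuous g → IntegrableOn g (Ioo (-π) π) := fun g hg =>
    (hg.integrableOn_Icc).mono_set Ioo_subset_Icc_self
  have h : ∫ θ in Ioo (-π) π, (2 * s * f θ - s ^ 2) ≤ ∫ θ in Ioo (-π) π, f θ ^ 2 :=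
    setIntegral_mono (hi _ (by fun_prop)) (hi _ (by fun_prop))
      fun θ => by nlinarith [sq_nonneg (f θ - s)]
  rw [integral_sub (hi _ (by fun_prop)) (hi _ (by fun_prop)), integral_const_mul,
    setIntegral_const, Real.volume_real_Ioo_of_le (by linarith [Real.pi_pos]), smul_eq_mul] at h
  have e : 2 * π * s = ∫ θ in Ioo (-π) π, f θ := by
    rw [hs]; field_simp
  nlinarith [Real.pi_pos]

/-- Closed curves `α`, `β`, with `α` in a ball seen from afar. -/
lemma circle_bound {α β α' β' : ℝ → ℂ} {R : ℝ} {z : ℂ} (hR : 0 < R) (hz : 3 * R ≤ ‖z‖)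
    (hα : ∀ θ, HasDerivAt α (α' θ) θ) (hβ : ∀ θ, HasDerivAt β (β' θ) θ)
    (hα'c : Continuous α') (hβ'c : Continuous β') (hpα : α π = α (-π)) (hball : ∀ θ, ‖α θ‖ ≤ R) :
    ‖∫ θ in Ioo (-π) π, (β θ - α θ) * α' θ / (α θ - z)‖ ≤
      2 * π / R * ((∫ θ in Ioo (-π) π, ‖α' θ‖ ^ 2) + ∫ θ in Ioo (-π) π, ‖β' θ‖ ^ 2) := by
  have hαc : Continuous α := continuous_iff_continuousAt.2 fun θ => (hα θ).continuousAt
  have hβc : Continuous β := continuous_iff_continuousAt.2 fun θ => (hβ θ).continuousAt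
  have hπ : -π ≤ π := by linarith [Real.pi_pos]
  have hne : ∀ θ, α θ - z ≠ 0 := fun θ e => by
    rw [sub_eq_zero] at e
    have := hball θ
    rw [e] at this
    linarith
  have hz0 : z ≠ 0 := fun e => by rw [e, norm_zero] at hz; linarith
  have hk : Continuous fun θ => α' θ / (α θ - z) := hα'c.div (hαc.sub continuous_const) hne
  have hi : ∀ g : ℝ → ℂ, Continuous g → IntegrableOn g (Ioo (-π) π) := fun g hg =>
    (hg.integrableOn_Icc).mono_set Ioo_subset_Icc_self
  have hir : ∀ g : ℝ → ℝ, Continuous g → IntegrableOn g (Ioo (-π) π) := fun g hg =>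
    (hg.integrableOn_Icc).mono_set Ioo_subset_Icc_self
  -- the constant drops out
  have h0 : ∫ θ in Ioo (-π) π, α' θ / (α θ - z) = 0 := by
    have hd : ∀ θ ∈ uIcc (-π) π,
        HasDerivAt (fun θ => Complex.log (1 - α θ / z)) (α' θ / (α θ - z)) θ := by
      intro θ _
      have hre : 1 - α θ / z ∈ Complex.slitPlane := by
        refine Or.inl ?_
        have : ‖α θ / z‖ < 1 := by
          rw [norm_div, div_lt_one (norm_pos_iff.2 hz0)]; linarith [hball θ]
        have := (Complex.re_le_norm (α θ / z)).trans_lt this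
        simp; linarith
      have h2 := (((hα θ).div_const z).const_sub 1).clog_real hre
      refine h2.congr_deriv ?_
      have h3 : 1 - α θ / z ≠ 0 := Complex.slitPlane_ne_zero hre
      have h4 : z - α θ ≠ 0 := fun e => hne θ (by linear_combination -e)
      have h5 : α θ - z ≠ 0 := hne θ
      rw [eq_div_iff h5, div_mul_eq_mul_div, div_eq_iff h3]
      field_simp
      ring
    have h := intervalIntegral.integral_eq_sub_of_hasDerivAt hd (hk.intervalIntegrable _ _)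
    rw [hpα, sub_self, intervalIntegral.integral_of_le hπ, integral_Ioc_eq_integral_Ioo] at h
    exact h
  set δ₀ : ℂ := β (-π) - α (-π) with hδ₀
  have e : ∫ θ in Ioo (-π) π, (β θ - α θ) * α' θ / (α θ - z) =
      ∫ θ in Ioo (-π) π, (β θ - α θ - δ₀) * (α' θ / (α θ - z)) := by
    have hsplit : ∀ θ, (β θ - α θ - δ₀) * (α' θ / (α θ - z)) =
        (β θ - α θ) * α' θ / (α θ - z) - δ₀ * (α' θ / (α θ - z)) := fun θ => by ring
    simp only [hsplit]
    have e1 : Continuous fun θ => (β θ - α θ) * α' θ / (α θ - z) :=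
      ((hβc.sub hαc).mul hα'c).div (hαc.sub continuous_const) hne
    have e2 : Continuous fun θ => δ₀ * (α' θ / (α θ - z)) := continuous_const.mul hk
    rw [integral_sub (hi _ e1) (hi _ e2), integral_const_mul, h0, mul_zero, sub_zero]
  set Iα : ℝ := ∫ θ in Ioo (-π) π, ‖α' θ‖ with hIα
  set Iβ : ℝ := ∫ θ in Ioo (-π) π, ‖β' θ‖ with hIβ
  have hosc : ∀ θ ∈ Ioo (-π) π, ‖β θ - α θ - δ₀‖ ≤ Iα + Iβ := by
    intro θ hθ
    have hd : ∀ s ∈ uIcc (-π) θ, HasDerivAt (fun s => β s - α s) (β' s - α' s) s :=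
      fun s _ => (hβ s).sub (hα s)
    rw [← intervalIntegral.integral_eq_sub_of_hasDerivAt hd
      ((hβ'c.sub hα'c).intervalIntegrable _ _)]
    refine (intervalIntegral.norm_integral_le_integral_norm hθ.1.le).trans ?_
    rw [intervalIntegral.integral_of_le hθ.1.le]
    refine (setIntegral_mono_set (t := Ioo (-π) π) (hir _ (hβ'c.sub hα'c).norm)
      (.of_forall fun s => norm_nonneg _)
      (LE.le.eventuallyLE fun s hs => ⟨hs.1, hs.2.trans_lt hθ.2⟩)).trans ?_
    rw [hIα, hIβ, ← integral_add (hir _ hα'c.norm) (hir _ hβ'c.norm)]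
    exact setIntegral_mono (hir _ (hβ'c.sub hα'c).norm) ((hir _ hα'c.norm).add (hir _ hβ'c.norm))
      fun s => (norm_sub_le _ _).trans (le_of_eq (add_comm _ _))
  rw [e]
  have hb : ‖∫ θ in Ioo (-π) π, (β θ - α θ - δ₀) * (α' θ / (α θ - z))‖ ≤
      (Iα + Iβ) / (2 * R) * Iα := by
    refine (norm_integral_le_of_norm_le ((hir _ hα'c.norm).const_mul ((Iα + Iβ) / (2 * R))) ?_).trans
      (le_of_eq (integral_const_mul _ _))
    refine (ae_restrict_iff' measurableSet_Ioo).2 (.of_forall fun θ hθ => ?_)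
    have h2 : 2 * R ≤ ‖α θ - z‖ := by
      have := norm_sub_norm_le z (α θ)
      rw [norm_sub_rev] at this
      linarith [hball θ]
    have hI : 0 ≤ Iα + Iβ := (norm_nonneg _).trans (hosc θ hθ)
    calc ‖(β θ - α θ - δ₀) * (α' θ / (α θ - z))‖
        = ‖β θ - α θ - δ₀‖ * (‖α' θ‖ / ‖α θ - z‖) := by rw [norm_mul, norm_div]
      _ ≤ (Iα + Iβ) * (‖α' θ‖ / (2 * R)) := by
          refine mul_le_mul (hosc θ hθ) ?_ (by positivity) hI
          gcongr
      _ = (Iα + Iβ) / (2 * R) * ‖α' θ‖ := by ring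
  refine hb.trans ?_
  have hA := sq_setIntegral_le hα'c.norm
  have hB := sq_setIntegral_le hβ'c.norm
  rw [← hIα] at hA
  rw [← hIβ] at hB
  have hQb : 0 ≤ ∫ θ in Ioo (-π) π, ‖β' θ‖ ^ 2 := by positivity
  have hQa : 0 ≤ ∫ θ in Ioo (-π) π, ‖α' θ‖ ^ 2 := by positivity
  rw [div_mul_eq_mul_div, div_mul_eq_mul_div, div_le_div_iff₀ (by positivity) hR]
  nlinarith [two_mul_le_add_sq Iα Iβ, Real.pi_pos]

lemma setIntegral_deriv_sq_le {ρ t₁ t₂ : ℝ} {a : ℂ → ℂ} (hsub : band t₁ t₂ ⊆ annu ρ)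
    (hopen : IsOpen (annu ρ)) (ha : DifferentiableOn ℂ a (annu ρ)) (hinj : InjOn a (annu ρ))
    (hb : Bornology.IsBounded (a '' annu ρ)) :
    ∫ ζ in band t₁ t₂, ‖deriv a ζ‖ ^ 2 ≤ (volume (a '' annu ρ)).toReal := by
  have h := integral_image_eq_integral_abs_det_fderiv_smul volume
    (isCompact_band t₁ t₂).isClosed.measurableSet
    (f' := fun ζ => (ContinuousLinearMap.toSpanSingleton ℂ (deriv a ζ)).restrictScalars ℝ)
    (fun ζ hζ => ((ha.differentiableAt (hopen.mem_nhds (hsub hζ))).hasDerivAt.hasFDerivAt.restrictScalars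
      ℝ).hasFDerivWithinAt) (hinj.mono hsub) (fun _ => (1 : ℝ))
  simp only [setIntegral_const, smul_eq_mul, mul_one, Vale.Agent.P142.Area.abs_det_mul] at h
  rw [← h, Measure.real]
  exact ENNReal.toReal_mono hb.measure_lt_top.ne (measure_mono (image_mono hsub))

lemma isOpen_annu (ρ : ℝ) : IsOpen (annu ρ) :=
  (isOpen_lt continuous_const continuous_norm).inter (isOpen_lt continuous_norm continuous_const)

/-- The contribution of one annulus. -/
lemma band_bound {ρ t₁ t₂ B R : ℝ} {η : ℝ → ℝ} {a b : ℂ → ℂ} {z : ℂ} (h₁ : 1 < t₁) (h₂ : t₂ < ρ)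
    (hη : ContDiff ℝ 1 η) (hB : ∀ t ∈ Icc t₁ t₂, |deriv η t| ≤ B) (hB0 : 0 ≤ B)
    (ha : DifferentiableOn ℂ a (annu ρ)) (hb : DifferentiableOn ℂ b (annu ρ))
    (hai : InjOn a (annu ρ)) (hbi : InjOn b (annu ρ)) (haR : a '' annu ρ ⊆ closedBall 0 R)
    (hbb : Bornology.IsBounded (b '' annu ρ)) (hR : 0 < R) (hz : 3 * R ≤ ‖z‖) :
    ‖∫ ζ in band t₁ t₂, ((deriv η ‖ζ‖ / ‖ζ‖ : ℝ) : ℂ) * ζ * deriv a ζ * (b ζ - a ζ) / (a ζ - z)‖ ≤
      2 * π * ρ * B / R *
        ((volume (a '' annu ρ)).toReal + (volume (b '' annu ρ)).toReal) := by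
  by_cases h12 : t₁ ≤ t₂
  swap
  · have : band t₁ t₂ = ∅ := eq_empty_of_forall_notMem fun ζ hζ => h12 (hζ.1.trans hζ.2)
    rw [this]
    simp only [Measure.restrict_empty, integral_zero_measure, norm_zero]
    by_cases hρ : 0 ≤ ρ
    · positivity
    · have : annu ρ = ∅ := eq_empty_of_forall_notMem fun ζ hζ =>
        hρ ((norm_nonneg ζ).trans hζ.2.le)
      simp [this]
  have hρ : 1 < ρ := h₁.trans (h12.trans_lt h₂)
  have ht0 : 0 < t₁ := by linarith
  have hsub := band_subset_annu h₁ h₂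
  have ho := isOpen_annu ρ
  have had : ∀ ζ ∈ annu ρ, HasDerivAt a (deriv a ζ) ζ := fun ζ h =>
    (ha.differentiableAt (ho.mem_nhds h)).hasDerivAt
  have hbd : ∀ ζ ∈ annu ρ, HasDerivAt b (deriv b ζ) ζ := fun ζ h =>
    (hb.differentiableAt (ho.mem_nhds h)).hasDerivAt
  have hadc : ContinuousOn (deriv a) (annu ρ) := (ha.deriv ho).continuousOn
  have hbdc : ContinuousOn (deriv b) (annu ρ) := (hb.deriv ho).continuousOn
  set Φ : ℂ → ℂ := fun ζ =>
    ((deriv η ‖ζ‖ / ‖ζ‖ : ℝ) : ℂ) * ζ * deriv a ζ * (b ζ - a ζ) / (a ζ - z) with hΦ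
  have hΦc : ContinuousOn Φ (band t₁ t₂) := by
    refine ContinuousOn.div ?_ ((ha.continuousOn.mono hsub).sub continuousOn_const) ?_
    · refine ((ContinuousOn.mul ?_ continuousOn_id).mul (hadc.mono hsub)).mul
        ((hb.continuousOn.sub ha.continuousOn).mono hsub)
      refine Complex.continuous_ofReal.comp_continuousOn (ContinuousOn.div ?_ continuous_norm.continuousOn ?_)
      · exact ((hη.continuous_deriv le_rfl).comp continuous_norm).continuousOn
      · intro ζ hζ; linarith [hζ.1]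
    · intro ζ hζ e
      rw [sub_eq_zero] at e
      have := haR ⟨ζ, hsub hζ, rfl⟩
      rw [e, mem_closedBall_zero_iff] at this
      linarith
  have hsq : ∀ {c : ℂ → ℂ}, ContinuousOn (deriv c) (annu ρ) →
      ContinuousOn (fun ζ => ‖deriv c ζ‖ ^ 2) (band t₁ t₂) := fun h => ((h.mono hsub).norm).pow 2
  have hin : ∀ t ∈ Icc t₁ t₂,
      ‖∫ θ in Ioo (-π) π, t • Φ (pol (t, θ))‖ ≤ 2 * π * ρ * B / R *
        ((∫ θ in Ioo (-π) π, t • ‖deriv a (pol (t, θ))‖ ^ 2) +
          ∫ θ in Ioo (-π) π, t • ‖deriv b (pol (t, θ))‖ ^ 2) := by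
    intro t ht
    have htp : 0 < t := ht0.trans_le ht.1
    have hmem : ∀ θ, pol (t, θ) ∈ annu ρ := fun θ =>
      hsub ⟨ht.1.trans_eq (norm_pol htp.le).symm, (norm_pol htp.le).trans_le ht.2⟩
    have hp : ∀ θ, HasDerivAt (fun θ => pol (t, θ)) ((t : ℂ) * (I * circ θ)) θ := fun θ =>
      by simpa only [pol] using (hasDerivAt_circ θ).const_mul (t : ℂ)
    have hpc : Continuous fun θ => pol (t, θ) := continuous_pol.comp (Continuous.prodMk_right t)
    have hv : Continuous fun θ => (t : ℂ) * (I * circ θ) :=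
      continuous_const.mul (continuous_const.mul continuous_circ)
    set α' : ℝ → ℂ := fun θ => deriv a (pol (t, θ)) * ((t : ℂ) * (I * circ θ)) with hα'
    set β' : ℝ → ℂ := fun θ => deriv b (pol (t, θ)) * ((t : ℂ) * (I * circ θ)) with hβ'
    have hper : pol (t, π) = pol (t, -π) := by
      simp [pol, Vale.Agent.P136.Full.Transport.circ_apply]
    have hcb := circle_bound (α := fun θ => a (pol (t, θ))) (β := fun θ => b (pol (t, θ)))
      (α' := α') (β' := β') hR hz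
      (fun θ => (had _ (hmem θ)).comp θ (hp θ)) (fun θ => (hbd _ (hmem θ)).comp θ (hp θ))
      ((hadc.comp_continuous hpc hmem).mul hv) ((hbdc.comp_continuous hpc hmem).mul hv)
      (by rw [hper]) (fun θ => by simpa using haR ⟨_, hmem θ, rfl⟩)
    have hnorm : ∀ (c : ℂ) (θ : ℝ), ‖c * ((t : ℂ) * (I * circ θ))‖ ^ 2 = t * (t • ‖c‖ ^ 2) := by
      intro c θ
      simp [norm_circ, abs_of_pos htp]; ring
    simp only [hα', hβ', hnorm, integral_const_mul] at hcb
    have e : ∀ θ, t • Φ (pol (t, θ)) = (-I * ((deriv η t : ℝ) : ℂ)) *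
        ((b (pol (t, θ)) - a (pol (t, θ))) *
          (deriv a (pol (t, θ)) * ((t : ℂ) * (I * circ θ))) / (a (pol (t, θ)) - z)) := by
      intro θ
      have htc : (t : ℂ) ≠ 0 := Complex.ofReal_ne_zero.2 htp.ne'
      simp only [hΦ, norm_pol htp.le, Complex.real_smul, Complex.ofReal_div]
      simp only [pol]
      rw [← mul_div_assoc, ← mul_div_assoc]
      congr 1
      field_simp
      linear_combination
        (((deriv η t : ℝ) : ℂ) * circ θ * deriv a ((t : ℂ) * circ θ) *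
          (b ((t : ℂ) * circ θ) - a ((t : ℂ) * circ θ))) * Complex.I_sq
    simp only [e, integral_const_mul, norm_mul, norm_neg, Complex.norm_I, one_mul,
      Complex.norm_real, Real.norm_eq_abs]
    have hQ : 0 ≤ (∫ θ in Ioo (-π) π, t • ‖deriv a (pol (t, θ))‖ ^ 2) +
          ∫ θ in Ioo (-π) π, t • ‖deriv b (pol (t, θ))‖ ^ 2 := by positivity
    refine (mul_le_mul (hB t ht) hcb (norm_nonneg _) hB0).trans ?_
    rw [← mul_add]
    have htρ : t ≤ ρ := ht.2.trans h₂.le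
    calc B * (2 * π / R * (t * _)) ≤ B * (2 * π / R * (ρ * _)) := by gcongr
      _ = _ := by ring
  have hja := integrableOn_polar ht0 (hsq hadc)
  have hjb := integrableOn_polar ht0 (hsq hbdc)
  rw [IntegrableOn, ← Measure.prod_restrict] at hja hjb
  rw [setIntegral_band ht0 hΦc]
  refine (norm_integral_le_of_norm_le ?_
    ((ae_restrict_iff' measurableSet_Icc).2 (.of_forall hin))).trans ?_
  · exact (hja.integral_prod_left.add hjb.integral_prod_left).const_mul _
  rw [integral_const_mul, integral_add hja.integral_prod_left hjb.integral_prod_left,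
    ← setIntegral_band ht0 (hsq hadc), ← setIntegral_band ht0 (hsq hbdc)]
  have : 0 < ρ := by linarith
  gcongr
  · exact setIntegral_deriv_sq_le hsub ho ha hai ((isBounded_closedBall).subset haR)
  · exact setIntegral_deriv_sq_le hsub ho hb hbi hbb

lemma differentiableOn_comp_conj {ρ : ℝ} {A : ℂ → ℂ}
    (h : DifferentiableOn ℂ (fun ζ => conj (A ζ)) (annu ρ)) :
    DifferentiableOn ℂ (fun ζ => A (conj ζ)) (annu ρ) := by
  intro ζ hζ
  have hc : conj ζ ∈ annu ρ := by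
    simpa [annu] using hζ
  have h1 := ((h.differentiableAt ((isOpen_annu ρ).mem_nhds hc)).conj_conj)
  rw [Complex.conj_conj] at h1
  refine (h1.congr_of_eventuallyEq (.of_forall fun x => ?_)).differentiableWithinAt
  simp

lemma image_conj_comp (A : ℂ → ℂ) {s : Set ℂ} (hs : ∀ ζ ∈ s, conj ζ ∈ s) :
    (fun ζ => A (conj ζ)) '' s = A '' s := by
  refine Subset.antisymm ?_ ?_
  · rintro _ ⟨ζ, h, rfl⟩
    exact ⟨_, hs ζ h, rfl⟩
  · rintro _ ⟨ζ, h, rfl⟩
    exact ⟨_, hs ζ h, by simp⟩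

/-- A holomorphic parametrisation with the same images. -/
lemma exists_param {ρ : ℝ} {A A' : ℂ → ℂ} (hA : ConfMap (annu ρ) A) (hA' : InjOn A' (annu ρ)) :
    ∃ a b : ℂ → ℂ, DifferentiableOn ℂ a (annu ρ) ∧ InjOn a (annu ρ) ∧ InjOn b (annu ρ) ∧
      (∀ p : ℝ → Prop, a '' {ζ | p ‖ζ‖} = A '' {ζ | p ‖ζ‖}) ∧
      b '' annu ρ = A' '' annu ρ ∧
      ∀ M : ℂ → ℂ, (∀ ζ ∈ annu ρ, M (A ζ) = A' ζ) → ∀ ζ ∈ annu ρ, M (a ζ) = b ζ := by
  rcases hA.2 with h | h
  · exact ⟨A, A', h, hA.1, hA', fun _ => rfl, rfl, fun M hM => hM⟩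
  · have hc : ∀ ζ ∈ annu ρ, conj ζ ∈ annu ρ := fun ζ hζ => by simpa [annu] using hζ
    have hinj : ∀ {f : ℂ → ℂ}, InjOn f (annu ρ) → InjOn (fun ζ => f (conj ζ)) (annu ρ) :=
      fun hf x hx y hy e => (starRingEnd ℂ).injective (hf (hc x hx) (hc y hy) e)
    exact ⟨fun ζ => A (conj ζ), fun ζ => A' (conj ζ), differentiableOn_comp_conj h, hinj hA.1,
      hinj hA', fun p => image_conj_comp A fun ζ hζ => by simpa using hζ,
      image_conj_comp A' hc, fun M hM ζ hζ => hM _ (hc ζ hζ)⟩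

/-- The step cutoff of one hole. -/
def psi (H : Set ℂ) (a : ℂ → ℂ) (η : ℝ → ℝ) (ρ t₂ : ℝ) (w : ℂ) : ℂ :=
  open Classical in
  if w ∈ H then 1
  else if w ∈ a '' {ζ | 1 < ‖ζ‖ ∧ ‖ζ‖ ≤ t₂} then 1 - (η ‖invFunOn a (annu ρ) w‖ : ℂ) else 0

section Psi

variable {H : Set ℂ} {a : ℂ → ℂ} {η : ℝ → ℝ} {ρ t₁ t₂ : ℝ}

lemma psi_out {w : ℂ} (hw : w ∉ H ∪ a '' {ζ | 1 < ‖ζ‖ ∧ ‖ζ‖ ≤ t₂}) : psi H a η ρ t₂ w = 0 := by
  simp only [mem_union, not_or] at hw
  simp [psi, hw.1, hw.2]

lemma psi_in (hinj : InjOn a (annu ρ)) (h12 : t₁ ≤ t₂) (h2 : t₂ < ρ)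
    (hη : ∀ t ≤ t₁, η t = 0) {w : ℂ} (hw : w ∈ H ∪ a '' annu t₁) : psi H a η ρ t₂ w = 1 := by
  by_cases hH : w ∈ H
  · simp [psi, hH]
  rcases hw with hw | ⟨ζ, hζ, rfl⟩
  · exact absurd hw hH
  have hm : a ζ ∈ a '' {ζ | 1 < ‖ζ‖ ∧ ‖ζ‖ ≤ t₂} := ⟨ζ, ⟨hζ.1, hζ.2.le.trans h12⟩, rfl⟩
  have hmem : ζ ∈ annu ρ := ⟨hζ.1, hζ.2.trans_le (h12.trans h2.le)⟩
  rw [psi, if_neg hH, if_pos hm, hinj.leftInvOn_invFunOn hmem, hη _ hζ.2.le]
  simp

lemma psi_ann (hd : Disjoint H (a '' annu ρ)) (hinj : InjOn a (annu ρ))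
    (hη : ∀ t, t₂ ≤ t → η t = 1) {w : ℂ} (hw : w ∈ a '' annu ρ) :
    psi H a η ρ t₂ w = 1 - (η ‖invFunOn a (annu ρ) w‖ : ℂ) := by
  obtain ⟨ζ, hζ, rfl⟩ := hw
  have hH : a ζ ∉ H := fun h => hd.le_bot ⟨h, ⟨ζ, hζ, rfl⟩⟩
  rw [psi, if_neg hH]
  by_cases hm : a ζ ∈ a '' {ζ | 1 < ‖ζ‖ ∧ ‖ζ‖ ≤ t₂}
  · rw [if_pos hm]
  · rw [if_neg hm, hinj.leftInvOn_invFunOn hζ, hη _ ?_]
    · simp
    · by_contra h
      exact hm ⟨ζ, ⟨hζ.1, (not_le.1 h).le⟩, rfl⟩

lemma hasDerivAt_invFunOn (ha : DifferentiableOn ℂ a (annu ρ)) (hinj : InjOn a (annu ρ)) {ζ : ℂ}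
    (hζ : ζ ∈ annu ρ) : HasDerivAt (invFunOn a (annu ρ)) (deriv a ζ)⁻¹ (a ζ) := by
  have ho := isOpen_annu ρ
  have hs : HasStrictDerivAt a (deriv a ζ) ζ :=
    (ha.analyticAt (ho.mem_nhds hζ)).hasStrictDerivAt
  exact (hs.to_local_left_inverse (Vale.Agent.P142.Area.deriv_ne_zero_of_injOn ho ha hinj hζ)
    (by filter_upwards [ho.mem_nhds hζ] with x hx; exact hinj.leftInvOn_invFunOn hx)).hasDerivAt

lemma contDiffAt_step (hη : ContDiff ℝ 1 η) (ha : DifferentiableOn ℂ a (annu ρ))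
    (hinj : InjOn a (annu ρ)) (ho : IsOpen (a '' annu ρ)) {w : ℂ} (hw : w ∈ a '' annu ρ) :
    ContDiffAt ℝ 1 (fun x => (η ‖invFunOn a (annu ρ) x‖ : ℂ)) w := by
  have hd : DifferentiableOn ℂ (invFunOn a (annu ρ)) (a '' annu ρ) := by
    rintro _ ⟨ζ, hζ, rfl⟩
    exact (hasDerivAt_invFunOn ha hinj hζ).differentiableAt.differentiableWithinAt
  have h1 : ContDiffAt ℝ 1 (invFunOn a (annu ρ)) w :=
    ((hd.analyticAt (ho.mem_nhds hw)).contDiffAt).restrict_scalars ℝ
  have h2 : invFunOn a (annu ρ) w ≠ 0 := by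
    intro e
    obtain ⟨ζ, hζ, rfl⟩ := hw
    rw [hinj.leftInvOn_invFunOn hζ] at e
    have := hζ.1
    rw [e, norm_zero] at this
    linarith
  exact Complex.ofRealCLM.contDiff.contDiffAt.comp w
    (hη.contDiffAt.comp w (h1.norm ℝ h2))

end Psi

end Cut

open Cut in
theorem cutBound : CutBoundStmt := by
  intro ρ hρ
  obtain ⟨t₁, t₂, h₁, h12, h₂⟩ : ∃ t₁ t₂ : ℝ, 1 < t₁ ∧ t₁ < t₂ ∧ t₂ < ρ :=
    ⟨1 + (ρ - 1) / 3, 1 + 2 * (ρ - 1) / 3, by linarith, by linarith, by linarith⟩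
  obtain ⟨η, B, hB0, hη, hη0, hη1, hB⟩ := exists_step h12
  refine ⟨ρ * B, by positivity, ?_⟩
  intro ι _ R H A A' M hR hyp hdisj hM hMlim hMA z hz
  classical
  choose a b had haI hbI haImg hbImg hab using fun i =>
    exists_param (hyp i).2.1 (hA' := (hyp i).2.2.1.1)
  have hann : ∀ i, a i '' annu ρ = A i '' annu ρ := fun i =>
    haImg i fun t => 1 < t ∧ t < ρ
  have hann' : ∀ i t, a i '' annu t = A i '' annu t := fun i t =>
    haImg i fun s => 1 < s ∧ s < t
  have hclo : ∀ i t, a i '' {ζ | 1 < ‖ζ‖ ∧ ‖ζ‖ ≤ t} = A i '' {ζ | 1 < ‖ζ‖ ∧ ‖ζ‖ ≤ t} := fun i t =>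
    haImg i fun s => 1 < s ∧ s ≤ t
  set g : ℂ → ℂ := fun w => M w - w with hg
  set ψ : ι → ℂ → ℂ := fun i => psi (H i) (a i) η ρ t₂ with hψ
  set χ : ℂ → ℂ := fun w => 1 - ∑ i, ψ i w with hχ
  set Q : ℂ → ℂ := fun w => χ w * g w with hQ
  set S : ι → Set ℂ := fun i => H i ∪ a i '' {ζ | 1 < ‖ζ‖ ∧ ‖ζ‖ ≤ t₂} with hS
  set T : ι → Set ℂ := fun i => H i ∪ a i '' annu ρ with hT
  set O : ι → Set ℂ := fun i => H i ∪ a i '' annu t₁ with hO
  set K : ι → Set ℂ := fun i => a i '' band t₁ t₂ with hK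
  have hSc : ∀ i, IsCompact (S i) := fun i => by
    rw [hS]; simp only [hclo]
    exact ((hyp i).2.2.2.2.2.2.2 t₂ (h₁.trans h12) h₂).1
  have hOo : ∀ i, IsOpen (O i) := fun i => by
    rw [hO]; simp only [hann']
    exact ((hyp i).2.2.2.2.2.2.2 t₁ h₁ (h12.trans h₂)).2
  have hTo : ∀ i, IsOpen (T i) := fun i => by
    rw [hT]; simp only [hann]; exact (hyp i).2.2.2.2.2.1
  have hTR : ∀ i, T i ⊆ closedBall 0 R := fun i => by
    rw [hT]; simp only [hann]; exact (hyp i).2.2.2.2.2.2.1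
  have hTd : ∀ i j, i ≠ j → Disjoint (T i) (T j) := fun i j h => by
    rw [hT]; simp only [hann]; exact hdisj h
  have hHd : ∀ i, Disjoint (H i) (a i '' annu ρ) := fun i => by
    rw [hann]; exact (hyp i).2.2.2.2.1
  have hST : ∀ i, S i ⊆ T i := fun i =>
    union_subset_union Subset.rfl (image_mono fun ζ hζ => ⟨hζ.1, hζ.2.trans_lt h₂⟩)
  have hao : ∀ i, IsOpen (a i '' annu ρ) := fun i => by
    have : a i '' annu ρ = T i \ H i := by
      rw [hT]; exact (union_sdiff_cancel_left (hHd i).le_bot).symm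
    rw [this]; exact (hTo i).sdiff (hyp i).1.isClosed
  -- the cutoff near a point
  have hzero : ∀ i j, i ≠ j → ∀ w ∈ T i, ψ j w = 0 := fun i j h w hw =>
    psi_out fun hw' => (hTd i j h).le_bot ⟨hw, hST j hw'⟩
  have hχT : ∀ i, ∀ w ∈ T i, χ w = 1 - ψ i w := by
    intro i w hw
    rw [hχ]; simp only
    rw [Finset.sum_eq_single i (fun j _ hj => hzero i j (Ne.symm hj) w hw) (by simp)]
  have hχout : ∀ w, (∀ i, w ∉ S i) → χ w = 1 := by
    intro w hw
    rw [hχ]; simp only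
    rw [Finset.sum_eq_zero fun i _ => psi_out (hw i), sub_zero]
  have hχO : ∀ i, ∀ w ∈ O i, χ w = 0 := by
    intro i w hw
    have hsub : annu t₁ ⊆ annu ρ := fun ζ hζ => ⟨hζ.1, hζ.2.trans (h12.trans h₂)⟩
    rw [hχT i w (union_subset_union Subset.rfl (image_mono hsub) hw), hψ]
    simp only
    rw [psi_in (haI i) h12.le h₂ hη0 hw, sub_self]
  have hχA : ∀ i, ∀ w ∈ a i '' annu ρ, χ w = (η ‖invFunOn (a i) (annu ρ) w‖ : ℂ) := by
    intro i w hw
    rw [hχT i w (Or.inr hw), hψ]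
    simp only
    rw [psi_ann (hHd i) (haI i) hη1 hw, sub_sub_cancel]
  -- three kinds of points
  have hcase : ∀ w, (∃ i, w ∈ O i) ∨ (∀ᶠ x in 𝓝 w, ∀ i, x ∉ S i) ∨ ∃ i, w ∈ K i := by
    intro w
    by_cases h : ∀ i, w ∉ S i
    · refine Or.inr (Or.inl ?_)
      exact eventually_all.2 fun i => (hSc i).isClosed.isOpen_compl.mem_nhds (h i)
    · push Not at h
      obtain ⟨i, hi⟩ := h
      rcases hi with hi | ⟨ζ, hζ, rfl⟩
      · exact Or.inl ⟨i, Or.inl hi⟩
      · by_cases ht : ‖ζ‖ < t₁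
        · exact Or.inl ⟨i, Or.inr ⟨ζ, ⟨hζ.1, ht⟩, rfl⟩⟩
        · exact Or.inr (Or.inr ⟨i, ζ, ⟨not_lt.1 ht, hζ.2⟩, rfl⟩)
  set D : Set ℂ := (⋃ i, H i)ᶜ with hD
  have hDo : IsOpen D := (isClosed_iUnion_of_finite fun i => (hyp i).1.isClosed).isOpen_compl
  have hgd : ∀ w ∈ D, DifferentiableAt ℂ g w := fun w hw =>
    (hM.differentiableAt (hDo.mem_nhds hw)).sub differentiableAt_id
  have hgc : ∀ w ∈ D, ContDiffAt ℝ 1 g w := fun w hw =>
    (((hM.sub differentiableOn_id).analyticAt (hDo.mem_nhds hw)).contDiffAt).restrict_scalars ℝ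
  have haD : ∀ i, a i '' annu ρ ⊆ D := by
    intro i w hw h
    obtain ⟨j, hj⟩ := mem_iUnion.1 h
    by_cases e : i = j
    · subst e; exact (hHd i).le_bot ⟨hj, hw⟩
    · exact (hTd i j e).le_bot ⟨Or.inr hw, Or.inl hj⟩
  have hKsub : ∀ i, K i ⊆ a i '' annu ρ := fun i => image_mono (band_subset_annu h₁ h₂)
  have houtD : ∀ w, (∀ i, w ∉ S i) → w ∈ D := fun w h hw => by
    obtain ⟨j, hj⟩ := mem_iUnion.1 hw
    exact h j (Or.inl hj)
  have hQO : ∀ i, ∀ w ∈ O i, Q =ᶠ[𝓝 w] fun _ => 0 := fun i w hw => by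
    filter_upwards [(hOo i).mem_nhds hw] with x hx
    simp [hQ, hχO i x hx]
  have hQout : ∀ w, (∀ᶠ x in 𝓝 w, ∀ i, x ∉ S i) → Q =ᶠ[𝓝 w] g := fun w hw => by
    filter_upwards [hw] with x hx
    simp [hQ, hχout x hx]
  have hQc : ContDiff ℝ 1 Q := by
    rw [contDiff_iff_contDiffAt]
    intro w
    rcases hcase w with ⟨i, hi⟩ | hw | ⟨i, hi⟩
    · exact contDiffAt_const.congr_of_eventuallyEq (hQO i w hi)
    · exact (hgc w (houtD w hw.self_of_nhds)).congr_of_eventuallyEq (hQout w hw)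
    · have hw := hKsub i hi
      refine ((contDiffAt_step hη (had i) (haI i) (hao i) hw).mul (hgc w (haD i hw))).congr_of_eventuallyEq ?_
      filter_upwards [(hao i).mem_nhds hw] with x hx
      simp [hQ, hχA i x hx]
  set G : ℂ → ℂ := fun w => (w - z)⁻¹ * dbar Q w with hG
  have hGzero : ∀ w, (∀ i, w ∉ K i) → dbar Q w = 0 := by
    intro w hw
    rcases hcase w with ⟨i, hi⟩ | h | ⟨i, hi⟩
    · rw [dbar_congr (hQO i w hi), dbar_const]
    · rw [dbar_congr (hQout w h), dbar_eq_zero (hgd w (houtD w h.self_of_nhds))]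
    · exact absurd hi (hw i)
  have hKc : ∀ i, IsCompact (K i) := fun i => (isCompact_band t₁ t₂).image_of_continuousOn
    ((had i).continuousOn.mono (band_subset_annu h₁ h₂))
  have hKR : ∀ i, ∀ w ∈ K i, ‖w‖ ≤ R := fun i w hw =>
    mem_closedBall_zero_iff.1 (hTR i (Or.inr (hKsub i hw)))
  have hdc : Continuous (dbar Q) := by
    unfold dbar
    have := hQc.continuous_fderiv one_ne_zero
    fun_prop
  have hGi : ∀ i, IntegrableOn G (K i) := fun i => by
    refine ContinuousOn.integrableOn_compact (hKc i) ?_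
    refine ((continuousOn_id.sub continuousOn_const).inv₀ fun w hw e => ?_).mul hdc.continuousOn
    have := hKR i w hw
    rw [sub_eq_zero.1 (show w - z = 0 from e)] at this
    linarith
  -- each annulus
  have hpiece : ∀ i, ‖∫ w in K i, G w‖ ≤ 2 * π * ρ * B / R *
      ((volume (A i '' annu ρ)).toReal + (volume (A' i '' annu ρ)).toReal) := by
    intro i
    have hsub := band_subset_annu h₁ h₂
    rw [hK]
    simp only
    rw [integral_image_eq_integral_abs_det_fderiv_smul volume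
      (isCompact_band t₁ t₂).isClosed.measurableSet
      (f' := fun ζ => (ContinuousLinearMap.toSpanSingleton ℂ (deriv (a i) ζ)).restrictScalars ℝ)
      (fun ζ hζ => (((had i).differentiableAt ((isOpen_annu ρ).mem_nhds (hsub hζ))).hasDerivAt.hasFDerivAt.restrictScalars
        ℝ).hasFDerivWithinAt) ((haI i).mono hsub)]
    have hbd : DifferentiableOn ℂ (b i) (annu ρ) := by
      refine DifferentiableOn.congr (hM.comp (had i) fun ζ hζ => haD i ⟨ζ, hζ, rfl⟩) fun ζ hζ => ?_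
      exact (hab i M (hMA i) ζ hζ).symm
    have hval : ∀ ζ ∈ band t₁ t₂,
        |((ContinuousLinearMap.toSpanSingleton ℂ (deriv (a i) ζ)).restrictScalars ℝ).det| •
          G (a i ζ) =
        ((deriv η ‖ζ‖ / ‖ζ‖ : ℝ) : ℂ) * ζ * deriv (a i) ζ * (b i ζ - a i ζ) / (a i ζ - z) := by
      intro ζ hζ
      have hζ' := hsub hζ
      have hw : a i ζ ∈ a i '' annu ρ := ⟨ζ, hζ', rfl⟩
      have hd := Vale.Agent.P142.Area.deriv_ne_zero_of_injOn (isOpen_annu ρ) (had i) (haI i) hζ'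
      have hζ0 : ζ ≠ 0 := fun e => by
        have := hζ'.1; rw [e, norm_zero] at this; linarith
      obtain ⟨hsd, hsv⟩ := dbar_step (η := η) (hasDerivAt_invFunOn (had i) (haI i) hζ')
        ((haI i).leftInvOn_invFunOn hζ') hζ0 ((hη.differentiable one_ne_zero) _)
      have hev : Q =ᶠ[𝓝 (a i ζ)] fun x => (η ‖invFunOn (a i) (annu ρ) x‖ : ℂ) * g x := by
        filter_upwards [(hao i).mem_nhds hw] with x hx
        simp [hQ, hχA i x hx]
      rw [Vale.Agent.P142.Area.abs_det_mul, hG]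
      simp only
      rw [dbar_congr hev, dbar_mul hsd ((hgd _ (haD i hw)).restrictScalars ℝ),
        dbar_eq_zero (hgd _ (haD i hw)), hsv, mul_zero, zero_add, hg]
      simp only
      rw [hab i M (hMA i) ζ hζ', Complex.real_smul, ← Complex.normSq_eq_norm_sq,
        ← Complex.mul_conj, map_inv₀]
      have : conj (deriv (a i) ζ) ≠ 0 := by simpa using hd
      field_simp
    rw [setIntegral_congr_fun (isCompact_band t₁ t₂).isClosed.measurableSet hval, ← hann i,
      ← hbImg i]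
    exact band_bound h₁ h₂ hη hB hB0 (had i) hbd (haI i) (hbI i)
      (fun w hw => hTR i (Or.inr hw)) (by rw [hbImg i]; exact (hyp i).2.2.2.1) hR hz
  -- the formula
  have hsum : ∫ w, G w = ∑ i, ∫ w in K i, G w := by
    rw [← integral_iUnion_fintype (fun i => (hKc i).isClosed.measurableSet)
      (fun i j h => (hTd i j h).mono (fun w hw => Or.inr (hKsub i hw))
        (fun w hw => Or.inr (hKsub j hw))) hGi]
    refine (setIntegral_eq_integral_of_forall_compl_eq_zero fun w hw => ?_).symm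
    simp only [mem_iUnion, not_exists] at hw
    simp [hG, hGzero w hw]
  set κ₀ : ContDiffBump (0 : ℂ) := ⟨1, 2, one_pos, one_lt_two⟩ with hκ₀
  have hκc : ContDiff ℝ 1 (κ₀ : ℂ → ℝ) := κ₀.contDiff
  obtain ⟨B', hB'⟩ := (hκc.continuous_fderiv one_ne_zero).bounded_above_of_compact_support
    (κ₀.hasCompactSupport.fderiv (𝕜 := ℝ))
  have hB'0 : 0 ≤ B' := (norm_nonneg _).trans (hB' 0)
  set σ : ℝ := ∑ i, ((volume (A i '' annu ρ)).toReal + (volume (A' i '' annu ρ)).toReal) with hσ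
  have hmain : ∀ ε > 0, 2 * π * ‖g z‖ ≤ 2 * π * ρ * B / R * σ + 8 * π * B' * ε := by
    intro ε hε
    obtain ⟨L₀, hL₀⟩ : ∃ L₀ : ℝ, ∀ w : ℂ, L₀ < ‖w‖ → ‖g w‖ ≤ ε := by
      have h : ∀ᶠ w in cocompact ℂ, ‖g w‖ ≤ ε :=
        (tendsto_zero_iff_norm_tendsto_zero.1 hMlim).eventually (ge_mem_nhds hε)
      obtain ⟨Kc, hKc', hsub⟩ := mem_cocompact.1 h
      obtain ⟨r, hr⟩ := hKc'.isBounded.subset_closedBall 0
      exact ⟨r, fun w hw => hsub fun hm => by
        have := mem_closedBall_zero_iff.1 (hr hm); linarith⟩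
    set L : ℝ := |L₀| + ‖z‖ + R + 1 with hL
    have hLp : 0 < L := by positivity
    set k : ℂ → ℂ := fun u => (κ₀ (L⁻¹ • u) : ℂ) with hk
    have hkd : ContDiff ℝ 1 k :=
      Complex.ofRealCLM.contDiff.comp (hκc.comp (contDiff_id.const_smul L⁻¹))
    have hk1 : ∀ u, ‖u‖ < L → k =ᶠ[𝓝 u] fun _ => 1 := by
      intro u hu
      filter_upwards [(isOpen_lt continuous_norm continuous_const).mem_nhds hu] with x hx
      have : L⁻¹ • x ∈ closedBall (0 : ℂ) κ₀.rIn := by
        rw [mem_closedBall_zero_iff, norm_smul, norm_inv, Real.norm_of_nonneg hLp.le,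
          inv_mul_le_iff₀ hLp]
        simpa [hκ₀] using le_of_lt hx
      simp only [hk]
      rw [κ₀.one_of_mem_closedBall this, Complex.ofReal_one]
    have hk0 : ∀ u, 2 * L < ‖u‖ → k =ᶠ[𝓝 u] fun _ => 0 := by
      intro u hu
      filter_upwards [(isOpen_lt continuous_const continuous_norm).mem_nhds hu] with x hx
      have : κ₀.rOut ≤ dist (L⁻¹ • x) 0 := by
        rw [dist_zero_right, norm_smul, norm_inv, Real.norm_of_nonneg hLp.le,
          le_inv_mul_iff₀ hLp]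
        have : L * κ₀.rOut = 2 * L := by simp [hκ₀]; ring
        linarith
      simp only [hk]
      rw [κ₀.zero_of_le_dist this, Complex.ofReal_zero]
    set Qz : ℂ → ℂ := fun u => Q (z + u) with hQz
    have hQzc : ContDiff ℝ 1 Qz := hQc.comp (contDiff_const.add contDiff_id)
    have hsupp : HasCompactSupport fun u => k u * Qz u := by
      refine HasCompactSupport.mul_right ?_
      refine .intro (isCompact_closedBall (0 : ℂ) (2 * L)) fun u hu => ?_
      exact (hk0 u (by simpa using hu)).self_of_nhds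
    have hCP := cauchy_pompeiu (hkd.mul hQzc) hsupp
    have hdQz : ∀ u, dbar Qz u = dbar Q (z + u) := fun u => by
      simp only [dbar, hQz, fderiv_comp_add_left]
    have hsplit : ∀ u, u⁻¹ • (fderiv ℝ (fun u => k u * Qz u) u 1 +
        I • fderiv ℝ (fun u => k u * Qz u) u I) =
        G (z + u) + u⁻¹ * (Qz u * dbar k u) := by
      intro u
      have h1 := dbar_mul ((hkd.differentiable one_ne_zero) u) ((hQzc.differentiable one_ne_zero) u)
      simp only [dbar, smul_eq_mul] at h1 ⊢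
      rw [h1]
      have h2 : k u * dbar Qz u = dbar Q (z + u) := by
        rw [hdQz]
        by_cases h : ∀ i, z + u ∉ K i
        · rw [hGzero _ h, mul_zero]
        · push Not at h
          obtain ⟨i, hi⟩ := h
          have : ‖u‖ < L := by
            have h3 := norm_sub_le (z + u) z
            rw [add_sub_cancel_left] at h3
            linarith [hKR i _ hi, abs_nonneg L₀]
          rw [(hk1 u this).self_of_nhds, one_mul]
      simp only [dbar] at h2
      rw [h2, hG]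
      simp only [add_sub_cancel_left, dbar]
      ring
    have herr : ∀ u, ‖u⁻¹ * (Qz u * dbar k u)‖ ≤
        (closedBall (0 : ℂ) (2 * L)).indicator (fun _ => 2 * B' * ε / L ^ 2) u := by
      intro u
      by_cases h1 : ‖u‖ < L
      · rw [dbar_congr (hk1 u h1), dbar_const]
        simp only [mul_zero, norm_zero]
        exact indicator_nonneg (fun _ _ => by positivity) u
      by_cases h2 : 2 * L < ‖u‖
      · rw [dbar_congr (hk0 u h2), dbar_const]
        simp only [mul_zero, norm_zero]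
        exact indicator_nonneg (fun _ _ => by positivity) u
      rw [indicator_of_mem (mem_closedBall_zero_iff.2 (not_lt.1 h2))]
      have hw : L - ‖z‖ ≤ ‖z + u‖ := by
        have := norm_le_add_norm_add u z
        rw [add_comm u z] at this
        linarith [not_lt.1 h1]
      have hSout : ∀ i, z + u ∉ S i := fun i hi => by
        have := mem_closedBall_zero_iff.1 (hTR i (hST i hi))
        linarith [abs_nonneg L₀]
      have hQv : ‖Qz u‖ ≤ ε := by
        simp only [hQz, hQ, hχout _ hSout, one_mul]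
        exact hL₀ _ (by linarith [le_abs_self L₀])
      have hdk : ‖dbar k u‖ ≤ 2 * B' / L := by
        have h3 : HasFDerivAt k (Complex.ofRealCLM.comp ((fderiv ℝ κ₀ (L⁻¹ • u)).comp
            (L⁻¹ • ContinuousLinearMap.id ℝ ℂ))) u :=
          Complex.ofRealCLM.hasFDerivAt.comp u
            (((hκc.differentiable one_ne_zero) _).hasFDerivAt.comp u
              ((hasFDerivAt_id u).const_smul L⁻¹))
        have h4 : ∀ v : ℂ, ‖v‖ = 1 → ‖fderiv ℝ k u v‖ ≤ B' / L := by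
          intro v hv
          rw [h3.fderiv]
          simp only [ContinuousLinearMap.comp_apply, smul_apply, ContinuousLinearMap.id_apply,
            map_smul, norm_smul, norm_inv, Real.norm_of_nonneg hLp.le, Complex.ofRealCLM_apply,
            Complex.norm_real]
          rw [div_eq_inv_mul]
          gcongr
          exact ((fderiv ℝ κ₀ _).le_opNorm v).trans (by rw [hv, mul_one]; exact hB' _)
        calc ‖dbar k u‖ ≤ ‖fderiv ℝ k u 1‖ + ‖I * fderiv ℝ k u I‖ := norm_add_le _ _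
          _ ≤ B' / L + B' / L := add_le_add (h4 1 (by simp))
              (by rw [norm_mul, Complex.norm_I, one_mul]; exact h4 I (by simp))
          _ = _ := by ring
      rw [norm_mul, norm_mul, norm_inv]
      calc ‖u‖⁻¹ * (‖Qz u‖ * ‖dbar k u‖) ≤ L⁻¹ * (ε * (2 * B' / L)) := by
            gcongr; exact not_lt.1 h1
        _ = _ := by field_simp
    have hindi : Integrable
        ((closedBall (0 : ℂ) (2 * L)).indicator fun _ => 2 * B' * ε / L ^ 2) := by
      rw [integrable_indicator_iff measurableSet_closedBall]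
      exact integrableOn_const measure_closedBall_lt_top.ne
    have herri : Integrable fun u => u⁻¹ * (Qz u * dbar k u) := by
      refine hindi.mono' ?_ (.of_forall herr)
      refine (measurable_inv.aestronglyMeasurable).mul (Continuous.aestronglyMeasurable ?_)
      have h5 := hkd.continuous_fderiv one_ne_zero
      have h6 := hQzc.continuous
      unfold dbar
      fun_prop
    have hGint : Integrable G := by
      refine IntegrableOn.integrable_of_forall_notMem_eq_zero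
        ((integrableOn_finite_iUnion.2 hGi : IntegrableOn G (⋃ i, K i))) fun w hw => ?_
      simp only [mem_iUnion, not_exists] at hw
      simp [hG, hGzero w hw]
    rw [integral_congr_ae (.of_forall hsplit),
      integral_add ((hGint.comp_add_left z)) herri, integral_add_left_eq_self G z, hsum] at hCP
    have hzout : ∀ i, z ∉ S i := fun i hi => by
      have := mem_closedBall_zero_iff.1 (hTR i (hST i hi))
      linarith
    have h0 : k 0 * Qz 0 = g z := by
      rw [(hk1 0 (by simpa using hLp)).self_of_nhds, hQz]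
      simp [hQ, hχout z hzout]
    rw [smul_eq_mul, h0] at hCP
    have := congrArg norm hCP
    rw [norm_mul, norm_neg, norm_mul, Complex.norm_real, Real.norm_of_nonneg Real.pi_nonneg,
      Complex.norm_two] at this
    rw [← this, hσ, Finset.mul_sum]
    refine (norm_add_le _ _).trans (add_le_add
      ((norm_sum_le _ _).trans (Finset.sum_le_sum fun i _ => hpiece i)) ?_)
    refine (norm_integral_le_of_norm_le hindi (.of_forall herr)).trans (le_of_eq ?_)
    rw [integral_indicator_const _ measurableSet_closedBall, smul_eq_mul, Measure.real,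
      Complex.volume_closedBall]
    rw [ENNReal.toReal_mul, ENNReal.toReal_pow, ENNReal.toReal_ofReal (by positivity)]
    simp
    field_simp
    ring
  have hlim : 2 * π * ‖g z‖ ≤ 2 * π * ρ * B / R * σ := by
    refine le_of_forall_pos_le_add fun ε hε => ?_
    have h := hmain (ε / (8 * π * B' + 1)) (by positivity)
    refine h.trans (add_le_add le_rfl ?_)
    rw [mul_div_assoc', div_le_iff₀ (by positivity)]
    nlinarith [mul_nonneg Real.pi_nonneg hB'0]
  have hρp : 0 < ρ := by linarith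
  show ‖g z‖ ≤ ρ * B / R * σ
  have h2π : 0 < 2 * π := by positivity
  refine le_of_mul_le_mul_left (hlim.trans (le_of_eq ?_)) h2π
  ring

end Vale.Agent.P116.Pack
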