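import Vale.Agent.P116.Pack.Image
import Mathlib.Topology.Bases

/-!
P116 Pack: derived sets of components; a univalent map transports them.
-/

noncomputable section

namespace Vale.Agent.P116.Pack

open Set Filter Metric TopologicalSpace Function
open scoped Topology

variable {K : Set ℂ} {B B' : Set (Set ℂ)}

lemma derived_mono (h : B ⊆ B') : derived K B ⊆ derived K B' := fun _ hE =>
  ⟨hE.1, fun O hO hEO => let ⟨E', h1, h2⟩ := hE.2 O hO hEO; ⟨E', h h1, h2⟩⟩

lemma iterate_derived_mono (k : ℕ) (h : B ⊆ B') : (derived K)^[k] B ⊆ (derived K)^[k] B' := by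
  induction k with
  | zero => exact h
  | succ k ih => simp only [Function.iterate_succ_apply']; exact derived_mono ih

/-- A member that is not derived is one of countably many. -/
lemma countable_diff_derived (hB : B ⊆ comps K) : (B \ derived K B).Countable := by
  classical
  obtain ⟨b, hbc, -, hbb⟩ := exists_countable_basis ℂ
  have hex : ∀ E ∈ B \ derived K B, ∃ V ∈ b, (V ∩ E).Nonempty ∧
      ∀ E' ∈ B, E' ≠ E → ¬ (E' ∩ V).Nonempty := by
    rintro E ⟨hE, hnd⟩
    obtain ⟨O, hO, hEO, hO'⟩ : ∃ O : Set ℂ, IsOpen O ∧ E ⊆ O ∧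
        ∀ E' ∈ B, E' ≠ E → ¬ (E' ∩ O).Nonempty := by
      by_contra! h
      exact hnd ⟨hB hE, fun O hO hEO => h O hO hEO⟩
    obtain ⟨e, he⟩ := comps_nonempty (hB hE)
    obtain ⟨V, hVb, heV, hVO⟩ := hbb.exists_subset_of_mem_open (hEO he) hO
    exact ⟨V, hVb, ⟨e, heV, he⟩, fun E' h1 h2 ⟨x, hx, hx'⟩ => hO' E' h1 h2 ⟨x, hx, hVO hx'⟩⟩
  choose! V hVb hVE hVne using hex
  refine countable_of_injective_of_countable_image (f := V) (fun E hE E' hE' heq => ?_)
    (hbc.mono (by rintro _ ⟨E, hE, rfl⟩; exact hVb E hE))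
  by_contra hne
  obtain ⟨x, hx, hxE⟩ := hVE E hE
  exact hVne E' hE' E hE.1 hne ⟨x, hxE, heq ▸ hx⟩

/-- A set of components of finite rank is countable. -/
lemma countable_of_finRank (hB : B ⊆ comps K) (k : ℕ) (hk : (derived K)^[k] B = ∅) :
    B.Countable := by
  induction k generalizing B with
  | zero => rw [show B = ∅ from hk]; exact countable_empty
  | succ k ih =>
    rw [Function.iterate_succ_apply] at hk
    refine ((countable_diff_derived hB).union (ih (fun E hE => hE.1) hk)).mono fun E hE => ?_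
    by_cases h : E ∈ derived K B
    · exact Or.inr h
    · exact Or.inl ⟨hE, h⟩

/-- Finitely many components have rank one. -/
lemma derived_finite (hK : IsCompact K) (hB : B ⊆ comps K) (hfin : B.Finite) :
    derived K B = ∅ := by
  refine eq_empty_iff_forall_notMem.2 fun E hE => ?_
  have hc : IsCompact (⋃₀ (B \ {E})) :=
    hfin.diff.isCompact_sUnion fun E' hE' => comps_compact hK (hB hE'.1)
  obtain ⟨E', hE', hne, x, hx, hx'⟩ := hE.2 _ hc.isClosed.isOpen_compl (by
    rintro x hx ⟨E', ⟨hE', hne⟩, hx'⟩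
    exact hne ((comps_eq (hB hE') hx').symm.trans (comps_eq hE.1 hx)))
  exact hx' ⟨E', ⟨hE', hne⟩, hx⟩

/-- Transport of derived sets by a univalent map. -/
lemma derived_image (hC : ClusStmt) (hL : LimitStmt) {U : Set ℂ} {f : ℂ → ℂ} (hf : IsExt U f)
    {B : Set (Set ℂ)} (hB : B ⊆ comps Uᶜ)
    (hcomps : comps (f '' U)ᶜ = (fun E => clus U f E) '' comps Uᶜ) :
    derived (f '' U)ᶜ ((fun E => clus U f E) '' B) ⊆
      (fun E => clus U f E) '' derived Uᶜ B := by
  rintro C hC'
  have hCc := hC'.1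
  rw [hcomps] at hCc
  obtain ⟨E, hE, rfl⟩ := hCc
  refine ⟨E, ⟨hE, fun O hO hEO => ?_⟩, rfl⟩
  by_contra! hO'
  obtain ⟨-, -, hcl⟩ := hC U f hf
  set T := ⋃ E' ∈ {E' ∈ B | E' ≠ E}, clus U f E' with hT
  have hdis : Disjoint (closure T) (clus U f E) := by
    refine Set.disjoint_left.2 fun w hw hwE => ?_
    obtain ⟨x, hx, hxw⟩ := mem_closure_iff_seq_limit.1 hw
    choose En hEn hxn using fun n => mem_iUnion₂.1 (hx n)
    choose p hp using fun n => comps_nonempty (hB (hEn n).1)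
    have hpK : ∀ n, p n ∈ Uᶜ \ O := fun n => ⟨comps_subset (hB (hEn n).1) (hp n),
      fun h => by simpa [hO' _ (hEn n).1 (hEn n).2] using (⟨p n, hp n, h⟩ : (En n ∩ O).Nonempty)⟩
    obtain ⟨q, hq, φ, hφ, hφp⟩ := (hf.dom.compact_compl.diff hO).tendsto_subseq hpK
    have hlim : TendstoLocallyUniformlyOn (fun _ : ℕ => f) f atTop U :=
      fun u hu x _ => ⟨univ, univ_mem, Eventually.of_forall fun _ y _ => refl_mem_uniformity hu⟩
    obtain ⟨-, hchar⟩ := hL U (fun _ => U) (fun _ => f) f hf.dom (fun _ => Subset.rfl)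
      (fun _ => hf) hlim
    set Q := connectedComponentIn Uᶜ q
    have hQ : Q ∈ comps Uᶜ := mem_comps hq.1
    have hwQ : w ∈ clus U f Q := (hchar Q hQ w).2 ⟨id, fun j => p (φ j), fun j => x (φ j),
      strictMono_id, fun j => by rw [img_of_mem_comps (hB (hEn _).1) (hp _)]; exact hxn _,
      ⟨q, mem_connectedComponentIn hq.1, hφp⟩, hxw.comp hφ.tendsto_atTop⟩
    have hne : Q ≠ E := fun h => hq.2 (hEO (h ▸ mem_connectedComponentIn hq.1))
    exact Set.disjoint_left.1 ((hcl E hE).2.2.2 Q hQ hne) hwE hwQ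
  obtain ⟨C', ⟨E', hE', rfl⟩, hne, v, hv, hv'⟩ := hC'.2 (closure T)ᶜ isClosed_closure.isOpen_compl
    fun v hv hv' => Set.disjoint_left.1 hdis hv' hv
  exact hv' (subset_closure (mem_biUnion (x := E') ⟨hE', fun h => hne (h ▸ rfl)⟩ hv))

end Vale.Agent.P116.Pack
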