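import Vale.Agent.P116.Pack.Basic

/-!
P116 Pack: next to discs every component is good (disjoint discs in a ball have bounded area).
-/

noncomputable section

namespace Vale.Agent.P116.Pack

open Set Filter Metric MeasureTheory
open scoped Topology

private lemma volume_real_ball (c : ℂ) {s : ℝ} (hs : 0 ≤ s) :
    volume.real (ball c s) = Real.pi * s ^ 2 := by
  rw [measureReal_def, Complex.volume_ball]
  simp [ENNReal.toReal_mul, ENNReal.toReal_pow, hs, mul_comm]

/-- A disc that meets a set contains a smaller disc near the meeting point. -/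
private lemma exists_subdisc {c x : ℂ} {ρ s : ℝ} (hs : 0 ≤ s) (hsρ : s ≤ ρ)
    (hx : x ∈ closedBall c ρ) : ∃ c' : ℂ, ball c' s ⊆ closedBall c ρ ∧ dist c' x ≤ s := by
  rcases (hs.trans hsρ).eq_or_lt with h0 | h0
  · exact ⟨x, by rw [le_antisymm (hsρ.trans h0.ge) hs, ball_zero]; exact empty_subset _, by simp [hs]⟩
  rw [mem_closedBall, dist_eq_norm] at hx
  refine ⟨c + (((ρ - s) / ρ : ℝ) : ℂ) * (x - c), fun y hy => ?_, ?_⟩
  · rw [mem_ball] at hy
    rw [mem_closedBall]
    have h1 : dist (c + (((ρ - s) / ρ : ℝ) : ℂ) * (x - c)) c ≤ ρ - s := by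
      rw [dist_eq_norm, add_sub_cancel_left, norm_mul,
        Complex.norm_of_nonneg (div_nonneg (by linarith) h0.le)]
      calc (ρ - s) / ρ * ‖x - c‖ ≤ (ρ - s) / ρ * ρ :=
            mul_le_mul_of_nonneg_left hx (div_nonneg (by linarith) h0.le)
        _ = ρ - s := div_mul_cancel₀ _ h0.ne'
    linarith [dist_triangle y (c + (((ρ - s) / ρ : ℝ) : ℂ) * (x - c)) c]
  · rw [dist_eq_norm, show c + (((ρ - s) / ρ : ℝ) : ℂ) * (x - c) - x =
      -(((s / ρ : ℝ) : ℂ) * (x - c)) by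
        rw [show ((ρ - s) / ρ : ℝ) = 1 - s / ρ by rw [sub_div, div_self h0.ne']]
        push_cast
        ring, norm_neg, norm_mul, Complex.norm_of_nonneg (div_nonneg hs h0.le)]
    calc s / ρ * ‖x - c‖ ≤ s / ρ * ρ := mul_le_mul_of_nonneg_left hx (div_nonneg hs h0.le)
      _ = s := div_mul_cancel₀ _ h0.ne'

theorem discGood : DiscGoodStmt := by
  intro K E O hK hE hO hEO hdiscs q hq
  classical
  refine ⟨36, fun r₀ hr₀ => ?_⟩
  obtain ⟨d, hd, hdO⟩ := Metric.isOpen_iff.1 hO q (hEO hq)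
  have hm : 0 < min r₀ (d / 3) := lt_min hr₀ (by linarith)
  set r := min r₀ (d / 3) / 2 with hr
  have hr0 : 0 < r := by positivity
  have hrlt : r < r₀ := by linarith [min_le_left r₀ (d / 3)]
  refine ⟨r, hr0, hrlt, fun F hF => ?_⟩
  have hdisc : ∀ E' ∈ F, ∃ (c : ℂ) (ρ : ℝ), E' = closedBall c ρ := by
    intro E' hE'
    obtain ⟨h1, h2, x, hx, hxr⟩ := hF E' hE'
    refine hdiscs E' h1 h2 ⟨x, hx, hdO ?_⟩
    rw [mem_ball]
    linarith [hxr.2, min_le_right r₀ (d / 3)]
  have hsub : ∀ E' ∈ F, ∃ (c : ℂ) (s : ℝ), 0 ≤ s ∧ ball c s ⊆ E' ∧ ball c s ⊆ ball q (3 * r) ∧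
      min (diam E') r ^ 2 ≤ 4 * s ^ 2 := by
    intro E' hE'
    obtain ⟨c, ρ, rfl⟩ := hdisc E' hE'
    obtain ⟨h1, -, x, hx, hxr⟩ := hF _ hE'
    have hρ : 0 ≤ ρ := dist_nonneg.trans (mem_closedBall.1 hx)
    obtain ⟨c', hc', hcx⟩ := exists_subdisc (le_min hρ (by linarith : (0 : ℝ) ≤ r / 2))
      (min_le_left ρ (r / 2)) hx
    refine ⟨c', min ρ (r / 2), le_min hρ (by linarith), hc', fun y hy => ?_, ?_⟩
    · rw [mem_ball] at hy ⊢
      linarith [dist_triangle y c' q, dist_triangle c' x q, min_le_right ρ (r / 2), hxr.2]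
    · have hdm : diam (closedBall c ρ) ≤ 2 * ρ := diam_closedBall hρ
      have h0 : 0 ≤ min (diam (closedBall c ρ)) r := le_min diam_nonneg hr0.le
      have hle : min (diam (closedBall c ρ)) r ≤ 2 * min ρ (r / 2) := by
        rcases le_total ρ (r / 2) with h | h
        · rw [min_eq_left h]; exact (min_le_left _ _).trans hdm
        · rw [min_eq_right h]; linarith [min_le_right (diam (closedBall c ρ)) r]
      calc min (diam (closedBall c ρ)) r ^ 2 ≤ (2 * min ρ (r / 2)) ^ 2 := pow_le_pow_left₀ h0 hle 2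
        _ = 4 * min ρ (r / 2) ^ 2 := by ring
  choose! c s hs hin hball hmin using hsub
  have hdis : (F : Set (Set ℂ)).PairwiseDisjoint fun E' => ball (c E') (s E') := fun a ha b hb hab =>
    (comps_disjoint (hF a ha).1 (hF b hb).1 fun e => hab e.symm).mono (hin a ha) (hin b hb)
  have hvol : volume.real (⋃ E' ∈ F, ball (c E') (s E')) =
      ∑ E' ∈ F, volume.real (ball (c E') (s E')) :=
    measureReal_biUnion_finset hdis (fun _ _ => measurableSet_ball)
      fun _ _ => measure_ball_lt_top.ne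
  have hle : ∑ E' ∈ F, volume.real (ball (c E') (s E')) ≤ volume.real (ball q (3 * r)) :=
    hvol ▸ measureReal_mono (iUnion₂_subset hball) measure_ball_lt_top.ne
  rw [volume_real_ball q (by linarith), Finset.sum_congr rfl
    fun E' hE' => volume_real_ball (c E') (hs E' hE'), ← Finset.mul_sum] at hle
  have hsum : ∑ E' ∈ F, s E' ^ 2 ≤ (3 * r) ^ 2 := le_of_mul_le_mul_left hle Real.pi_pos
  calc ∑ E' ∈ F, min (diam E') r ^ 2 ≤ ∑ E' ∈ F, 4 * s E' ^ 2 := Finset.sum_le_sum hmin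
    _ = 4 * ∑ E' ∈ F, s E' ^ 2 := by rw [Finset.mul_sum]
    _ ≤ 36 * r ^ 2 := by nlinarith

end Vale.Agent.P116.Pack
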