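import Vale.Agent.P116.Pack.Basic

/-!
P116 Pack: cluster sets and images of connected sets.
-/

noncomputable section

namespace Vale.Agent.P116.Pack

open Set Filter Metric Function
open scoped Topology

variable {U E X : Set ℂ} {f : ℂ → ℂ} {p q w : ℂ}

lemma not_mem_of_mem_comps (hE : E ∈ comps Uᶜ) (hp : p ∈ E) : p ∉ U := comps_subset hE hp

/-- A small disc is mapped onto a neighbourhood. -/
lemma IsExt.image_ball_mem_nhds (hf : IsExt U f) (hp : p ∈ U) {ε : ℝ} (hε : 0 < ε) :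
    f '' (U ∩ ball p ε) ∈ 𝓝 (f p) := by
  have hV : U ∩ ball p ε ∈ 𝓝 p := inter_mem (hf.dom.isOpen.mem_nhds hp) (ball_mem_nhds p hε)
  have han : AnalyticAt ℂ f p := hf.diff.analyticAt (hf.dom.isOpen.mem_nhds hp)
  rcases han.eventually_constant_or_nhds_le_map_nhds with hconst | hmap
  · obtain ⟨δ, hδ, hδc⟩ := Metric.eventually_nhds_iff_ball.1
      (hconst.and (hf.dom.isOpen.eventually_mem hp))
    have hw : p + ((δ / 2 : ℝ) : ℂ) ∈ ball p δ := by
      rw [mem_ball, dist_eq_norm, add_sub_cancel_left, Complex.norm_of_nonneg (by linarith)]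
      linarith
    have he := hf.injOn (hδc _ hw).2 hp (hδc _ hw).1
    simp [hδ.ne'] at he
  · exact hmap (image_mem_map hV)

lemma notMem_image_of_mem_bclus (hf : IsExt U f) (hE : E ∈ comps Uᶜ) (hw : w ∈ bclus U f E) :
    w ∉ f '' U := by
  rintro ⟨u, hu, rfl⟩
  obtain ⟨p, hpE, hpc⟩ := hw
  have hpu : 0 < dist p u / 2 := by
    have : p ≠ u := fun h => not_mem_of_mem_comps hE hpE (h ▸ hu)
    exact half_pos (dist_pos.2 this)
  have h1 := hpc.frequently (hf.image_ball_mem_nhds hu hpu)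
  have h2 : ∀ᶠ z in 𝓝[U] p, z ∈ U ∧ dist z p < dist p u / 2 :=
    eventually_mem_nhdsWithin.and (nhdsWithin_le_nhds (ball_mem_nhds p hpu))
  obtain ⟨z, ⟨z', hz', hzz⟩, hzU, hzp⟩ := (h1.and_eventually h2).exists
  obtain rfl := hf.injOn hz'.1 hzU hzz
  have h3 : dist z' u < dist p u / 2 := hz'.2
  linarith [dist_triangle_left p u z', hzp, h3]

lemma bclus_subset_clus (hf : IsExt U f) (hE : E ∈ comps Uᶜ) : bclus U f E ⊆ clus U f E :=
  fun w hw => ⟨notMem_image_of_mem_bclus hf hE hw, w,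
    mem_connectedComponentIn (notMem_image_of_mem_bclus hf hE hw), hw⟩

lemma bclus_nonempty_of_clus (h : (clus U f E).Nonempty) : (bclus U f E).Nonempty := by
  obtain ⟨w, -, b, -, hb⟩ := h
  exact ⟨b, hb⟩

/-- The value at infinity keeps bounded values coming from bounded points. -/
lemma IsExt.exists_bound_preimage (hf : IsExt U f) (B : ℝ) :
    ∃ T : ℝ, ∀ z : ℂ, ‖f z‖ ≤ B → ‖z‖ ≤ T := by
  have h := hf.norm_inf.norm
  rw [norm_zero] at h
  have h1 : ∀ᶠ z : ℂ in cocompact ℂ, ‖f z - z‖ < 1 := h.eventually_lt_const one_pos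
  rw [← cobounded_eq_cocompact, ← comap_norm_atTop, eventually_comap, eventually_atTop] at h1
  obtain ⟨T, hT⟩ := h1
  refine ⟨max T (B + 1), fun z hz => le_of_not_gt fun hlt => ?_⟩
  have := hT ‖z‖ (le_trans (le_max_left _ _) hlt.le) z rfl
  linarith [le_max_right T (B + 1), norm_le_norm_add_norm_sub (f z) z]

/-- A point of a cluster part that is approached from the image is a boundary value. -/
lemma mem_bclus_of_mem_closure (hC : ClusStmt) (hf : IsExt U f) (hE : E ∈ comps Uᶜ)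
    (hw : w ∈ clus U f E) (hcl : w ∈ closure (f '' U)) : w ∈ bclus U f E := by
  obtain ⟨x, hx, hxw⟩ := mem_closure_iff_seq_limit.1 hcl
  choose z hzU hzx using hx
  obtain ⟨B, hB⟩ := (isBounded_iff_forall_norm_le).1 (Metric.isBounded_range_of_tendsto x hxw)
  obtain ⟨T, hT⟩ := hf.exists_bound_preimage B
  obtain ⟨p, -, φ, hφ, hφp⟩ := (isCompact_closedBall (0 : ℂ) T).tendsto_subseq
    (x := z) fun n => mem_closedBall_zero_iff.2 (hT _ (hzx n ▸ hB _ (mem_range_self n)))
  have hfw : Tendsto (fun n => f (z (φ n))) atTop (𝓝 w) :=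
    (hxw.comp hφ.tendsto_atTop).congr fun n => (hzx (φ n)).symm
  have hpU : p ∉ U := fun hp => hw.1 ⟨p, hp,
    tendsto_nhds_unique ((hf.continuousAt hp).tendsto.comp hφp) hfw⟩
  have hwb : w ∈ bclus U f (connectedComponentIn Uᶜ p) :=
    ⟨p, mem_connectedComponentIn hpU, MapClusterPt.of_comp
      (φ := fun n => z (φ n))
      (tendsto_nhdsWithin_iff.2 ⟨hφp, Eventually.of_forall fun n => hzU _⟩) hfw.mapClusterPt⟩
  obtain ⟨-, -, hp⟩ := hC U f hf
  by_cases he : connectedComponentIn Uᶜ p = E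
  · exact he ▸ hwb
  · exact absurd (bclus_subset_clus hf (mem_comps hpU) hwb)
      (Set.disjoint_left.1 ((hp E hE).2.2.2 _ (mem_comps hpU) he) hw)

/-- Near a component the values are near its part. -/
lemma eventually_mem_of_clus_subset (hA : AreaBoundStmt) (hf : IsExt U f) (hE : E ∈ comps Uᶜ)
    (hp : p ∈ E) {O : Set ℂ} (hO : IsOpen O) (hsub : clus U f E ⊆ O) :
    ∀ᶠ z in 𝓝[U] p, f z ∈ O := by
  obtain ⟨C, hC1, hC⟩ := hA
  obtain ⟨R, hR1, hR⟩ := hf.dom.exists_radius
  obtain ⟨-, hb⟩ := hC U f R (by linarith) hf hR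
  by_contra h
  have h2 : ∀ᶠ z in 𝓝[U] p, f z ∈ closedBall (0 : ℂ) (C * (‖p‖ + 1 + R)) := by
    filter_upwards [eventually_mem_nhdsWithin,
      nhdsWithin_le_nhds (ball_mem_nhds p one_pos)] with z hzU hz
    rw [mem_closedBall_zero_iff]
    refine (hb z hzU).trans ?_
    have : dist z p < 1 := hz
    rw [dist_eq_norm] at this
    gcongr
    linarith [norm_le_norm_add_norm_sub p z, norm_sub_rev z p]
  obtain ⟨w, hw, hwc⟩ := ((isCompact_closedBall _ _).diff hO).exists_mapClusterPt_of_frequently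
    (((not_eventually.1 h).and_eventually h2).mono fun z hz => ⟨hz.2, hz.1⟩)
  exact hw.2 (hsub (bclus_subset_clus hf hE ⟨p, hp, hwc⟩))

lemma img_of_mem (hp : p ∈ U) : img U f p = {f p} := by
  ext w
  simp [img, hp]

lemma img_of_notMem (hp : p ∉ U) : img U f p = clus U f (connectedComponentIn Uᶜ p) := by
  ext w
  simp [img, hp]

lemma img_of_mem_comps (hE : E ∈ comps Uᶜ) (hp : p ∈ E) : img U f p = clus U f E := by
  rw [img_of_notMem (not_mem_of_mem_comps hE hp), comps_eq hE hp]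

lemma img_nonempty (hC : ClusStmt) (hf : IsExt U f) (p : ℂ) : (img U f p).Nonempty := by
  by_cases hp : p ∈ U
  · simp [img_of_mem hp]
  · rw [img_of_notMem hp]
    exact ((hC U f hf).2.2 _ (mem_comps hp)).1

lemma img_subset_ball {C R : ℝ} (hC : ClusStmt) (hf : IsExt U f)
    (hb : (f '' U)ᶜ ⊆ closedBall 0 (C * R) ∧ ∀ z ∈ U, ‖f z‖ ≤ C * (‖z‖ + R)) (h0 : 0 ≤ C)
    (p : ℂ) : img U f p ⊆ closedBall 0 (C * (‖p‖ + R)) := by
  by_cases hp : p ∈ U
  · rw [img_of_mem hp, singleton_subset_iff, mem_closedBall_zero_iff]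
    exact hb.2 p hp
  · rw [img_of_notMem hp]
    intro w hw
    refine closedBall_subset_closedBall ?_ (hb.1 ?_)
    · nlinarith [norm_nonneg p]
    · exact hw.1

/-- The images of a connected set form a connected set. -/
lemma img_preconnected (hA : AreaBoundStmt) (hC : ClusStmt) (hf : IsExt U f)
    (hfin : (comps Uᶜ).Finite) (hpre : ∀ E ∈ comps Uᶜ, IsPreconnected (clus U f E))
    (hX : IsPreconnected X) : IsPreconnected (⋃ p ∈ X, img U f p) := by
  set T := ⋃ p ∈ X, img U f p with hT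
  intro a b ha hb hab hna hnb
  by_contra hne
  have hone : ∀ p ∈ X, img U f p ⊆ a ∧ Disjoint (img U f p) b ∨
      img U f p ⊆ b ∧ Disjoint (img U f p) a := by
    intro p hp
    have hsub : img U f p ⊆ T := fun w hw => mem_biUnion hp hw
    have hpc : IsPreconnected (img U f p) := by
      by_cases hpU : p ∈ U
      · rw [img_of_mem hpU]; exact isPreconnected_singleton
      · rw [img_of_notMem hpU]; exact hpre _ (mem_comps hpU)
    by_cases h1 : (img U f p ∩ a).Nonempty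
    · refine Or.inl ⟨fun w hw => ?_, Set.disjoint_left.2 fun w hw hwb => ?_⟩
      · by_contra hwa
        obtain ⟨v, hv, hv'⟩ := hpc a b ha hb (hsub.trans hab) h1
          ⟨w, hw, (hab (hsub hw)).resolve_left hwa⟩
        exact hne ⟨v, hsub hv, hv'⟩
      · obtain ⟨v, hv, hv'⟩ := hpc a b ha hb (hsub.trans hab) h1 ⟨w, hw, hwb⟩
        exact hne ⟨v, hsub hv, hv'⟩
    · exact Or.inr ⟨fun w hw => (hab (hsub hw)).resolve_left fun h => h1 ⟨w, hw, h⟩,
        Set.disjoint_left.2 fun w hw hwa => h1 ⟨w, hw, hwa⟩⟩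
  have hloc : ∀ o : Set ℂ, IsOpen o → ∀ p, img U f p ⊆ o → ∀ᶠ p' in 𝓝 p, (img U f p' ∩ o).Nonempty := by
    intro o ho p hpo
    by_cases hpU : p ∈ U
    · rw [img_of_mem hpU, singleton_subset_iff] at hpo
      filter_upwards [(hf.continuousAt hpU).preimage_mem_nhds (ho.mem_nhds hpo),
        hf.dom.isOpen.eventually_mem hpU] with p' h1 h2
      exact ⟨f p', by simp [img_of_mem h2], h1⟩
    · set E := connectedComponentIn Uᶜ p with hE
      have hEc : E ∈ comps Uᶜ := mem_comps hpU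
      have hpE : p ∈ E := mem_connectedComponentIn hpU
      rw [img_of_notMem hpU] at hpo
      have h1 := eventually_mem_of_clus_subset hA hf hEc hpE ho hpo
      rw [eventually_nhdsWithin_iff] at h1
      have hcl : IsClosed (⋃₀ (comps Uᶜ \ {E})) :=
        (hfin.diff.isCompact_sUnion fun E' hE' =>
          comps_compact hf.dom.compact_compl hE'.1).isClosed
      have h2 : ∀ᶠ p' in 𝓝 p, p' ∉ ⋃₀ (comps Uᶜ \ {E}) := by
        refine hcl.isOpen_compl.eventually_mem ?_
        rintro ⟨E', ⟨hE', hne'⟩, hp'⟩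
        exact hne' ((comps_eq hE' hp').symm.trans (comps_eq hEc hpE))
      filter_upwards [h1, h2] with p' h1' h2'
      by_cases hp'U : p' ∈ U
      · exact ⟨f p', by simp [img_of_mem hp'U], h1' hp'U⟩
      · have : connectedComponentIn Uᶜ p' = E := by
          by_contra hne'
          exact h2' ⟨_, ⟨mem_comps hp'U, hne'⟩, mem_connectedComponentIn hp'U⟩
        rw [img_of_notMem hp'U, this, inter_eq_self_of_subset_left hpo]
        exact ((hC U f hf).2.2 E hEc).1
  obtain ⟨w, hwT, hwa⟩ := hna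
  obtain ⟨w', hwT', hwb⟩ := hnb
  obtain ⟨p, hpX, hwp⟩ := mem_iUnion₂.1 hwT
  obtain ⟨p', hpX', hwp'⟩ := mem_iUnion₂.1 hwT'
  set A := {x | ∀ᶠ y in 𝓝 x, (img U f y ∩ a).Nonempty}
  set B := {x | ∀ᶠ y in 𝓝 x, (img U f y ∩ b).Nonempty}
  obtain ⟨x, hxX, hxA, hxB⟩ := hX A B isOpen_setOf_eventually_nhds isOpen_setOf_eventually_nhds
    (fun x hx => (hone x hx).imp (fun h => hloc a ha x h.1) fun h => hloc b hb x h.1)
    ⟨p, hpX, hloc a ha p ((hone p hpX).elim (fun h => h.1)
      fun h => absurd hwa (Set.disjoint_left.1 h.2 hwp))⟩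
    ⟨p', hpX', hloc b hb p' ((hone p' hpX').elim
      (fun h => absurd hwb (Set.disjoint_left.1 h.2 hwp')) fun h => h.1)⟩
  obtain ⟨u, hu, hua⟩ := Eventually.self_of_nhds (show ∀ᶠ y in 𝓝 x, _ from hxA)
  obtain ⟨v, hv, hvb⟩ := Eventually.self_of_nhds (show ∀ᶠ y in 𝓝 x, _ from hxB)
  rcases hone x hxX with h | h
  · exact Set.disjoint_left.1 h.2 hv hvb
  · exact Set.disjoint_left.1 h.2 hu hua

end Vale.Agent.P116.Pack
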