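import Vale.Agent.P116.Pack.Basic
import Vale.Agent.P136.Full.Transport.Cauchy
import Vale.Agent.P142.Area

/-!
P116 Pack: a smoothed winding number of the image of a univalent map.

For a smooth function `χ` with compact support that is locally constant near the complement of `U`,
`idx f χ w` does not move while `w` avoids the image of the support of `dχ`, and equals `χ a` at
`w = f a`.
-/

noncomputable section

namespace Vale.Agent.P116.Pack.Wind

open Set Filter Metric MeasureTheory Complex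
open scoped Topology Real ContDiff

variable {U U' S : Set ℂ} {f : ℂ → ℂ} {χ : ℂ → ℂ} {a w w₀ p : ℂ}

/-- A test function for the complement of `U`. -/
structure Sep (U : Set ℂ) (χ : ℂ → ℂ) : Prop where
  smooth : ContDiff ℝ ∞ χ
  compact : HasCompactSupport χ
  supp : tsupport (fderiv ℝ χ) ⊆ U

lemma Sep.mono (hχ : Sep U χ) (h : U ⊆ U') : Sep U' χ :=
  ⟨hχ.smooth, hχ.compact, hχ.supp.trans h⟩

lemma Sep.isCompact_supp (hχ : Sep U χ) : IsCompact (tsupport (fderiv ℝ χ)) :=
  hχ.compact.fderiv ℝ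

/-- `2 ∂̄ χ`. -/
def dbar (χ : ℂ → ℂ) (z : ℂ) : ℂ := fderiv ℝ χ z 1 + I * fderiv ℝ χ z I

/-- The smoothed winding number of the image around `w`. -/
def idx (f χ : ℂ → ℂ) (w : ℂ) : ℂ :=
  -(1 / (2 * (π : ℂ))) * ∫ z, dbar χ z * (deriv f z / (f z - w))

lemma dbar_eq_zero {z : ℂ} (hz : z ∉ tsupport (fderiv ℝ χ)) : dbar χ z = 0 := by
  rw [dbar, image_eq_zero_of_notMem_tsupport hz]
  simp

lemma contDiff_dbar {n : ℕ} (hχ : ContDiff ℝ ∞ χ) : ContDiff ℝ n (dbar χ) := by
  have h : ContDiff ℝ n (fderiv ℝ χ) :=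
    hχ.fderiv_right (WithTop.coe_le_coe.2 le_top)
  exact (h.clm_apply contDiff_const).add (contDiff_const.mul (h.clm_apply contDiff_const))

lemma continuous_dbar (hχ : ContDiff ℝ ∞ χ) : Continuous (dbar χ) :=
  (contDiff_dbar (n := 0) hχ).continuous

/-- A function supported in a compact part of the set where it is `C¹`. -/
lemma contDiff_of_local {g : ℂ → ℂ} {O L : Set ℂ} {n : WithTop ℕ∞} (hL : IsClosed L)
    (hLO : L ⊆ O) (hg : ∀ z ∈ O, ContDiffAt ℝ n g z) (h0 : ∀ z ∉ L, g z = 0) :
    ContDiff ℝ n g := by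
  rw [contDiff_iff_contDiffAt]
  intro z
  by_cases hz : z ∈ O
  · exact hg z hz
  · refine (contDiffAt_const (c := (0 : ℂ))).congr_of_eventuallyEq ?_
    filter_upwards [hL.isOpen_compl.mem_nhds fun h => hz (hLO h)] with y hy using h0 y hy

lemma continuous_of_local {g : ℂ → ℂ} {O L : Set ℂ} (hO : IsOpen O) (hL : IsClosed L)
    (hLO : L ⊆ O) (hg : ContinuousOn g O) (h0 : ∀ z ∉ L, g z = 0) : Continuous g := by
  rw [continuous_iff_continuousAt]
  intro z
  by_cases hz : z ∈ O
  · exact hg.continuousAt (hO.mem_nhds hz)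
  · refine (continuousAt_const (y := (0 : ℂ))).congr ?_
    filter_upwards [hL.isOpen_compl.mem_nhds fun h => hz (hLO h)] with y hy using (h0 y hy).symm

lemma contDiffAt_of_differentiableOn {g : ℂ → ℂ} {O : Set ℂ} {n : WithTop ℕ∞} (hO : IsOpen O)
    (hg : DifferentiableOn ℂ g O) {z : ℂ} (hz : z ∈ O) : ContDiffAt ℝ n g z :=
  ((hg.analyticAt (hO.mem_nhds hz)).contDiffAt).restrict_scalars ℝ

lemma fderiv_real_apply {g : ℂ → ℂ} {z : ℂ} (hg : DifferentiableAt ℂ g z) (v : ℂ) :
    fderiv ℝ g z v = v * deriv g z := by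
  rw [(hg.hasDerivAt.hasFDerivAt.restrictScalars ℝ).fderiv]
  simp

/-- The integral of a derivative of a compactly supported `C¹` function vanishes. -/
lemma integral_fderiv_apply_zero {M : ℂ → ℂ} (hM : ContDiff ℝ 1 M) (hc : HasCompactSupport M)
    (v : ℂ) : ∫ z, fderiv ℝ M z v = 0 := by
  have hd : Continuous fun z => fderiv ℝ M z v :=
    (hM.continuous_fderiv one_ne_zero).clm_apply continuous_const
  have := integral_mul_fderiv_eq_neg_fderiv_mul_of_integrable (μ := volume)
    (f := fun _ => (1 : ℂ)) (g := M) (v := v) (by simp)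
    (by simpa using hd.integrable_of_hasCompactSupport (hc.fderiv_apply ℝ v))
    (by simpa using hM.continuous.integrable_of_hasCompactSupport hc)
    (fun _ _ => differentiableAt_const _) (fun z _ => hM.differentiable one_ne_zero z)
  simpa using this

lemma integral_dbar_zero {M : ℂ → ℂ} (hM : ContDiff ℝ 1 M) (hc : HasCompactSupport M) :
    ∫ z, dbar M z = 0 := by
  have hd : ∀ v : ℂ, Integrable fun z => fderiv ℝ M z v := fun v =>
    ((hM.continuous_fderiv one_ne_zero).clm_apply continuous_const).integrable_of_hasCompactSupport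
      (hc.fderiv_apply ℝ v)
  simp only [dbar]
  rw [integral_add (hd 1) ((hd I).const_mul I), integral_const_mul,
    integral_fderiv_apply_zero hM hc, integral_fderiv_apply_zero hM hc]
  simp

/-- `∂̄ χ` is orthogonal to derivatives of holomorphic functions. -/
lemma integral_dbar_mul_deriv {Λ : ℂ → ℂ} {O : Set ℂ} (hχ : ContDiff ℝ ∞ χ)
    (hc : HasCompactSupport χ) (hO : IsOpen O) (hΛ : DifferentiableOn ℂ Λ O)
    (hsub : tsupport (fderiv ℝ χ) ⊆ O) : ∫ z, dbar χ z * deriv Λ z = 0 := by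
  set L := tsupport (fderiv ℝ χ) with hL
  have hLc : IsCompact L := hc.fderiv ℝ
  set D : ℂ → ℂ →L[ℝ] ℂ := fderiv ℝ χ with hD
  have hDs : ContDiff ℝ 1 D := hχ.fderiv_right (WithTop.coe_le_coe.2 le_top)
  set M : ℂ → ℂ := fun z => D z 1 * Λ z with hM
  set N : ℂ → ℂ := fun z => dbar χ z * Λ z with hN
  have hM0 : ∀ z ∉ L, M z = 0 := fun z hz => by
    simp [hM, hD, image_eq_zero_of_notMem_tsupport hz]
  have hN0 : ∀ z ∉ L, N z = 0 := fun z hz => by simp [hN, dbar_eq_zero hz]
  have hMs : ContDiff ℝ 1 M := contDiff_of_local hLc.isClosed hsub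
    (fun z hz => ((hDs.clm_apply contDiff_const).contDiffAt).mul
      (contDiffAt_of_differentiableOn hO hΛ hz)) hM0
  have hNs : ContDiff ℝ 1 N := contDiff_of_local hLc.isClosed hsub
    (fun z hz => (contDiff_dbar (n := 1) hχ).contDiffAt.mul
      (contDiffAt_of_differentiableOn hO hΛ hz)) hN0
  have hMc : HasCompactSupport M := HasCompactSupport.intro hLc hM0
  have hNc : HasCompactSupport N := HasCompactSupport.intro hLc hN0
  have key : ∀ z, dbar χ z * deriv Λ z = fderiv ℝ N z 1 - dbar M z := by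
    intro z
    by_cases hz : z ∈ O
    · have hΛz : DifferentiableAt ℂ Λ z := hΛ.differentiableAt (hO.mem_nhds hz)
      have hΛr : DifferentiableAt ℝ Λ z := hΛz.restrictScalars ℝ
      have hDd : DifferentiableAt ℝ D z := hDs.differentiable one_ne_zero z
      have happ : ∀ v : ℂ, DifferentiableAt ℝ (fun y => D y v) z := fun v =>
        hDd.clm_apply (differentiableAt_const _)
      have hev : ∀ v u : ℂ, fderiv ℝ (fun y => D y v) z u = fderiv ℝ D z u v := by
        intro v u
        rw [fderiv_clm_apply hDd (differentiableAt_const _)]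
        simp
      have hdb : fderiv ℝ (dbar χ) z 1 = fderiv ℝ D z 1 1 + I * fderiv ℝ D z 1 I := by
        have : dbar χ = fun y => D y 1 + I * D y I := rfl
        rw [this, fderiv_fun_add (happ 1) ((happ I).const_mul I), fderiv_const_mul (happ I)]
        simp [hev]
      have hsymm : fderiv ℝ D z I 1 = fderiv ℝ D z 1 I :=
        (hχ.contDiffAt.isSymmSndFDerivAt (by simp; exact WithTop.coe_le_coe.2 le_top)).eq _ _
      have hdbd : DifferentiableAt ℝ (dbar χ) z :=
        (contDiff_dbar (n := 1) hχ).differentiable one_ne_zero z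
      have e1 : fderiv ℝ N z 1 = fderiv ℝ (dbar χ) z 1 * Λ z + dbar χ z * deriv Λ z := by
        rw [hN, fderiv_fun_mul hdbd hΛr]
        simp [fderiv_real_apply hΛz]
        ring
      have e2 : ∀ v : ℂ, fderiv ℝ M z v = fderiv ℝ D z v 1 * Λ z + D z 1 * (v * deriv Λ z) := by
        intro v
        rw [hM, fderiv_fun_mul (happ 1) hΛr]
        simp [fderiv_real_apply hΛz, hev]
        ring
      have e3 : dbar M z = (fderiv ℝ D z 1 1 + I * fderiv ℝ D z I 1) * Λ z := by
        rw [dbar, e2, e2]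
        linear_combination D z 1 * deriv Λ z * I_sq
      rw [e1, hdb, e3, hsymm]
      ring
    · have hzL : z ∉ L := fun h => hz (hsub h)
      have hn : ∀ᶠ y in 𝓝 z, y ∉ L := hLc.isClosed.isOpen_compl.mem_nhds hzL
      have hN' : fderiv ℝ N z = 0 := by
        rw [Filter.EventuallyEq.fderiv_eq (f₁ := N) (f := fun _ => 0) (hn.mono hN0)]
        simp
      have hM' : fderiv ℝ M z = 0 := by
        rw [Filter.EventuallyEq.fderiv_eq (f₁ := M) (f := fun _ => 0) (hn.mono hM0)]
        simp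
      rw [dbar_eq_zero hzL, hN', dbar, hM']
      simp
  have hdMc : Integrable (dbar M) := by
    have hd : ∀ v : ℂ, Integrable fun z => fderiv ℝ M z v := fun v =>
      ((hMs.continuous_fderiv one_ne_zero).clm_apply
        continuous_const).integrable_of_hasCompactSupport (hMc.fderiv_apply ℝ v)
    exact (hd 1).add ((hd I).const_mul I)
  have hdN : Integrable fun z => fderiv ℝ N z 1 :=
    ((hNs.continuous_fderiv one_ne_zero).clm_apply
      continuous_const).integrable_of_hasCompactSupport (hNc.fderiv_apply ℝ 1)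
  rw [integral_congr_ae (Eventually.of_forall key), integral_sub hdN hdMc,
    integral_fderiv_apply_zero hNs hNc, integral_dbar_zero hMs hMc, sub_zero]

/-- The integrand is continuous with compact support. -/
lemma integrable_idx (hU : IsOpen U) (hf : DifferentiableOn ℂ f U) (hχ : Sep U χ)
    (hw : w ∉ f '' tsupport (fderiv ℝ χ)) :
    Integrable fun z => dbar χ z * (deriv f z / (f z - w)) := by
  set L := tsupport (fderiv ℝ χ) with hL
  have h0 : ∀ z ∉ L, dbar χ z * (deriv f z / (f z - w)) = 0 := fun z hz => by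
    simp [dbar_eq_zero hz]
  set O := {z | z ∈ U ∧ f z ≠ w} with hO
  have hOo : IsOpen O := hf.continuousOn.isOpen_inter_preimage hU isOpen_compl_singleton
  have hc : Continuous fun z => dbar χ z * (deriv f z / (f z - w)) := by
    refine continuous_of_local hOo hχ.isCompact_supp.isClosed
      (fun z hz => ⟨hχ.supp hz, fun e => hw ⟨z, hz, e⟩⟩) ?_ h0
    refine (continuous_dbar hχ.smooth).continuousOn.mul (ContinuousOn.div ?_ ?_ ?_)
    · exact ((hf.analyticOnNhd hU).deriv.continuousOn).mono fun z hz => hz.1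
    · exact (hf.continuousOn.mono fun z hz => hz.1).sub continuousOn_const
    · exact fun z hz => sub_ne_zero.2 hz.2
  exact hc.integrable_of_hasCompactSupport (HasCompactSupport.intro hχ.isCompact_supp h0)

/-- The index does not move while `w` stays nearer to `w₀` than the image of the support. -/
lemma idx_eq_of_near (hU : IsOpen U) (hf : DifferentiableOn ℂ f U) (hχ : Sep U χ)
    (h : ∀ z ∈ tsupport (fderiv ℝ χ), dist w w₀ < ‖f z - w₀‖) : idx f χ w = idx f χ w₀ := by
  set O := {z | z ∈ U ∧ f z ∈ (closedBall w₀ (dist w w₀))ᶜ} with hO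
  have hOo : IsOpen O := hf.continuousOn.isOpen_inter_preimage hU isClosed_closedBall.isOpen_compl
  have hOn : ∀ z ∈ O, dist w w₀ < ‖f z - w₀‖ := fun z hz => by
    simpa [dist_eq_norm] using hz.2
  have hOmem : tsupport (fderiv ℝ χ) ⊆ O := fun z hz =>
    ⟨hχ.supp hz, by simpa [dist_eq_norm] using h z hz⟩
  have hne : ∀ z ∈ O, f z - w₀ ≠ 0 ∧ f z - w ≠ 0 := by
    intro z hz
    have h1 := hOn z hz
    refine ⟨fun e => ?_, fun e => ?_⟩
    · rw [e, norm_zero] at h1; exact absurd h1 (not_lt.2 dist_nonneg)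
    · rw [sub_eq_zero.1 e, ← dist_eq_norm] at h1; exact lt_irrefl _ h1
  set q : ℂ → ℂ := fun z => (f z - w) / (f z - w₀) with hq
  have hslit : ∀ z ∈ O, q z ∈ slitPlane := by
    intro z hz
    have : q z = 1 + (w₀ - w) / (f z - w₀) := by
      rw [hq]
      field_simp [(hne z hz).1]
      ring
    rw [this]
    refine mem_slitPlane_of_norm_lt_one ?_
    rw [norm_div, div_lt_one (norm_pos_iff.2 (hne z hz).1), ← dist_eq_norm, dist_comm]
    exact hOn z hz
  have hder : ∀ z ∈ O, HasDerivAt (fun y => log (q y))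
      (deriv f z / (f z - w) - deriv f z / (f z - w₀)) z := by
    intro z hz
    have hfz : HasDerivAt f (deriv f z) z :=
      (hf.differentiableAt (hU.mem_nhds hz.1)).hasDerivAt
    have := ((hfz.sub_const w).div (hfz.sub_const w₀) (hne z hz).1).clog (hslit z hz)
    refine this.congr_deriv ?_
    obtain ⟨h1, h2⟩ := hne z hz
    simp only [Pi.div_apply]
    field_simp
  have hΛ : DifferentiableOn ℂ (fun y => log (q y)) O := fun z hz =>
    (hder z hz).differentiableAt.differentiableWithinAt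
  have h0 := integral_dbar_mul_deriv hχ.smooth hχ.compact hOo hΛ hOmem
  have hw : w ∉ f '' tsupport (fderiv ℝ χ) := by
    rintro ⟨z, hz, e⟩; exact (hne z (hOmem hz)).2 (sub_eq_zero.2 e)
  have hw₀ : w₀ ∉ f '' tsupport (fderiv ℝ χ) := by
    rintro ⟨z, hz, e⟩; exact (hne z (hOmem hz)).1 (sub_eq_zero.2 e)
  have key : ∀ z, dbar χ z * deriv (fun y => log (q y)) z =
      dbar χ z * (deriv f z / (f z - w)) - dbar χ z * (deriv f z / (f z - w₀)) := by
    intro z
    by_cases hz : z ∈ tsupport (fderiv ℝ χ)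
    · rw [(hder z (hOmem hz)).deriv]; ring
    · simp [dbar_eq_zero hz]
  rw [integral_congr_ae (Eventually.of_forall key),
    integral_sub (integrable_idx hU hf hχ hw) (integrable_idx hU hf hχ hw₀), sub_eq_zero] at h0
  simp only [idx, h0]

/-- The index is locally constant off the image of the support. -/
lemma idx_eventuallyEq (hU : IsOpen U) (hf : DifferentiableOn ℂ f U) (hχ : Sep U χ)
    (hw : w ∉ f '' tsupport (fderiv ℝ χ)) : ∀ᶠ v in 𝓝 w, idx f χ v = idx f χ w := by
  have hc : IsClosed (f '' tsupport (fderiv ℝ χ)) :=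
    (hχ.isCompact_supp.image_of_continuousOn (hf.continuousOn.mono hχ.supp)).isClosed
  obtain ⟨δ, hδ, hball⟩ := Metric.mem_nhds_iff.1 (hc.isOpen_compl.mem_nhds hw)
  filter_upwards [ball_mem_nhds w hδ] with v hv
  refine idx_eq_of_near hU hf hχ fun z hz => lt_of_lt_of_le (mem_ball.1 hv) ?_
  by_contra hlt
  exact hball (by rw [mem_ball, dist_eq_norm]; exact not_le.1 hlt) (mem_image_of_mem f hz)

lemma eq_on_preconnected {g : ℂ → ℂ} (hS : IsPreconnected S)
    (h : ∀ x ∈ S, ∀ᶠ y in 𝓝 x, g y = g x) {x y : ℂ} (hx : x ∈ S) (hy : y ∈ S) : g y = g x := by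
  have := isPreconnected_iff_preconnectedSpace.mp hS
  have hlc : IsLocallyConstant fun s : S => g s := by
    rw [IsLocallyConstant.iff_eventually_eq]
    exact fun s => continuous_subtype_val.continuousAt.eventually (h s s.2)
  exact hlc.apply_eq_of_preconnectedSpace ⟨y, hy⟩ ⟨x, hx⟩

lemma idx_eq_on (hU : IsOpen U) (hf : DifferentiableOn ℂ f U) (hχ : Sep U χ)
    (hS : IsPreconnected S) (hd : Disjoint S (f '' tsupport (fderiv ℝ χ))) {x y : ℂ} (hx : x ∈ S)
    (hy : y ∈ S) : idx f χ y = idx f χ x :=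
  eq_on_preconnected hS (fun _ hz => idx_eventuallyEq hU hf hχ (disjoint_left.1 hd hz)) hx hy

/-- The index is small far away. -/
lemma idx_small (hU : IsOpen U) (hf : DifferentiableOn ℂ f U) (hχ : Sep U χ) :
    ∃ M A : ℝ, ∀ v : ℂ, M < ‖v‖ → ‖idx f χ v‖ ≤ A / (‖v‖ - M) := by
  set L := tsupport (fderiv ℝ χ) with hL
  have hfd : ContinuousOn (deriv f) L :=
    ((hf.analyticOnNhd hU).deriv.continuousOn).mono hχ.supp
  obtain ⟨M, hM⟩ := hχ.isCompact_supp.exists_bound_of_continuousOn (hf.continuousOn.mono hχ.supp)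
  obtain ⟨B, hB⟩ := hχ.isCompact_supp.exists_bound_of_continuousOn
    ((continuous_dbar hχ.smooth).continuousOn.mul hfd)
  refine ⟨M, ‖(1 / (2 * (π : ℂ)))‖ * (max B 0 * volume.real L), fun v hv => ?_⟩
  have h0 : ∀ z ∉ L, dbar χ z * (deriv f z / (f z - v)) = 0 := fun z hz => by
    simp [dbar_eq_zero hz]
  rw [idx, norm_mul, norm_neg, mul_div_assoc]
  refine mul_le_mul_of_nonneg_left ?_ (norm_nonneg _)
  rw [← setIntegral_eq_integral_of_forall_compl_eq_zero h0]
  refine (norm_setIntegral_le_of_norm_le_const (C := max B 0 / (‖v‖ - M))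
    hχ.isCompact_supp.measure_lt_top fun z hz => ?_).trans (le_of_eq (by ring))
  rw [mul_div, norm_div]
  have h1 : ‖v‖ - M ≤ ‖f z - v‖ := by
    linarith [norm_sub_norm_le v (f z), norm_sub_rev v (f z), hM z hz]
  exact div_le_div₀ (le_max_right _ _) ((hB z hz).trans (le_max_left _ _)) (by linarith) h1

lemma sep_const_near (hp : p ∉ tsupport (fderiv ℝ χ)) (hχ : ContDiff ℝ ∞ χ) :
    ∀ᶠ z in 𝓝 p, χ z = χ p := by
  obtain ⟨δ, hδ, hball⟩ := Metric.mem_nhds_iff.1
    ((isClosed_tsupport _).isOpen_compl.mem_nhds hp)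
  filter_upwards [ball_mem_nhds p hδ] with z hz
  exact isOpen_ball.is_const_of_fderiv_eq_zero (convex_ball p δ).isPreconnected
    (hχ.differentiable (by simp)).differentiableOn
    (fun y hy => image_eq_zero_of_notMem_tsupport (hball hy)) hz (mem_ball_self hδ)

lemma isPreconnected_exterior (R : ℝ) : IsPreconnected {z : ℂ | R ≤ ‖z‖} := by
  have h : {z : ℂ | R ≤ ‖z‖} =
      (fun q : ℝ × ℝ => (q.1 : ℂ) * exp (q.2 * I)) '' (Ici (max R 0) ×ˢ univ) := by
    ext z
    simp only [mem_ofPred_eq, mem_image, Prod.exists, mem_prod, mem_Ici, mem_univ, and_true]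
    constructor
    · intro hz
      exact ⟨‖z‖, arg z, max_le hz (norm_nonneg z), norm_mul_exp_arg_mul_I z⟩
    · rintro ⟨r, t, hr, rfl⟩
      rw [norm_mul, norm_exp_ofReal_mul_I, mul_one, Complex.norm_of_nonneg
        ((le_max_right R 0).trans hr)]
      exact (le_max_left R 0).trans hr
  rw [h]
  exact (isPreconnected_Ici.prod isPreconnected_univ).image _ (by fun_prop)

/-- The index at a value is the test function at the point. -/
lemma idx_eq_value (hf : IsExt U f) (hχ : Sep U χ) (ha : a ∈ U)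
    (hw : f a ∉ f '' tsupport (fderiv ℝ χ)) : idx f χ (f a) = χ a := by
  have hU := hf.dom.isOpen
  obtain ⟨R, hR1, hR⟩ := hf.dom.exists_radius
  set x₀ : ℂ := ((R + 1 : ℝ) : ℂ) with hx₀
  have hx₀n : ‖x₀‖ = R + 1 := by rw [hx₀, Complex.norm_of_nonneg (by linarith)]
  have hext : {z : ℂ | R + 1 ≤ ‖z‖} ⊆ U := by
    intro z hz
    by_contra hzU
    have h1 := mem_closedBall_zero_iff.1 (hR hzU)
    simp only [mem_ofPred_eq] at hz
    linarith
  have hx₀U : x₀ ∈ U := hext (le_of_eq hx₀n.symm)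
  obtain ⟨γ, hγ⟩ := (hU.isConnected_iff_isPathConnected.1 ⟨⟨a, ha⟩, hf.dom.isPreconnected⟩).joinedIn
    x₀ hx₀U a ha
  set T : Set ℂ := {z : ℂ | R + 1 ≤ ‖z‖} ∪ range γ with hT
  have hTc : IsClosed T := (isClosed_le continuous_const continuous_norm).union
    (isCompact_range γ.continuous).isClosed
  have hTU : T ⊆ U := union_subset hext (range_subset_iff.2 hγ)
  have hTp : IsPreconnected T := (isPreconnected_exterior _).union x₀ (le_of_eq hx₀n.symm)
    ⟨0, γ.source⟩ (isPreconnected_range γ.continuous)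
  have haT : a ∈ T := Or.inr ⟨1, γ.target⟩
  obtain ⟨θ, hθ0, hθ1, -⟩ := exists_contMDiffMap_zero_one_nhds_of_isClosed (n := (⊤ : ℕ∞))
    (modelWithCornersSelf ℝ ℂ) hTc hU.isClosed_compl (disjoint_compl_right_iff_subset.2 hTU)
  have hθs : ContDiff ℝ ∞ ⇑θ := contMDiff_iff_contDiff.1 θ.contMDiff
  set χ' : ℂ → ℂ := fun z => χ z * (θ z : ℂ) with hχ'
  have hs' : ContDiff ℝ ∞ χ' := hχ.smooth.mul (Complex.ofRealCLM.contDiff.comp hθs)
  have hsep' : Sep U χ' := by
    refine ⟨hs', hχ.compact.mul_right, fun p hp => by_contra fun hpU => ?_⟩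
    have h1 : ∀ᶠ z in 𝓝 p, θ z = 1 := hθ1.filter_mono (nhds_le_nhdsSet hpU)
    have he : χ' =ᶠ[𝓝 p] χ := h1.mono fun z hz => by simp [hχ', hz]
    have h2 : fderiv ℝ χ' =ᶠ[𝓝 p] fderiv ℝ χ := he.fderiv
    refine notMem_tsupport_iff_eventuallyEq.2 (h2.trans
      (notMem_tsupport_iff_eventuallyEq.1 fun h => hpU (hχ.supp h))) hp
  have hTd : ∀ t ∈ T, t ∉ tsupport (fderiv ℝ χ') := by
    intro t ht
    have h1 : ∀ᶠ z in 𝓝 t, θ z = 0 := hθ0.filter_mono (nhds_le_nhdsSet ht)
    have he : χ' =ᶠ[𝓝 t] fun _ => 0 := h1.mono fun z hz => by simp [hχ', hz]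
    refine notMem_tsupport_iff_eventuallyEq.2 (he.fderiv.trans ?_)
    simp [Filter.EventuallyEq]
  have hdisj : Disjoint (f '' T) (f '' tsupport (fderiv ℝ χ')) := by
    rw [disjoint_left]
    rintro _ ⟨t, ht, rfl⟩ ⟨y, hy, e⟩
    exact hTd t ht (hf.injOn (hsep'.supp hy) (hTU ht) e ▸ hy)
  have hw' : f a ∉ f '' tsupport (fderiv ℝ χ') :=
    disjoint_left.1 hdisj (mem_image_of_mem f haT)
  -- the index of `χ'` vanishes
  have hzero : idx f χ' (f a) = 0 := by
    by_contra hne
    obtain ⟨M, A, hMA⟩ := idx_small hU hf.diff hsep'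
    have hpos : 0 < ‖idx f χ' (f a)‖ := norm_pos_iff.2 hne
    obtain ⟨z, hz1, hz2⟩ : ∃ z : ℂ, R + 1 ≤ ‖z‖ ∧
        |M| + |A| / ‖idx f χ' (f a)‖ + 1 < ‖f z‖ := by
      have h1 : ∀ᶠ z in cocompact ℂ, ‖f z - z‖ < 1 :=
        (hf.norm_inf.norm.eventually (gt_mem_nhds (by simp : ‖(0 : ℂ)‖ < 1)))
      have h2 := (tendsto_norm_cocompact_atTop (E := ℂ)).eventually
        (eventually_gt_atTop (max (R + 1) (|M| + |A| / ‖idx f χ' (f a)‖ + 2)))
      obtain ⟨z, ha1, ha2⟩ := (h1.and h2).exists
      refine ⟨z, (le_max_left _ _).trans ha2.le, ?_⟩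
      linarith [norm_sub_norm_le z (f z), norm_sub_rev z (f z), (le_max_right _ _).trans_lt ha2]
    have heq := idx_eq_on hU hf.diff hsep' (hTp.image f (hf.diff.continuousOn.mono hTU)) hdisj
      (mem_image_of_mem f haT) (mem_image_of_mem f (Or.inl hz1))
    have hAd : 0 ≤ |A| / ‖idx f χ' (f a)‖ := by positivity
    have hb := hMA (f z) (by linarith [le_abs_self M])
    rw [heq, le_div_iff₀ (by linarith [le_abs_self M])] at hb
    have h3 : |A| / ‖idx f χ' (f a)‖ + 1 ≤ ‖f z‖ - M := by linarith [le_abs_self M]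
    have h4 : ‖idx f χ' (f a)‖ * (|A| / ‖idx f χ' (f a)‖ + 1) ≤ A :=
      le_trans (mul_le_mul_of_nonneg_left h3 hpos.le) hb
    rw [mul_add, mul_div_cancel₀ _ hpos.ne', mul_one] at h4
    linarith [le_abs_self A]
  -- the difference is the residue at `a`
  set η : ℂ → ℂ := fun z => χ z - χ' z with hη
  have hηs : ContDiff ℝ ∞ η := hχ.smooth.sub hs'
  have hηc : HasCompactSupport η := hχ.compact.sub hsep'.compact
  have hη0 : ∀ p ∉ U, ∀ᶠ z in 𝓝 p, η z = 0 := fun p hp =>
    (hθ1.filter_mono (nhds_le_nhdsSet hp)).mono fun z hz => by simp [hη, hχ', hz]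
  have hηU : tsupport η ⊆ U := fun p hp => by_contra fun hpU =>
    notMem_tsupport_iff_eventuallyEq.2 (hη0 p hpU) hp
  have hslope : DifferentiableOn ℂ (dslope f a) U :=
    (differentiableOn_dslope (hU.mem_nhds ha)).2 hf.diff
  have hsl0 : ∀ z ∈ U, dslope f a z ≠ 0 := by
    intro z hz
    rcases eq_or_ne z a with rfl | hne
    · rw [dslope_same]
      exact Vale.Agent.P142.Area.deriv_ne_zero_of_injOn hU hf.diff hf.injOn hz
    · rw [dslope_of_ne _ hne, slope_def_field]
      exact div_ne_zero (sub_ne_zero.2 fun e => hne (hf.injOn hz ha e)) (sub_ne_zero.2 hne)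
  set φ : ℂ → ℂ := fun z => deriv f z / dslope f a z with hφ
  have hφd : DifferentiableOn ℂ φ U :=
    (hf.diff.analyticOnNhd hU).deriv.differentiableOn.div hslope hsl0
  set G : ℂ → ℂ := fun z => η z * φ z with hG
  have hG0 : ∀ z ∉ tsupport η, G z = 0 := fun z hz => by
    simp [hG, image_eq_zero_of_notMem_tsupport hz]
  have hGs : ContDiff ℝ 1 G := contDiff_of_local (isClosed_tsupport η) hηU
    (fun z hz => (hηs.of_le (WithTop.coe_le_coe.2 le_top)).contDiffAt.mul
      (contDiffAt_of_differentiableOn hU hφd hz)) hG0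
  have hHc : HasCompactSupport fun u => G (a + u) :=
    (HasCompactSupport.intro hηc hG0).comp_homeomorph (Homeomorph.addLeft a)
  have hcp := Vale.Agent.P136.Full.Transport.cauchy_pompeiu
    (H := fun u => G (a + u)) (hGs.comp (contDiff_const.add contDiff_id)) hHc
  simp only [smul_eq_mul, add_zero] at hcp
  have hint : ∀ᵐ u : ℂ, u⁻¹ * (fderiv ℝ (fun u => G (a + u)) u 1 +
      I * fderiv ℝ (fun u => G (a + u)) u I) =
      dbar χ (a + u) * (deriv f (a + u) / (f (a + u) - f a)) -
        dbar χ' (a + u) * (deriv f (a + u) / (f (a + u) - f a)) := by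
    filter_upwards [Measure.ae_ne (volume : Measure ℂ) (0 : ℂ)] with u hu
    rw [fderiv_comp_add_left]
    have hd : ∀ z, dbar η z = dbar χ z - dbar χ' z := fun z => by
      simp only [dbar, hη]
      rw [fderiv_fun_sub (hχ.smooth.differentiable (by simp) z) (hs'.differentiable (by simp) z)]
      simp
      ring
    rw [← sub_mul, ← hd]
    set z := a + u with hz
    by_cases hzU : z ∈ U
    · have hp := hφd.differentiableAt (hU.mem_nhds hzU)
      have hηd := hηs.differentiable (by simp) z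
      have hne : z ≠ a := by simpa [hz] using hu
      rw [hG, fderiv_fun_mul hηd (hp.restrictScalars ℝ)]
      simp only [add_apply, smul_apply, smul_eq_mul, fderiv_real_apply hp]
      have hsl : f z - f a = u * dslope f a z := by
        rw [dslope_of_ne _ hne, slope_def_field, show z - a = u by simp [hz]]
        field_simp
      rw [hsl, dbar, hφ]
      have h1 := hsl0 z hzU
      field_simp
      linear_combination η z * deriv φ z * dslope f a z * I_sq
    · have hn : η =ᶠ[𝓝 z] fun _ => 0 := hη0 z hzU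
      have hGn : G =ᶠ[𝓝 z] fun _ => 0 := hn.mono fun y hy => by simp [hG, hy]
      simp [dbar, hn.fderiv_eq, hGn.fderiv_eq]
  rw [integral_congr_ae hint,
    integral_add_left_eq_self (fun z => dbar χ z * (deriv f z / (f z - f a)) -
      dbar χ' z * (deriv f z / (f z - f a))) a,
    integral_sub (integrable_idx hU hf.diff hχ hw) (integrable_idx hU hf.diff hsep' hw')] at hcp
  have hpi : (2 * (π : ℂ)) ≠ 0 := by simp [Real.pi_ne_zero]
  have hdiff : idx f χ (f a) - idx f χ' (f a) = G a := by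
    rw [idx, idx, ← mul_sub, hcp]
    field_simp
  have hθa : θ a = 0 := hθ0.self_of_nhdsSet a haT
  rw [hzero, sub_zero] at hdiff
  rw [hdiff, hG, hφ]
  simp only [hη, hχ', hθa, Complex.ofReal_zero, mul_zero, sub_zero, dslope_same]
  rw [div_self (Vale.Agent.P142.Area.deriv_ne_zero_of_injOn hU hf.diff hf.injOn ha), mul_one]

end Vale.Agent.P116.Pack.Wind
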