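import Vale.Agent.P116.Pack.Clus

/-!
P116 Pack: limits of maps of larger domains.
-/

noncomputable section

namespace Vale.Agent.P116.Pack.Wind

open Set Filter Metric MeasureTheory Complex
open scoped Topology ContDiff

variable {U : Set ℂ} {Uk : ℕ → Set ℂ} {fk : ℕ → ℂ → ℂ} {f : ℂ → ℂ} {χ : ℂ → ℂ} {a w : ℂ}

/-- The hypotheses of `LimitStmt`. -/
structure Conv (U : Set ℂ) (Uk : ℕ → Set ℂ) (fk : ℕ → ℂ → ℂ) (f : ℂ → ℂ) : Prop where
  dom : Dom U
  sub : ∀ k, U ⊆ Uk k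
  ext : ∀ k, IsExt (Uk k) (fk k)
  lim : TendstoLocallyUniformlyOn fk f atTop U

namespace Conv

variable (h : Conv U Uk fk f)
include h

lemma diff_k (k : ℕ) : DifferentiableOn ℂ (fk k) U := (h.ext k).diff.mono (h.sub k)

lemma diff : DifferentiableOn ℂ f U :=
  h.lim.differentiableOn (Eventually.of_forall h.diff_k) h.dom.isOpen

/-- The maps are uniformly near the identity at infinity. -/
lemma exists_tail : ∃ R M : ℝ, 1 ≤ R ∧ 0 ≤ M ∧ (∀ z, R < ‖z‖ → z ∈ U) ∧
    ∀ᶠ k in atTop, ∀ z, R < ‖z‖ → ‖fk k z - z‖ ≤ M / ‖z‖ := by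
  obtain ⟨R₀, hR1, hR⟩ := h.dom.exists_radius
  set R := R₀ + 1 with hRd
  have hU : ∀ z : ℂ, R₀ < ‖z‖ → z ∈ U := fun z hz => by_contra fun hh =>
    (mem_closedBall_zero_iff.1 (hR hh)).not_gt hz
  have hS : sphere (0 : ℂ) R ⊆ U := fun z hz => hU z (by
    rw [mem_sphere_zero_iff_norm] at hz; linarith)
  obtain ⟨B, hB⟩ := (isCompact_sphere (0 : ℂ) R).exists_bound_of_continuousOn
    ((h.diff.continuousOn.mono hS).sub continuousOn_id)
  have hu := Metric.tendstoUniformlyOn_iff.1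
    ((tendstoLocallyUniformlyOn_iff_forall_isCompact h.dom.isOpen).1 h.lim _ hS
      (isCompact_sphere _ _)) 1 one_pos
  refine ⟨R, (|B| + 1) * R, by linarith, by positivity, fun z hz => hU z (by linarith), ?_⟩
  filter_upwards [hu] with k hk z hz
  set g : ℂ → ℂ := Function.update (fun ζ => fk k ζ⁻¹ - ζ⁻¹) 0 0 with hg
  have hRp : 0 < R := by linarith
  have hR₀p : 0 < R₀ := by linarith
  have hinvU : ∀ ζ : ℂ, ‖ζ‖ < R₀⁻¹ → ζ ≠ 0 → ζ⁻¹ ∈ U := fun ζ h1 h2 => hU _ (by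
    rw [norm_inv]
    exact (lt_inv_comm₀ (norm_pos_iff.2 h2) hR₀p).1 h1)
  have hgd : DifferentiableOn ℂ g (ball 0 R₀⁻¹) := by
    refine (differentiableOn_compl_singleton_and_continuousAt_iff
      (ball_mem_nhds _ (inv_pos.2 hR₀p))).1 ⟨?_, ?_⟩
    · refine DifferentiableOn.congr (f := fun ζ => fk k ζ⁻¹ - ζ⁻¹) ?_ fun ζ hζ => by
        rw [hg, Function.update_of_ne (show ζ ≠ 0 from hζ.2)]
      intro ζ hζ
      have h2 : ζ ≠ 0 := hζ.2
      have h1 : ζ⁻¹ ∈ U := hinvU ζ (mem_ball_zero_iff.1 hζ.1) h2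
      exact ((((h.diff_k k).differentiableAt (h.dom.isOpen.mem_nhds h1)).comp ζ
        (differentiableAt_inv h2)).sub (differentiableAt_inv h2)).differentiableWithinAt
    · rw [hg, continuousAt_update_same]
      exact ((h.ext k).norm_inf.comp (by
        rw [← cobounded_eq_cocompact]; exact tendsto_inv₀_nhdsNE_zero))
  have hcl : DiffContOnCl ℂ g (ball 0 R⁻¹) := by
    apply DifferentiableOn.diffContOnCl
    rw [closure_ball _ (inv_ne_zero hRp.ne')]
    exact hgd.mono (closedBall_subset_ball ((inv_lt_inv₀ hRp hR₀p).2 (by linarith)))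
  have hfr : ∀ ζ ∈ frontier (ball (0 : ℂ) R⁻¹), ‖g ζ‖ ≤ |B| + 1 := by
    intro ζ hζ
    rw [frontier_ball _ (inv_ne_zero hRp.ne'), mem_sphere_zero_iff_norm] at hζ
    have hζ0 : ζ ≠ 0 := norm_pos_iff.1 (hζ ▸ inv_pos.2 hRp)
    have hm : ζ⁻¹ ∈ sphere (0 : ℂ) R := by rw [mem_sphere_zero_iff_norm, norm_inv, hζ, inv_inv]
    rw [hg, Function.update_of_ne hζ0]
    have h1 := hB _ hm
    have h2 := hk _ hm
    simp only [Pi.sub_apply, id] at h1
    rw [dist_eq_norm] at h2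
    calc ‖fk k ζ⁻¹ - ζ⁻¹‖ = ‖(f ζ⁻¹ - ζ⁻¹) - (f ζ⁻¹ - fk k ζ⁻¹)‖ := by ring_nf
      _ ≤ B + 1 := (norm_sub_le _ _).trans (add_le_add h1 h2.le)
      _ ≤ |B| + 1 := by linarith [le_abs_self B]
  have hmaps : MapsTo g (ball 0 R⁻¹) (closedBall (g 0) (|B| + 1)) := by
    intro ζ hζ
    rw [show g 0 = 0 by simp [hg], mem_closedBall_zero_iff]
    exact Complex.norm_le_of_forall_mem_frontier_norm_le isBounded_ball hcl hfr
      (subset_closure hζ)
  have hz0 : 0 < ‖z‖ := hRp.trans hz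
  have hzb : z⁻¹ ∈ ball (0 : ℂ) R⁻¹ := by
    rw [mem_ball_zero_iff, norm_inv]; exact (inv_lt_inv₀ hz0 hRp).2 hz
  have hs := Complex.dist_le_div_mul_dist_of_mapsTo_ball hcl.differentiableOn hmaps hzb
  rw [show g 0 = 0 by simp [hg], dist_zero_right, dist_zero_right, hg,
    Function.update_of_ne (inv_ne_zero (norm_pos_iff.1 hz0)), inv_inv, norm_inv] at hs
  calc ‖fk k z - z‖ ≤ (|B| + 1) / R⁻¹ * ‖z‖⁻¹ := hs
    _ = (|B| + 1) * R / ‖z‖ := by field_simp

lemma norm_inf : Tendsto (fun z => f z - z) (cocompact ℂ) (𝓝 0) := by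
  obtain ⟨R, M, -, -, hU, hk⟩ := h.exists_tail
  have hev : ∀ᶠ z in cocompact ℂ, ‖f z - z‖ ≤ M / ‖z‖ := by
    filter_upwards [(tendsto_norm_cocompact_atTop (E := ℂ)).eventually (eventually_gt_atTop R)]
      with z hz
    exact le_of_tendsto ((h.lim.tendsto_at (hU z hz)).sub_const z).norm
      (hk.mono fun k hk => hk z hz)
  exact squeeze_zero_norm' hev
    (tendsto_const_nhds.div_atTop (tendsto_norm_cocompact_atTop (E := ℂ)))

/-- Fibres of the limit are discrete. -/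
lemma isolated (ha : a ∈ U) : ∀ᶠ z in 𝓝[≠] a, f z ≠ f a := by
  rcases ((h.diff.analyticAt (h.dom.isOpen.mem_nhds ha)).sub analyticAt_const
      ).eventually_eq_zero_or_eventually_ne_zero (f := fun z => f z - f a) with h0 | h0
  · exfalso
    have heq : EqOn f (fun _ => f a) U :=
      (h.diff.analyticOnNhd h.dom.isOpen).eqOn_of_preconnected_of_eventuallyEq
        analyticOnNhd_const h.dom.isPreconnected ha (h0.mono fun z hz => sub_eq_zero.1 hz)
    obtain ⟨R, hR1, hR⟩ := h.dom.exists_radius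
    have h1 : ∀ᶠ z in cocompact ℂ, ‖f z - z‖ < 1 ∧ R + ‖f a‖ + 1 < ‖z‖ :=
      (h.norm_inf.norm.eventually (gt_mem_nhds (by simp : ‖(0 : ℂ)‖ < 1))).and
        ((tendsto_norm_cocompact_atTop (E := ℂ)).eventually (eventually_gt_atTop _))
    obtain ⟨z, hz1, hz2⟩ := h1.exists
    have hzU : z ∈ U := by_contra fun hh => by
      linarith [mem_closedBall_zero_iff.1 (hR hh), norm_nonneg (f a)]
    rw [heq hzU] at hz1
    linarith [norm_sub_norm_le z (f a), norm_sub_rev z (f a)]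
  · exact h0.mono fun z hz e => hz (sub_eq_zero.2 e)

/-- The indices converge, uniformly near `w`. -/
lemma idx_tendsto (hχ : Sep U χ) (hw : w ∉ f '' tsupport (fderiv ℝ χ)) :
    Tendsto (fun k => idx (fk k) χ w) atTop (𝓝 (idx f χ w)) ∧
      ∃ δ > 0, ∀ᶠ k in atTop, ∀ v ∈ ball w δ,
        v ∉ fk k '' tsupport (fderiv ℝ χ) ∧ idx (fk k) χ v = idx (fk k) χ w := by
  set L := tsupport (fderiv ℝ χ) with hL
  have hUo := h.dom.isOpen
  have hLc := hχ.isCompact_supp
  have hLU : L ⊆ U := hχ.supp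
  obtain ⟨δ, hδ, hball⟩ := Metric.mem_nhds_iff.1 ((hLc.image_of_continuousOn
    (h.diff.continuousOn.mono hLU)).isClosed.isOpen_compl.mem_nhds hw)
  have hfar : ∀ z ∈ L, δ ≤ ‖f z - w‖ := fun z hz => by
    by_contra hlt
    exact hball (show f z ∈ ball w δ by rw [mem_ball, dist_eq_norm]; exact not_le.1 hlt)
      (mem_image_of_mem f hz)
  have hu := Metric.tendstoUniformlyOn_iff.1
    ((tendstoLocallyUniformlyOn_iff_forall_isCompact hUo).1 h.lim L hLU hLc) (δ / 2) (half_pos hδ)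
  have hk2 : ∀ᶠ k in atTop, ∀ z ∈ L, δ / 2 ≤ ‖fk k z - w‖ := by
    filter_upwards [hu] with k hk z hz
    have := hk z hz
    rw [dist_eq_norm] at this
    linarith [hfar z hz, norm_sub_le_norm_sub_add_norm_sub (f z) (fk k z) w]
  refine ⟨?_, δ / 2, half_pos hδ, ?_⟩
  · have hd := h.lim.deriv (Eventually.of_forall h.diff_k) hUo
    obtain ⟨D, hD⟩ := hLc.exists_bound_of_continuousOn
      (((h.diff.analyticOnNhd hUo).deriv.continuousOn).mono hLU)
    have hdu := Metric.tendstoUniformlyOn_iff.1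
      ((tendstoLocallyUniformlyOn_iff_forall_isCompact hUo).1 hd L hLU hLc) 1 one_pos
    obtain ⟨B, hB⟩ := hLc.exists_bound_of_continuousOn (continuous_dbar hχ.smooth).continuousOn
    refine (tendsto_integral_filter_of_dominated_convergence
      (L.indicator fun _ => |B| * ((|D| + 1) / (δ / 2))) ?_ ?_ ?_ ?_).const_mul _
    · filter_upwards [hk2] with k hk
      refine (integrable_idx hUo (h.diff_k k) hχ ?_).aestronglyMeasurable
      rintro ⟨z, hz, e⟩
      have := hk z hz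
      rw [e, sub_self, norm_zero] at this
      linarith
    · filter_upwards [hk2, hdu] with k hk hdk
      refine Eventually.of_forall fun z => ?_
      by_cases hz : z ∈ L
      · rw [indicator_of_mem hz, norm_mul, norm_div]
        refine mul_le_mul ((hB z hz).trans (le_abs_self B)) ?_ (by positivity) (abs_nonneg B)
        refine div_le_div₀ (by positivity) ?_ (half_pos hδ) (hk z hz)
        have h1 := hdk z hz
        rw [dist_eq_norm] at h1
        simp only [Function.comp_apply] at h1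
        linarith [norm_sub_norm_le (deriv (fk k) z) (deriv f z), norm_sub_rev (deriv (fk k) z)
          (deriv f z), hD z hz, le_abs_self D]
      · rw [indicator_of_notMem hz, dbar_eq_zero hz, zero_mul, norm_zero]
    · exact (integrable_indicator_iff hLc.measurableSet).2
        (integrableOn_const hLc.measure_lt_top.ne)
    · refine Eventually.of_forall fun z => ?_
      by_cases hz : z ∈ L
      · exact ((hd.tendsto_at (hLU hz)).div ((h.lim.tendsto_at (hLU hz)).sub_const w)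
          (sub_ne_zero.2 fun e => hw ⟨z, hz, e⟩)).const_mul _
      · simp [dbar_eq_zero hz]
  · filter_upwards [hk2] with k hk v hv
    rw [mem_ball] at hv
    refine ⟨?_, idx_eq_of_near hUo (h.diff_k k) hχ fun z hz => hv.trans_le (hk z hz)⟩
    rintro ⟨z, hz, e⟩
    have := hk z hz
    rw [e, ← dist_eq_norm] at this
    linarith

/-- A value of the limit and a sequence of images near it. -/
lemma idx_limit (hχ : Sep U χ) (hw : w ∉ f '' tsupport (fderiv ℝ χ)) {s : ℕ → ℕ}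
    (hs : Tendsto s atTop atTop) {p v : ℕ → ℂ} {c : ℂ}
    (hv : ∀ᶠ j in atTop, v j ∈ img (Uk (s j)) (fk (s j)) (p j))
    (hχp : ∀ᶠ j in atTop, χ (p j) = c) (hvw : Tendsto v atTop (𝓝 w)) : idx f χ w = c := by
  obtain ⟨hlim, δ, hδ, hev⟩ := h.idx_tendsto hχ hw
  refine tendsto_nhds_unique (hlim.comp hs) (Tendsto.congr' ?_ tendsto_const_nhds)
  filter_upwards [hs.eventually hev, hv, hχp, hvw.eventually_mem (ball_mem_nhds w hδ)]
    with j h1 h2 h3 h4
  simp only [Function.comp_apply]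
  rw [← (h1 _ h4).2, idx_img (h.ext _) (hχ.mono (h.sub _)) h2 (h1 _ h4).1, h3]

lemma injOn : InjOn f U := by
  intro a ha b hb hab
  by_contra hne
  obtain ⟨O, hO, hOb⟩ : ∃ O ∈ 𝓝 b, a ∉ O ∧ ∀ z ∈ O, f z = f b → z = b := by
    refine ⟨{z | z ≠ a ∧ (f z = f b → z = b)}, ?_, fun h => h.1 rfl, fun z hz => hz.2⟩
    filter_upwards [isOpen_ne.mem_nhds (Ne.symm hne),
      eventually_nhdsWithin_iff.1 (h.isolated hb)] with z h1 h2
    exact ⟨h1, fun e => by_contra fun hzb => h2 hzb e⟩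
  obtain ⟨χ, hχ, h1, h0, hLO, hbL⟩ := exists_bump h.dom.isOpen hO hb
  have hw : f b ∉ f '' tsupport (fderiv ℝ χ) := by
    rintro ⟨z, hz, e⟩
    exact hbL (hOb.2 z (hLO hz) e ▸ hz)
  have key : ∀ x ∈ U, f x = f b → idx f χ (f b) = χ x := fun x hx e =>
    h.idx_limit hχ hw (s := id) tendsto_id (p := fun _ => x) (v := fun j => fk j x)
      (Eventually.of_forall fun j => Or.inl ⟨h.sub j hx, rfl⟩) (Eventually.of_forall fun _ => rfl)
      (e ▸ h.lim.tendsto_at hx)
  have := (key b hb rfl).symm.trans (key a ha hab)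
  rw [h1, h0 a hOb.1] at this
  exact one_ne_zero this

lemma isExt : IsExt U f := ⟨h.dom, h.diff, h.injOn, h.norm_inf⟩

lemma exists_seq {E : Set ℂ} (hE : E ∈ comps Uᶜ) (hw : w ∈ clus U f E) :
    ∃ (s : ℕ → ℕ) (p : ℕ → ℂ) (v : ℕ → ℂ), StrictMono s ∧
      (∀ j, v j ∈ img (Uk (s j)) (fk (s j)) (p j)) ∧
      (∃ q ∈ E, Tendsto p atTop (𝓝 q)) ∧ Tendsto v atTop (𝓝 w) := by
  have hf := h.isExt
  have hex : ∀ k, ∃ p, w ∈ img (Uk k) (fk k) p := by
    intro k
    by_cases hwk : w ∈ fk k '' Uk k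
    · obtain ⟨p, hp, rfl⟩ := hwk
      exact ⟨p, Or.inl ⟨hp, rfl⟩⟩
    · obtain ⟨E', hE', hw'⟩ := exists_clus (h.ext k) hwk
      obtain ⟨p, hp⟩ := comps_nonempty hE'
      exact ⟨p, img_of_clus hE' hp hw'⟩
  choose p hp using hex
  obtain ⟨R, M, hR1, hM, hU, htail⟩ := h.exists_tail
  have hbd : ∀ᶠ k in atTop, p k ∈ closedBall (0 : ℂ) (R + ‖w‖ + M) := by
    filter_upwards [htail] with k hk
    rw [mem_closedBall_zero_iff]
    by_cases hR : R < ‖p k‖
    · rcases hp k with ⟨-, e⟩ | ⟨hn, -⟩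
      · have h1 := hk _ hR
        rw [← e] at h1
        have h2 : M / ‖p k‖ ≤ M := div_le_self hM (by linarith)
        linarith [norm_sub_norm_le (p k) w, norm_sub_rev (p k) w]
      · exact absurd (h.sub k (hU _ hR)) hn
    · linarith [norm_nonneg w]
  obtain ⟨q, -, s, hs, hq⟩ :=
    (isCompact_closedBall (0 : ℂ) (R + ‖w‖ + M)).tendsto_subseq' hbd.frequently
  refine ⟨s, p ∘ s, fun _ => w, hs, fun j => hp _, ⟨q, ?_, hq⟩, tendsto_const_nhds⟩
  have hqU : q ∉ U := fun hqU => by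
    have hpU : ∀ᶠ j in atTop, p (s j) ∈ U := hq.eventually_mem (h.dom.isOpen.mem_nhds hqU)
    have hu : TendstoLocallyUniformlyOn (fun j => fk (s j)) f atTop U :=
      fun u hu x hx => (h.lim u hu x hx).imp fun t ht => ⟨ht.1, hs.tendsto_atTop.eventually ht.2⟩
    have hl : Tendsto (fun j => fk (s j) (p (s j))) atTop (𝓝 (f q)) :=
      hu.tendsto_comp (h.diff.continuousOn q hqU) hqU (tendsto_nhdsWithin_iff.2 ⟨hq, hpU⟩)
    refine hw.1 ⟨q, hqU, tendsto_nhds_unique hl (Tendsto.congr' ?_ tendsto_const_nhds)⟩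
    filter_upwards [hpU] with j hj
    rcases hp (s j) with ⟨-, e⟩ | ⟨hn, -⟩
    · exact e
    · exact absurd (h.sub _ hj) hn
  by_contra hqE
  obtain ⟨χ, hχ, h1, h0⟩ := exists_sep h.dom hE hqU hqE
  obtain ⟨e, he⟩ := comps_nonempty hE
  have := h.idx_limit hχ (fun hh => hw.1 (image_mono hχ.supp hh)) hs.tendsto_atTop
    (Eventually.of_forall fun j => hp (s j))
    (hq.eventually (sep_const_near (fun hh => hqU (hχ.supp hh)) hχ.smooth)) tendsto_const_nhds
  rw [idx_clus hf hχ hE he hw, h1 e he, h0] at this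
  exact one_ne_zero this

lemma mem_clus_of_seq {E : Set ℂ} (hE : E ∈ comps Uᶜ) {s : ℕ → ℕ} {p v : ℕ → ℂ}
    (hs : StrictMono s) (hv : ∀ j, v j ∈ img (Uk (s j)) (fk (s j)) (p j)) {q : ℂ} (hq : q ∈ E)
    (hpq : Tendsto p atTop (𝓝 q)) (hvw : Tendsto v atTop (𝓝 w)) : w ∈ clus U f E := by
  have hf := h.isExt
  have hqU : q ∉ U := comps_subset hE hq
  have key : ∀ χ, Sep U χ → w ∉ f '' tsupport (fderiv ℝ χ) → idx f χ w = χ q :=
    fun χ hχ hw => h.idx_limit hχ hw hs.tendsto_atTop (Eventually.of_forall hv)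
      (hpq.eventually (sep_const_near (fun hh => hqU (hχ.supp hh)) hχ.smooth)) hvw
  have hwU : w ∉ f '' U := by
    rintro ⟨a, ha, rfl⟩
    obtain ⟨χ, hχ, h1, h0, -, haL⟩ :=
      exists_bump h.dom.isOpen (h.dom.isOpen.mem_nhds ha) ha
    have hw : f a ∉ f '' tsupport (fderiv ℝ χ) := by
      rintro ⟨z, hz, e⟩
      exact haL (hf.injOn (hχ.supp hz) ha e ▸ hz)
    have := key χ hχ hw
    rw [idx_eq_value hf hχ ha hw, h1, h0 q hqU] at this
    exact one_ne_zero this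
  obtain ⟨E', hE', hw'⟩ := exists_clus hf hwU
  by_contra hne
  obtain ⟨e, he⟩ := comps_nonempty hE'
  obtain ⟨χ, hχ, h1, h0⟩ := exists_sep h.dom hE (comps_subset hE' he)
    fun heE => hne (((comps_eq hE heE).symm.trans (comps_eq hE' he)) ▸ hw')
  have := (idx_clus hf hχ hE' he hw').symm.trans (key χ hχ fun hh => hwU (image_mono hχ.supp hh))
  rw [h1 q hq, h0] at this
  exact zero_ne_one this

end Conv

end Wind

open Set Filter Wind in
/-- Cluster sets pass to limits. -/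
theorem limitStmt : LimitStmt := fun U Uk fk f hU hsub hk hlim => by
  have h : Conv U Uk fk f := ⟨hU, hsub, hk, hlim⟩
  refine ⟨h.isExt, fun E hE w => ⟨h.exists_seq hE, ?_⟩⟩
  rintro ⟨s, p, v, hs, hv, ⟨q, hq, hpq⟩, hvw⟩
  exact h.mem_clus_of_seq hE hs hv hq hpq hvw

end Vale.Agent.P116.Pack
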