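import Vale.Agent.P116.Pack.Basic
import Vale.Agent.P142.Area

/-!
P116 Pack: lines to infinity against a test function (`LineStmt`).

The pairs `(p, v)` with `v` an image of `p` form a closed relation, all of whose fibres in both
directions are connected, and bounded over bounded sets. So a preconnected set of test value `0`
has images on every line between two of its images, and along such a line the test function takes
all values of `(0, 1)`: on the image of `U`, or on components whose discs meet the line.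
Integrating the length bound over the offsets and using the conformal invariance of the Dirichlet
energy gives the estimate.
-/

noncomputable section

namespace Vale.Agent.P116.Pack

open Set Filter Metric MeasureTheory Function
open scoped Topology ComplexConjugate BigOperators ENNReal

/-! ### Crossing of closed relations with connected fibres -/

/-- Points with a partner in a closed set, in a closed relation with locally bounded fibres. -/
lemma isClosed_partners {Γ : Set (ℂ × ℂ)} (hΓ : IsClosed Γ)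
    (hb : ∀ M : ℝ, ∃ M' : ℝ, ∀ p v, (p, v) ∈ Γ → ‖p‖ ≤ M → ‖v‖ ≤ M') {S : Set ℂ}
    (hS : IsClosed S) : IsClosed {p | ∃ v ∈ S, (p, v) ∈ Γ} := by
  refine isClosed_of_closure_subset fun p hp => ?_
  obtain ⟨M', hM'⟩ := hb (‖p‖ + 1)
  set K := Prod.fst '' (Γ ∩ (closedBall (0 : ℂ) (‖p‖ + 1) ×ˢ (S ∩ closedBall (0 : ℂ) M'))) with hK
  have hKc : IsCompact K := (((isCompact_closedBall _ _).prod
    ((isCompact_closedBall _ _).inter_left hS)).inter_left hΓ).image continuous_fst
  have hpK : p ∈ K := by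
    have h1 := isOpen_ball.inter_closure ⟨(mem_ball_zero_iff.2 (lt_add_one ‖p‖) :
      p ∈ ball (0 : ℂ) (‖p‖ + 1)), hp⟩
    refine closure_minimal ?_ hKc.isClosed h1
    rintro q ⟨hq, v, hvS, hqv⟩
    have hq' := (mem_ball_zero_iff.1 hq).le
    exact ⟨(q, v), ⟨hqv, mem_closedBall_zero_iff.2 hq', hvS,
      mem_closedBall_zero_iff.2 (hM' q v hqv hq')⟩, rfl⟩
  obtain ⟨⟨q, v⟩, ⟨hqv, -, hvS, -⟩, rfl⟩ := hpK
  exact ⟨v, hvS, hqv⟩

/-- Intermediate values along a preconnected set. -/
lemma crossing {Γ : Set (ℂ × ℂ)} (hΓ : IsClosed Γ)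
    (hb : ∀ M : ℝ, ∃ M' : ℝ, ∀ p v, (p, v) ∈ Γ → ‖p‖ ≤ M → ‖v‖ ≤ M')
    {ℓ : ℂ → ℝ} (hℓ : Continuous ℓ) {X : Set ℂ} (hX : IsPreconnected X)
    (hne : ∀ p ∈ X, {v | (p, v) ∈ Γ}.Nonempty) (hcon : ∀ p ∈ X, IsPreconnected {v | (p, v) ∈ Γ})
    {p p' v v' : ℂ} {t : ℝ} (hp : p ∈ X) (hp' : p' ∈ X) (hv : (p, v) ∈ Γ) (hv' : (p', v') ∈ Γ)
    (ht : ℓ v ≤ t) (ht' : t ≤ ℓ v') :
    ∃ q ∈ X, ∃ w, (q, w) ∈ Γ ∧ ℓ w = t := by
  have hA := isClosed_partners hΓ hb (isClosed_le hℓ (continuous_const (y := t)))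
  have hB := isClosed_partners hΓ hb (isClosed_le (continuous_const (y := t)) hℓ)
  obtain ⟨q, hqX, ⟨a, ha, hqa⟩, b, hb', hqb⟩ := isPreconnected_closed_iff.1 hX _ _ hA hB
    (fun q hq => by
      obtain ⟨w, hw⟩ := hne q hq
      rcases le_total (ℓ w) t with h | h
      · exact Or.inl ⟨w, h, hw⟩
      · exact Or.inr ⟨w, h, hw⟩)
    ⟨p, hp, v, ht, hv⟩ ⟨p', hp', v', ht', hv'⟩
  obtain ⟨w, hw, hwt⟩ := (hcon q hqX).intermediate_value hqa hqb hℓ.continuousOn ⟨ha, hb'⟩
  exact ⟨q, hqX, w, hw, hwt⟩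

/-- Optimising over `l` in `d ≤ l ε + K / l`. -/
lemma sq_le_of_forall_param {d ε K : ℝ} (hd : 0 ≤ d) (hε : 0 ≤ ε) (hK : 0 < K)
    (h : ∀ l : ℝ, 0 < l → d ≤ l * ε + K / l) : d ^ 2 ≤ 4 * K * ε := by
  rcases hd.eq_or_lt with rfl | hd
  · nlinarith
  rcases hε.eq_or_lt with rfl | hε
  · have := h (2 * K / d) (by positivity)
    rw [mul_zero, zero_add, div_div_eq_mul_div, mul_comm, mul_div_mul_right _ _ hK.ne'] at this
    linarith
  · have := h (d / (2 * ε)) (by positivity)
    rw [div_div_eq_mul_div, show d / (2 * ε) * ε = d / 2 by field_simp] at this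
    have h2 : d / 2 ≤ K * (2 * ε) / d := by linarith
    rw [div_le_div_iff₀ two_pos hd] at h2
    nlinarith

/-! ### The relation between points and their images -/

variable {U : Set ℂ} {f : ℂ → ℂ}

/-- The pairs of a point and one of its images. -/
def imgRel (U : Set ℂ) (f : ℂ → ℂ) : Set (ℂ × ℂ) := {x | x.2 ∈ img U f x.1}

lemma isClosed_imgRel (hf : IsExt U f) (hfin : (comps Uᶜ).Finite)
    (hcpt : ∀ E ∈ comps Uᶜ, IsCompact (clus U f E)) : IsClosed (imgRel U f) := by
  have hB : IsClosed (⋃ E ∈ comps Uᶜ, E ×ˢ clus U f E) := hfin.isClosed_biUnion fun E hE =>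
    (comps_compact hf.dom.compact_compl hE).isClosed.prod (hcpt E hE).isClosed
  have heq : imgRel U f = closure ((fun z => (z, f z)) '' U) ∪ ⋃ E ∈ comps Uᶜ, E ×ˢ clus U f E := by
    refine Subset.antisymm ?_ (union_subset ?_ ?_)
    · rintro ⟨p, v⟩ (⟨hp, he⟩ | ⟨hp, hv⟩)
      · obtain rfl : v = f p := he
        exact Or.inl (subset_closure ⟨p, hp, rfl⟩)
      · exact Or.inr (mem_biUnion (mem_comps hp) ⟨mem_connectedComponentIn hp, hv⟩)
    · rintro ⟨p, v⟩ h
      obtain ⟨x, hx, hlim⟩ := mem_closure_iff_seq_limit.1 h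
      choose z hzU hzx using hx
      obtain rfl : x = fun n => (z n, f (z n)) := funext fun n => (hzx n).symm
      rw [Prod.tendsto_iff] at hlim
      obtain ⟨hz, hfz⟩ := hlim
      by_cases hp : p ∈ U
      · exact Or.inl ⟨hp, tendsto_nhds_unique hfz ((hf.continuousAt hp).tendsto.comp hz)⟩
      · refine Or.inr ⟨hp, ?_, ⟨v, mem_connectedComponentIn ?_, p,
          mem_connectedComponentIn hp, ?_⟩⟩
        rotate_left 2
        · exact (hfz.mapClusterPt).of_comp (tendsto_nhdsWithin_iff.2 ⟨hz, .of_forall hzU⟩)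
        all_goals
        · rintro ⟨y, hy, rfl : f y = v⟩
          have hstr : HasStrictDerivAt f (deriv f y) y :=
            (hf.diff.analyticAt (hf.dom.isOpen.mem_nhds hy)).hasStrictDerivAt
          obtain ⟨δ, hδ, hsub⟩ := Metric.mem_nhds_iff.1 (hf.dom.isOpen.mem_nhds hy)
          have hpy : p ≠ y := fun h => hp (h ▸ hy)
          set η := min δ (dist p y / 2) with hη
          have hη0 : 0 < η := lt_min hδ (half_pos (dist_pos.2 hpy))
          have himg : f '' ball y η ∈ 𝓝 (f y) := by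
            rw [← hstr.map_nhds_eq (Vale.Agent.P142.Area.deriv_ne_zero_of_injOn hf.dom.isOpen
              hf.diff hf.injOn hy)]
            exact image_mem_map (ball_mem_nhds y hη0)
          have hev : ∀ᶠ n in atTop, z n ∈ closedBall y (dist p y / 2) := by
            filter_upwards [hfz himg] with n hn
            obtain ⟨y', hy', hyn⟩ := hn
            rw [hf.injOn (hsub (ball_subset_ball (min_le_left _ _) hy')) (hzU n) hyn] at hy'
            exact mem_closedBall.2 ((mem_ball.1 hy').le.trans (min_le_right _ _))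
          have := mem_closedBall.1 (isClosed_closedBall.mem_of_tendsto hz hev)
          linarith [dist_pos.2 hpy]
    · simp only [iUnion₂_subset_iff]
      rintro E hE ⟨p, v⟩ ⟨hp, hv⟩
      exact Or.inr ⟨comps_subset hE hp, by rwa [comps_eq hE hp]⟩
  rw [heq]
  exact isClosed_closure.union hB

/-- The fibre of `img` over a value. -/
lemma preimg_connected (hf : IsExt U f)
    (hdisj : ∀ E ∈ comps Uᶜ, ∀ E' ∈ comps Uᶜ, E' ≠ E → Disjoint (clus U f E) (clus U f E'))
    (hcov : (f '' U)ᶜ = ⋃ E ∈ comps Uᶜ, clus U f E) (v : ℂ) :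
    {p | v ∈ img U f p}.Nonempty ∧ IsPreconnected {p | v ∈ img U f p} := by
  by_cases hv : v ∈ f '' U
  · obtain ⟨z, hz, rfl⟩ := hv
    have : {p | f z ∈ img U f p} = {z} := by
      ext p
      refine ⟨?_, fun h => Or.inl ⟨h ▸ hz, by rw [h]⟩⟩
      rintro (⟨hp, he⟩ | ⟨-, he⟩)
      · exact hf.injOn hp hz he.symm
      · exact absurd (mem_image_of_mem f hz) he.1
    rw [this]
    exact ⟨singleton_nonempty z, isPreconnected_singleton⟩
  · obtain ⟨E, hE, hvE⟩ := mem_iUnion₂.1 (hcov.subset hv)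
    have : {p | v ∈ img U f p} = E := by
      ext p
      refine ⟨?_, fun hp => Or.inr ⟨comps_subset hE hp, by rwa [comps_eq hE hp]⟩⟩
      rintro (⟨hp, he⟩ | ⟨hp, he⟩)
      · exact absurd ⟨p, hp, he.symm⟩ hv
      · have heq : connectedComponentIn Uᶜ p = E := by
          by_contra hne
          exact Set.disjoint_left.1 (hdisj E hE _ (mem_comps hp) hne) hvE he
        exact heq ▸ mem_connectedComponentIn hp
    rw [this]
    exact ⟨comps_nonempty hE, comps_preconnected hE⟩

/-! ### The test function seen from the image -/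

lemma clm_det_mul (a : ℂ) :
    ((ContinuousLinearMap.toSpanSingleton ℂ a).restrictScalars ℝ).det = ‖a‖ ^ 2 := by
  simp [ContinuousLinearMap.det, LinearMap.det_restrictScalars, Algebra.norm_complex_eq,
    Complex.normSq_eq_norm_sq]

lemma hasFDerivAt_real {f : ℂ → ℂ} {a z : ℂ} (h : HasDerivAt f a z) :
    HasFDerivAt f ((ContinuousLinearMap.toSpanSingleton ℂ a).restrictScalars ℝ) z :=
  h.hasFDerivAt.restrictScalars ℝ

/-- The test function transported to the image. -/
def push (U : Set ℂ) (f : ℂ → ℂ) (φ : ℂ → ℝ) : ℂ → ℝ := φ ∘ invFunOn f U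

lemma hasFDerivAt_push (hf : IsExt U f) {φ : ℂ → ℝ} (hφ : ContDiff ℝ 1 φ) {z : ℂ} (hz : z ∈ U) :
    DifferentiableAt ℝ (push U f φ) (f z) ∧
      ‖fderiv ℝ (push U f φ) (f z)‖ * ‖deriv f z‖ ≤ ‖fderiv ℝ φ z‖ := by
  have hne := Vale.Agent.P142.Area.deriv_ne_zero_of_injOn hf.dom.isOpen hf.diff hf.injOn hz
  have hU := hf.dom.isOpen.mem_nhds hz
  have hleft : ∀ᶠ x in 𝓝 z, invFunOn f U (f x) = x := by
    filter_upwards [hU] with x hx
    exact hf.injOn.leftInvOn_invFunOn hx
  have hstr : HasStrictDerivAt f (deriv f z) z := (hf.diff.analyticAt hU).hasStrictDerivAt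
  have hg : HasFDerivAt (invFunOn f U)
      ((ContinuousLinearMap.toSpanSingleton ℂ (deriv f z)⁻¹).restrictScalars ℝ) (f z) :=
    hasFDerivAt_real ((hstr.to_local_left_inverse hne hleft).hasDerivAt)
  have hval : invFunOn f U (f z) = z := hf.injOn.leftInvOn_invFunOn hz
  have hd : HasFDerivAt φ (fderiv ℝ φ z) (invFunOn f U (f z)) := by
    rw [hval]; exact (hφ.differentiable one_ne_zero z).hasFDerivAt
  have hpush := hd.comp (f z) hg
  refine ⟨hpush.differentiableAt, ?_⟩
  rw [show fderiv ℝ (push U f φ) (f z) = _ from hpush.fderiv]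
  calc _ ≤ ‖fderiv ℝ φ z‖ * ‖(deriv f z)⁻¹‖ * ‖deriv f z‖ := by
        gcongr
        refine (ContinuousLinearMap.opNorm_comp_le _ _).trans ?_
        gcongr
        rw [ContinuousLinearMap.norm_restrictScalars, ContinuousLinearMap.norm_toSpanSingleton]
    _ = ‖fderiv ℝ φ z‖ := by
        rw [norm_inv, mul_assoc, inv_mul_cancel₀ (norm_ne_zero_iff.2 hne), mul_one]

lemma push_apply (hf : IsExt U f) (φ : ℂ → ℝ) {z : ℂ} (hz : z ∈ U) : push U f φ (f z) = φ z := by
  simp [push, hf.injOn.leftInvOn_invFunOn hz]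

lemma isOpen_image (hf : IsExt U f) : IsOpen (f '' U) := by
  refine isOpen_iff_mem_nhds.2 ?_
  rintro _ ⟨z, hz, rfl⟩
  have hstr : HasStrictDerivAt f (deriv f z) z :=
    (hf.diff.analyticAt (hf.dom.isOpen.mem_nhds hz)).hasStrictDerivAt
  rw [← hstr.map_nhds_eq (Vale.Agent.P142.Area.deriv_ne_zero_of_injOn hf.dom.isOpen
    hf.diff hf.injOn hz)]
  exact image_mem_map (hf.dom.isOpen.mem_nhds hz)

/-- Conformal invariance of the Dirichlet energy. -/
lemma lintegral_push (hf : IsExt U f) {φ : ℂ → ℝ} (hφ : ContDiff ℝ 1 φ) {R ε : ℝ}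
    (hone : ∀ z, R ≤ ‖z‖ → φ z = 1) (hen : energy φ ≤ ε) :
    ∫⁻ v in f '' U, ENNReal.ofReal (‖fderiv ℝ (push U f φ) v‖ ^ 2) ≤ ENNReal.ofReal ε := by
  rw [lintegral_image_eq_lintegral_abs_det_fderiv_mul volume hf.dom.isOpen.measurableSet
    (fun z hz => (hasFDerivAt_real
      (hf.diff.differentiableAt (hf.dom.isOpen.mem_nhds hz)).hasDerivAt).hasFDerivWithinAt)
    hf.injOn]
  have hcs : HasCompactSupport fun z => ‖fderiv ℝ φ z‖ ^ 2 := by
    refine HasCompactSupport.intro (isCompact_closedBall (0 : ℂ) R) fun z hz => ?_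
    rw [mem_closedBall_zero_iff, not_le] at hz
    have hev : φ =ᶠ[𝓝 z] fun _ => (1 : ℝ) := by
      filter_upwards [(isOpen_lt continuous_const continuous_norm).mem_nhds hz] with y hy
      exact hone y (le_of_lt hy)
    simp [hev.fderiv_eq]
  have hint : Integrable (fun z => ‖fderiv ℝ φ z‖ ^ 2) :=
    ((hφ.continuous_fderiv one_ne_zero).norm.pow 2).integrable_of_hasCompactSupport hcs
  calc _ ≤ ∫⁻ z in U, ENNReal.ofReal (‖fderiv ℝ φ z‖ ^ 2) := by
        refine setLIntegral_mono' hf.dom.isOpen.measurableSet fun z hz => ?_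
        rw [clm_det_mul, ← ENNReal.ofReal_mul (by positivity), abs_of_nonneg (by positivity),
          ← mul_pow]
        refine ENNReal.ofReal_le_ofReal (pow_le_pow_left₀ (by positivity) ?_ 2)
        rw [mul_comm]
        exact (hasFDerivAt_push hf hφ hz).2
    _ ≤ ∫⁻ z, ENNReal.ofReal (‖fderiv ℝ φ z‖ ^ 2) := setLIntegral_le_lintegral _ _
    _ = ENNReal.ofReal (energy φ) :=
        (ofReal_integral_eq_lintegral_ofReal hint (.of_forall fun z => by positivity)).symm
    _ ≤ _ := ENNReal.ofReal_le_ofReal hen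

/-! ### One direction -/

/-- The point with coordinates `(t, s)` in the frame of the unit vector `u`. -/
def linePt (u : ℂ) (t s : ℝ) : ℂ := u * ((t : ℂ) + (s : ℂ) * Complex.I)

/-- The offset of a point in direction `u`. -/
def offset (u v : ℂ) : ℝ := (v * conj u).re

lemma mul_conj_one {u : ℂ} (hu : ‖u‖ = 1) : u * conj u = 1 := by
  rw [Complex.mul_conj, Complex.normSq_eq_norm_sq, hu]; norm_num

lemma offset_linePt {u : ℂ} (hu : ‖u‖ = 1) (t s : ℝ) : offset u (linePt u t s) = t := by
  rw [offset, linePt, mul_right_comm, mul_conj_one hu, one_mul]; simp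

lemma linePt_offset {u : ℂ} (hu : ‖u‖ = 1) (v : ℂ) :
    linePt u (offset u v) ((v * conj u).im) = v := by
  rw [linePt, offset, Complex.re_add_im, mul_left_comm, mul_conj_one hu, mul_one]

lemma abs_offset_sub_le {u : ℂ} (hu : ‖u‖ = 1) (v w : ℂ) :
    |offset u v - offset u w| ≤ dist v w := by
  rw [offset, offset, ← Complex.sub_re, ← sub_mul]
  refine (Complex.abs_re_le_norm _).trans ?_
  rw [norm_mul, Complex.norm_conj, hu, mul_one, dist_eq_norm]

lemma continuous_offset (u : ℂ) : Continuous (offset u) :=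
  Complex.continuous_re.comp (continuous_id.mul continuous_const)

/-- Fubini in the frame of `u`. -/
lemma lintegral_linePt {u : ℂ} (hu : ‖u‖ = 1) {F : ℂ → ℝ≥0∞} (hF : Measurable F) :
    ∫⁻ t : ℝ, ∫⁻ s : ℝ, F (linePt u t s) = ∫⁻ v, F v := by
  set a : Circle := ⟨u, mem_sphere_zero_iff_norm.2 hu⟩ with ha
  have hr := (rotation a).measurePreserving
  rw [← hr.lintegral_comp hF,
    ← (Complex.volume_preserving_equiv_real_prod.symm _).lintegral_comp_emb
      Complex.measurableEquivRealProd.symm.measurableEmbedding,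
    Measure.volume_eq_prod]
  have e : ∀ p : ℝ × ℝ, rotation a
      (Complex.measurableEquivRealProd.symm p) = linePt u p.1 p.2 := by
    intro p
    rw [rotation_apply, show (a : ℂ) = u from rfl]
    simp [linePt, Complex.measurableEquivRealProd_symm_apply, Complex.mk_eq_add_mul_I]
  simp only [e]
  rw [lintegral_prod]
  exact (hF.comp (by unfold linePt; fun_prop)).aemeasurable

lemma vol_image_le_osc {φ : ℂ → ℝ} (hφ : Continuous φ) {E : Set ℂ} (hE : IsCompact E) :
    volume (φ '' E) ≤ ENNReal.ofReal (osc φ E) := by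
  refine (Real.volume_le_diam _).trans (le_of_eq ?_)
  rw [osc, diam, ENNReal.ofReal_toReal]
  exact (hE.image hφ).isBounded.ediam_ne_top

/-- The context of the line estimate. -/
structure LineData (U : Set ℂ) (f : ℂ → ℂ) (R M : ℝ) (φ : ℂ → ℝ) : Prop where
  ext : IsExt U f
  fin : (comps Uᶜ).Finite
  sub : Uᶜ ⊆ closedBall 0 R
  cov : (f '' U)ᶜ = ⋃ E ∈ comps Uᶜ, clus U f E
  disj : ∀ E ∈ comps Uᶜ, ∀ E' ∈ comps Uᶜ, E' ≠ E → Disjoint (clus U f E) (clus U f E')
  cpt : ∀ E ∈ comps Uᶜ, IsCompact (clus U f E)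
  smooth : ContDiff ℝ 1 φ
  one : ∀ z, R ≤ ‖z‖ → φ z = 1
  far : ∀ z ∈ U, ‖z‖ ≤ R → ‖f z‖ ≤ M
  sub' : (f '' U)ᶜ ⊆ closedBall 0 M

namespace LineData

variable {R M : ℝ} {φ : ℂ → ℝ} (D : LineData U f R M φ)
include D

lemma preimg_bound (N : ℝ) : ∃ N' : ℝ, ∀ p v, v ∈ img U f p → ‖v‖ ≤ N → ‖p‖ ≤ N' := by
  obtain ⟨K, hK, hKsub⟩ := mem_cocompact.1
    (D.ext.norm_inf.eventually (Metric.ball_mem_nhds (0 : ℂ) one_pos))
  obtain ⟨K₀, hK₀⟩ := hK.isBounded.subset_closedBall 0
  refine ⟨max R (max K₀ (N + 1)), fun p v hpv hv => ?_⟩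
  rcases hpv with ⟨-, rfl⟩ | ⟨hp, -⟩
  · by_cases hpK : p ∈ K
    · exact (mem_closedBall_zero_iff.1 (hK₀ hpK)).trans
        ((le_max_left _ _).trans (le_max_right _ _))
    · have h1 : ‖f p - p‖ < 1 := mem_ball_zero_iff.1 (hKsub hpK)
      have h2 := norm_sub_norm_le p (f p)
      rw [norm_sub_rev] at h2
      exact le_trans (by linarith) ((le_max_right K₀ (N + 1)).trans (le_max_right R _))
  · exact (mem_closedBall_zero_iff.1 (D.sub hp)).trans (le_max_left _ _)

/-- Outside the ball of radius `M` the transported test function is constant. -/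
lemma fderiv_push_zero {v : ℂ} (hv : v ∈ f '' U) (hM : M < ‖v‖) :
    fderiv ℝ (push U f φ) v = 0 := by
  have hev : push U f φ =ᶠ[𝓝 v] fun _ => (1 : ℝ) := by
    filter_upwards [(isOpen_image D.ext).mem_nhds hv,
      (isOpen_lt continuous_const continuous_norm).mem_nhds hM] with y hy hyM
    obtain ⟨z, hz, rfl⟩ := hy
    rw [push_apply D.ext φ hz]
    refine D.one z (le_of_not_gt fun h => ?_)
    exact absurd (D.far z hz h.le) (not_le.2 hyM)
  simp [hev.fderiv_eq]

/-- The length bound on one line. -/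
lemma one_le_line {u : ℂ} (hu : ‖u‖ = 1) {t : ℝ} {p v : ℂ} (hp : φ p = 0) (hv : v ∈ img U f p)
    (hvt : offset u v = t) {S : Finset (Set ℂ)}
    (hS : ∀ E ∈ comps Uᶜ, (∃ w ∈ clus U f E, offset u w = t) → E ∈ S)
    (hSsub : ∀ E ∈ S, E ∈ comps Uᶜ) :
    1 ≤ (∫⁻ s, (f '' U).indicator
        (fun w => ENNReal.ofReal ‖fderiv ℝ (push U f φ) w‖) (linePt u t s)) +
      ∑ E ∈ S, ENNReal.ofReal (osc φ E) := by
  have hline : Continuous (linePt u t) := by unfold linePt; fun_prop
  set O := linePt u t ⁻¹' (f '' U) with hO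
  have hOopen : IsOpen O := (isOpen_image D.ext).preimage hline
  set h : ℝ → ℝ := fun s => push U f φ (linePt u t s) with hh
  have hcover : Ioo (0 : ℝ) 1 ⊆ h '' O ∪ ⋃ E ∈ S, φ '' E := by
    intro y hy
    set s₀ := (v * conj u).im with hs₀
    have hv₀ : linePt u t s₀ = v := by rw [← hvt]; exact linePt_offset hu v
    set T := max s₀ (|M| + 1) with hT
    have hTM : M < ‖linePt u t T‖ := by
      rw [linePt, norm_mul, hu, one_mul]
      refine lt_of_lt_of_le ?_ (Complex.abs_im_le_norm _)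
      simp only [Complex.add_im, Complex.ofReal_im, Complex.mul_im, Complex.ofReal_re,
        Complex.I_im, Complex.I_re, mul_one, mul_zero, zero_add, add_zero]
      calc M < |M| + 1 := lt_of_le_of_lt (le_abs_self M) (lt_add_one _)
        _ ≤ T := le_max_right _ _
        _ ≤ |T| := le_abs_self _
    obtain ⟨z, hz, hzT⟩ : linePt u t T ∈ f '' U := by
      by_contra hh'
      exact absurd (mem_closedBall_zero_iff.1 (D.sub' hh')) (not_le.2 hTM)
    have hzone : φ z = 1 := D.one z (le_of_not_gt fun h' => by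
      have := D.far z hz h'.le
      rw [hzT] at this
      exact absurd this (not_le.2 hTM))
    obtain ⟨_, ⟨s, -, rfl⟩, q, hq, hqy⟩ := crossing
      (Γ := {x | x.1 ∈ img U f x.2})
      ((isClosed_imgRel D.ext D.fin D.cpt).preimage continuous_swap)
      (fun N => by
        obtain ⟨N', hN'⟩ := D.preimg_bound N
        exact ⟨N', fun a b hab ha => hN' b a hab ha⟩)
      D.smooth.continuous (isPreconnected_Icc.image _ hline.continuousOn)
      (fun a _ => (preimg_connected D.ext D.disj D.cov a).1)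
      (fun a _ => (preimg_connected D.ext D.disj D.cov a).2)
      (v := p) (v' := z) (t := y)
      (mem_image_of_mem _ (left_mem_Icc.2 (le_max_left s₀ (|M| + 1))))
      (mem_image_of_mem _ (right_mem_Icc.2 (le_max_left s₀ (|M| + 1))))
      (show linePt u t s₀ ∈ img U f p by rw [hv₀]; exact hv)
      (show linePt u t T ∈ img U f z from Or.inl ⟨hz, hzT.symm⟩)
      (by rw [hp]; exact hy.1.le) (by rw [hzone]; exact hy.2.le)
    rcases hq with ⟨hqU, hqe⟩ | ⟨hqU, hqe⟩
    · simp only at hqU hqe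
      refine Or.inl ⟨s, ⟨q, hqU, hqe.symm⟩, ?_⟩
      simp only [hh]
      rw [hqe, push_apply D.ext φ hqU, hqy]
    · refine Or.inr (mem_biUnion (hS _ (mem_comps hqU) ⟨_, hqe, offset_linePt hu t s⟩) ?_)
      exact ⟨q, mem_connectedComponentIn hqU, hqy⟩
  have hderiv : ∀ s ∈ O,
      HasDerivAt h (fderiv ℝ (push U f φ) (linePt u t s) (u * Complex.I)) s := by
    intro s hs
    obtain ⟨z, hz, hzs⟩ := hs
    have hd : DifferentiableAt ℝ (push U f φ) (linePt u t s) :=
      hzs ▸ (hasFDerivAt_push D.ext D.smooth hz).1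
    refine hd.hasFDerivAt.comp_hasDerivAt s ?_
    have h1 : HasDerivAt (fun x : ℝ => u * ((t : ℂ) + (x : ℂ) * Complex.I))
        (u * ((1 : ℝ) * Complex.I)) s :=
      ((((hasDerivAt_id s).ofReal_comp).mul_const Complex.I).const_add (t : ℂ)).const_mul u
    exact h1.congr_deriv (by simp)
  have himg : volume (h '' O) ≤ ∫⁻ s, (f '' U).indicator
      (fun w => ENNReal.ofReal ‖fderiv ℝ (push U f φ) w‖) (linePt u t s) := by
    refine (addHaar_image_le_lintegral_abs_det_fderiv volume hOopen.measurableSet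
      fun s hs => (hderiv s hs).hasFDerivAt.hasFDerivWithinAt).trans ?_
    rw [← lintegral_indicator hOopen.measurableSet]
    refine lintegral_mono fun s => ?_
    by_cases hs : s ∈ O
    · rw [indicator_of_mem hs, indicator_of_mem (show linePt u t s ∈ f '' U from hs)]
      refine ENNReal.ofReal_le_ofReal ?_
      simp only [ContinuousLinearMap.det_toSpanSingleton]
      rw [← Real.norm_eq_abs]
      refine (ContinuousLinearMap.le_opNorm _ _).trans (le_of_eq ?_)
      rw [norm_mul, hu, Complex.norm_I, mul_one, mul_one]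
    · simp [indicator_of_notMem hs]
  calc (1 : ℝ≥0∞) = volume (Ioo (0 : ℝ) 1) := by simp [Real.volume_Ioo]
    _ ≤ volume (h '' O) + ∑ E ∈ S, volume (φ '' E) :=
        (measure_mono hcover).trans ((measure_union_le _ _).trans
          (add_le_add le_rfl (measure_biUnion_finset_le _ _)))
    _ ≤ _ := add_le_add himg (Finset.sum_le_sum fun E hE =>
        vol_image_le_osc D.smooth.continuous (comps_compact D.ext.dom.compact_compl (hSsub E hE)))

/-- The estimate for all offsets between `a` and `b`. -/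
lemma offsets_bound {u : ℂ} (hu : ‖u‖ = 1) {a b : ℝ} (hab : a < b) {S : Finset (Set ℂ)}
    (hSsub : ∀ E ∈ S, E ∈ comps Uᶜ) {c : Set ℂ → ℂ} {r : Set ℂ → ℝ}
    (hr : ∀ E ∈ comps Uᶜ, 0 ≤ r E ∧ clus U f E = closedBall (c E) (r E))
    (hhit : ∀ t ∈ Ioo a b, ∃ p v, φ p = 0 ∧ v ∈ img U f p ∧ offset u v = t)
    (hmiss : ∀ t ∈ Ioo a b, ∀ E ∈ comps Uᶜ, E ∉ S → ∀ w ∈ clus U f E, offset u w ≠ t)
    {ε : ℝ} (hε : 0 ≤ ε) (hM : 0 < M) (hen : energy φ ≤ ε) (hosc : ∑ E ∈ S, osc φ E ^ 2 ≤ ε) :
    (b - a) ^ 2 ≤ 16 * M ^ 2 * ε := by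
  set F : ℂ → ℝ≥0∞ := (f '' U).indicator
    (fun w => ENNReal.ofReal ‖fderiv ℝ (push U f φ) w‖) with hF
  have hG : MeasurableSet (f '' U) := (isOpen_image D.ext).measurableSet
  have hFm : Measurable F := ((measurable_fderiv ℝ _).norm.ennreal_ofReal).indicator hG
  set J : Set ℂ → Set ℝ := fun E => Icc (offset u (c E) - r E) (offset u (c E) + r E) with hJ
  have hline : ∀ t ∈ Ioo a b, (1 : ℝ≥0∞) ≤ (∫⁻ s, F (linePt u t s)) +
      ∑ E ∈ S, (J E).indicator (fun _ => ENNReal.ofReal (osc φ E)) t := by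
    intro t ht
    obtain ⟨p, v, hp, hv, hvt⟩ := hhit t ht
    classical
    refine (D.one_le_line hu hp hv hvt (S := S.filter fun E => t ∈ J E) ?_
      (fun E hE => hSsub E (Finset.mem_filter.1 hE).1)).trans ?_
    · rintro E hE ⟨w, hw, hwt⟩
      refine Finset.mem_filter.2 ⟨by_contra fun h => hmiss t ht E hE h w hw hwt, ?_⟩
      rw [(hr E hE).2, mem_closedBall] at hw
      have := abs_le.1 ((abs_offset_sub_le hu w (c E)).trans hw)
      exact ⟨by linarith [this.1], by linarith [this.2]⟩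
    · refine add_le_add le_rfl ((Finset.sum_filter _ _).trans_le (Finset.sum_le_sum fun E _ => ?_))
      by_cases h : t ∈ J E <;> simp [h]
  have hint : ENNReal.ofReal (b - a) ≤
      (∫⁻ v, F v) + ∑ E ∈ S, ENNReal.ofReal (osc φ E * (2 * r E)) := by
    calc ENNReal.ofReal (b - a) = ∫⁻ t in Ioo a b, 1 := by simp [Real.volume_Ioo]
      _ ≤ ∫⁻ t in Ioo a b, ((∫⁻ s, F (linePt u t s)) +
          ∑ E ∈ S, (J E).indicator (fun _ => ENNReal.ofReal (osc φ E)) t) :=
        setLIntegral_mono' measurableSet_Ioo hline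
      _ ≤ ∫⁻ t, ((∫⁻ s, F (linePt u t s)) +
          ∑ E ∈ S, (J E).indicator (fun _ => ENNReal.ofReal (osc φ E)) t) :=
        setLIntegral_le_lintegral _ _
      _ = _ := by
        have hm : ∀ E ∈ S,
            Measurable ((J E).indicator fun _ => ENNReal.ofReal (osc φ E)) :=
          fun E _ => measurable_const.indicator measurableSet_Icc
        rw [lintegral_add_right _ (Finset.measurable_fun_sum _ hm), lintegral_linePt hu hFm,
          lintegral_finsetSum _ hm]
        congr 1
        refine Finset.sum_congr rfl fun E _ => ?_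
        rw [lintegral_indicator_const measurableSet_Icc, Real.volume_Icc,
          ← ENNReal.ofReal_mul (by simp [osc, diam_nonneg])]
        ring_nf
  have harea : ∑ E ∈ S, r E ^ 2 ≤ M ^ 2 := by
    have hd : (S : Set (Set ℂ)).PairwiseDisjoint fun E => closedBall (c E) (r E) := by
      intro E hE E' hE' hne
      show Disjoint (closedBall (c E) (r E)) (closedBall (c E') (r E'))
      rw [← (hr E (hSsub E hE)).2, ← (hr E' (hSsub E' hE')).2]
      exact D.disj E (hSsub E hE) E' (hSsub E' hE') hne.symm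
    have hsub : (⋃ E ∈ S, closedBall (c E) (r E)) ⊆ closedBall 0 M := by
      refine iUnion₂_subset fun E hE => ?_
      rw [← (hr E (hSsub E hE)).2]
      exact (subset_biUnion_of_mem (u := clus U f) (hSsub E hE)).trans (D.cov.symm.subset.trans D.sub')
    have hmeas := (measure_biUnion_finset hd fun E _ => measurableSet_closedBall).symm.trans_le
      (measure_mono (μ := volume) hsub)
    have h2 := ENNReal.toReal_mono (by simp [Complex.volume_closedBall]; finiteness) hmeas
    rw [ENNReal.toReal_sum (fun E _ => by simp [Complex.volume_closedBall]; finiteness)] at h2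
    have hval : ∀ E ∈ S, (volume (closedBall (c E) (r E))).toReal = r E ^ 2 * Real.pi := by
      intro E hE
      simp [Complex.volume_closedBall, (hr E (hSsub E hE)).1]
    rw [Finset.sum_congr rfl hval, ← Finset.sum_mul] at h2
    simp [Complex.volume_closedBall, hM.le] at h2
    exact le_of_mul_le_mul_right (by simpa [Real.pi] using h2) Real.pi_pos
  have hkey : ∀ l : ℝ, 0 < l → b - a ≤ l * ε + 4 * M ^ 2 / l := by
    intro l hl
    have hFle : ∀ v, F v ≤ (f '' U).indicator (fun w => ENNReal.ofReal (l / 2) *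
        ENNReal.ofReal (‖fderiv ℝ (push U f φ) w‖ ^ 2)) v +
        (closedBall (0 : ℂ) M).indicator (fun _ => ENNReal.ofReal (1 / (2 * l))) v := by
      intro v
      by_cases hv : v ∈ f '' U
      · rw [hF, indicator_of_mem hv, indicator_of_mem hv]
        by_cases hvM : v ∈ closedBall (0 : ℂ) M
        · rw [indicator_of_mem hvM, ← ENNReal.ofReal_mul (by positivity),
            ← ENNReal.ofReal_add (by positivity) (by positivity)]
          refine ENNReal.ofReal_le_ofReal ?_
          set x := ‖fderiv ℝ (push U f φ) v‖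
          have := sq_nonneg (l * x - 1)
          field_simp
          nlinarith
        · rw [mem_closedBall_zero_iff, not_le] at hvM
          simp [D.fderiv_push_zero hv hvM]
      · simp [hF, indicator_of_notMem hv]
    have hI : ∫⁻ v, F v ≤ ENNReal.ofReal (l / 2 * ε) +
        ENNReal.ofReal (1 / (2 * l) * (M ^ 2 * Real.pi)) := by
      refine (lintegral_mono hFle).trans ?_
      rw [lintegral_add_right _ (measurable_const.indicator measurableSet_closedBall),
        lintegral_indicator hG, lintegral_const_mul' _ _ ENNReal.ofReal_ne_top,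
        lintegral_indicator_const measurableSet_closedBall, Complex.volume_closedBall]
      refine add_le_add ?_ (le_of_eq ?_)
      · rw [ENNReal.ofReal_mul (by positivity)]
        gcongr
        exact lintegral_push D.ext D.smooth D.one hen
      · rw [← ENNReal.ofReal_pow hM.le,
          show (NNReal.pi : ℝ≥0∞) = ENNReal.ofReal Real.pi from
            (ENNReal.ofReal_coe_nnreal (p := NNReal.pi)).symm.trans (by rw [NNReal.coe_real_pi]),
          ← ENNReal.ofReal_mul (by positivity), ← ENNReal.ofReal_mul (by positivity)]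
    have hpos : ∀ E ∈ S, 0 ≤ osc φ E * (2 * r E) := fun E hE =>
      mul_nonneg diam_nonneg (by linarith [(hr E (hSsub E hE)).1])
    have h1 := hint.trans (add_le_add hI (le_of_eq (ENNReal.ofReal_sum_of_nonneg hpos).symm))
    rw [← ENNReal.ofReal_add (by positivity) (by positivity),
      ← ENNReal.ofReal_add (by positivity) (Finset.sum_nonneg hpos),
      ENNReal.ofReal_le_ofReal_iff (by have := Finset.sum_nonneg hpos; positivity)] at h1
    have h2 : ∑ E ∈ S, osc φ E * (2 * r E) ≤ l / 2 * ε + 2 / l * M ^ 2 := by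
      calc _ ≤ ∑ E ∈ S, (l / 2 * osc φ E ^ 2 + 2 / l * r E ^ 2) := by
            refine Finset.sum_le_sum fun E _ => ?_
            have := sq_nonneg (l * osc φ E - 2 * r E)
            field_simp
            nlinarith
        _ = l / 2 * ∑ E ∈ S, osc φ E ^ 2 + 2 / l * ∑ E ∈ S, r E ^ 2 := by
            rw [Finset.sum_add_distrib, Finset.mul_sum, Finset.mul_sum]
        _ ≤ _ := by gcongr
    have h3 : 1 / (2 * l) * (M ^ 2 * Real.pi) ≤ 2 / l * M ^ 2 := by
      rw [show 2 / l * M ^ 2 = 1 / (2 * l) * (M ^ 2 * 4) by ring]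
      gcongr
      exact Real.pi_le_four
    have : l / 2 * ε + 2 / l * M ^ 2 + (l / 2 * ε + 2 / l * M ^ 2) = l * ε + 4 * M ^ 2 / l := by
      ring
    linarith
  have := sq_le_of_forall_param (by linarith) hε (by positivity) hkey
  linarith

end LineData

/-! ### The statement -/

theorem line : AreaBoundStmt → ClusStmt → LineStmt := by
  rintro ⟨C₀, hC₀, harea⟩ hclus
  refine ⟨64 * C₀ ^ 2, by positivity, ?_⟩
  intro U f R φ X hR hf hfin hsub hdisc hφ hone hX hzero
  obtain ⟨hout, hgrow⟩ := harea U f R (by linarith) hf hsub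
  obtain ⟨-, hcov, hcl⟩ := hclus U f hf
  have hM0 : (0 : ℝ) < 2 * C₀ * R := by positivity
  have D : LineData U f R (2 * C₀ * R) φ := ⟨hf, hfin, hsub, hcov, fun E hE => (hcl E hE).2.2.2,
    fun E hE => (hcl E hE).2.1, hφ, hone,
    fun z hz hzR => (hgrow z hz).trans (by nlinarith),
    hout.trans (closedBall_subset_closedBall (by nlinarith))⟩
  choose! c r hr using hdisc
  have hfne : ∀ p ∈ X, {v | (p, v) ∈ imgRel U f}.Nonempty ∧
      IsPreconnected {v | (p, v) ∈ imgRel U f} := by
    intro p _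
    by_cases hp : p ∈ U
    · have : {v | (p, v) ∈ imgRel U f} = {f p} := by
        ext v; simp [imgRel, img, hp]
      rw [this]
      exact ⟨singleton_nonempty _, isPreconnected_singleton⟩
    · have : {v | (p, v) ∈ imgRel U f} = clus U f (connectedComponentIn Uᶜ p) := by
        ext v; simp [imgRel, img, hp]
      rw [this, (hr _ (mem_comps hp)).2]
      exact ⟨nonempty_closedBall.2 (hr _ (mem_comps hp)).1,
        (convex_closedBall _ _).isPreconnected⟩
  have hbd : ∀ N : ℝ, ∃ N' : ℝ, ∀ p v, (p, v) ∈ imgRel U f → ‖p‖ ≤ N → ‖v‖ ≤ N' := by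
    intro N
    refine ⟨C₀ * (max N 0 + R), fun p v hpv hp => ?_⟩
    rcases hpv with ⟨hpU, he⟩ | ⟨-, hv⟩
    · obtain rfl : v = f p := he
      refine (hgrow p hpU).trans ?_
      gcongr
      exact hp.trans (le_max_left _ _)
    · refine (mem_closedBall_zero_iff.1 (hout hv.1)).trans ?_
      gcongr
      linarith [le_max_right N 0]
  have hhit : ∀ (u : ℂ) {p p' v v' : ℂ}, p ∈ X → p' ∈ X → v ∈ img U f p → v' ∈ img U f p' →
      ∀ t ∈ Ioo (offset u v) (offset u v'),
        ∃ q w, φ q = 0 ∧ w ∈ img U f q ∧ offset u w = t := by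
    intro u p p' v v' hp hp' hv hv' t ht
    obtain ⟨q, hq, w, hw, hwt⟩ := crossing (isClosed_imgRel hf hfin D.cpt) hbd
      (continuous_offset u) hX (fun q hq => (hfne q hq).1) (fun q hq => (hfne q hq).2)
      hp hp' hv hv' ht.1.le ht.2.le
    exact ⟨q, w, hzero q hq, hw, hwt⟩
  refine ⟨fun ε hε hen hosc p hp p' hp' w hw w' hw' => ?_, fun E hE hXE c' r' hr' hcl' ε hε hen
    hosc p hp w hw => ?_⟩
  · rcases eq_or_ne w w' with rfl | hne
    · simp; positivity
    set u := (w' - w) / (dist w w' : ℂ) with hu'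
    have hd : 0 < dist w w' := dist_pos.2 hne
    have hu : ‖u‖ = 1 := by
      rw [hu', norm_div, Complex.norm_real, Real.norm_of_nonneg hd.le, dist_eq_norm',
        div_self (by simpa [sub_eq_zero] using hne.symm)]
    have hoff : offset u w' - offset u w = dist w w' := by
      rw [offset, offset, ← Complex.sub_re, ← sub_mul, hu', map_div₀, Complex.conj_ofReal,
        mul_div_assoc', Complex.mul_conj, ← Complex.ofReal_div, Complex.ofReal_re,
        Complex.normSq_eq_norm_sq, dist_eq_norm', sq, mul_self_div_self]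
    rw [finsum_mem_eq_finite_toFinset_sum _ hfin] at hosc
    have hb := D.offsets_bound hu (a := offset u w) (b := offset u w') (by linarith)
      (S := hfin.toFinset) (fun E hE => hfin.mem_toFinset.1 hE) hr
      (hhit u hp hp' hw hw') (fun t _ E hE hnot => absurd (hfin.mem_toFinset.2 hE) hnot)
      hε hM0 hen hosc
    rw [hoff] at hb
    exact hb.trans (le_of_eq (by ring))
  · rcases le_or_gt (dist w c') r' with h | h
    · exact h.trans (le_add_of_nonneg_right (Real.sqrt_nonneg _))
    set u := (w - c') / (dist w c' : ℂ) with hu'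
    have hd : 0 < dist w c' := lt_of_le_of_lt hr' h
    have hu : ‖u‖ = 1 := by
      rw [hu', norm_div, Complex.norm_real, Real.norm_of_nonneg hd.le, ← dist_eq_norm,
        div_self hd.ne']
    have hoff : offset u w - offset u c' = dist w c' := by
      rw [offset, offset, ← Complex.sub_re, ← sub_mul, hu', map_div₀, Complex.conj_ofReal,
        mul_div_assoc', Complex.mul_conj, ← Complex.ofReal_div, Complex.ofReal_re,
        Complex.normSq_eq_norm_sq, dist_eq_norm, sq, mul_self_div_self]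
    obtain ⟨p₀, hp₀X, hp₀E⟩ := hXE
    have hc₀ : c' ∈ img U f p₀ :=
      Or.inr ⟨comps_subset hE hp₀E, by rw [comps_eq hE hp₀E, hcl']; exact mem_closedBall_self hr'⟩
    have hfin' : (comps Uᶜ \ {E}).Finite := hfin.sdiff
    rw [finsum_mem_eq_finite_toFinset_sum _ hfin'] at hosc
    have hb := D.offsets_bound hu (a := offset u c' + r') (b := offset u w) (by linarith)
      (S := hfin'.toFinset) (fun E' hE' => (hfin'.mem_toFinset.1 hE').1) hr
      (fun t ht => hhit u hp₀X hp hc₀ hw t ⟨by linarith [ht.1], ht.2⟩)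
      (fun t ht E' hE' hnot v hv hvt => by
        obtain rfl : E' = E := by
          by_contra hne
          exact hnot (hfin'.mem_toFinset.2 ⟨hE', hne⟩)
        rw [hcl', mem_closedBall] at hv
        have := abs_le.1 ((abs_offset_sub_le hu v c').trans hv)
        linarith [ht.1, this.2])
      hε hM0 hen hosc
    have h2 : dist w c' - r' ≤ Real.sqrt (64 * C₀ ^ 2 * R ^ 2 * ε) := by
      refine Real.le_sqrt_of_sq_le ?_
      calc (dist w c' - r') ^ 2 = (offset u w - (offset u c' + r')) ^ 2 := by rw [← hoff]; ring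
        _ ≤ _ := hb.trans (le_of_eq (by ring))
    linarith

end Vale.Agent.P116.Pack
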