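import Vale.Agent.P116.Pack.Basic
import Vale.Agent.P274.Basic

/-!
P116 Pack: normalised univalent maps of larger domains form a normal family (`NormalStmt`).
-/

noncomputable section

namespace Vale.Agent.P116.Pack

open Set Filter Metric
open scoped Topology

theorem normal : AreaBoundStmt → NormalStmt := by
  rintro ⟨C, hC, harea⟩ U Uk fk hU hsub hk
  obtain ⟨R, hR, hKR⟩ := hU.exists_radius
  have hbound : ∀ k, ∀ z ∈ U, ‖fk k z‖ ≤ C * (‖z‖ + R) := fun k z hz =>
    (harea (Uk k) (fk k) R (by linarith) (hk k)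
      ((compl_subset_compl.2 (hsub k)).trans hKR)).2 z (hsub k hz)
  obtain ⟨s, hs, f, -, hlim⟩ := Vale.Agent.P274.montel hU.isOpen fk fun z hz => by
    obtain ⟨r, hr, hball⟩ := Metric.isOpen_iff.1 hU.isOpen z hz
    refine ⟨r, hr, C * (‖z‖ + r + R), Eventually.of_forall fun k =>
      ⟨(hk k).diff.mono (hball.trans (hsub k)), fun y hy => ?_⟩⟩
    refine (hbound k y (hball hy)).trans ?_
    have h1 := mem_ball.1 hy
    have h2 := norm_le_norm_add_norm_sub' y z
    rw [← dist_eq_norm] at h2
    gcongr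
    linarith
  exact ⟨s, f, hs, hlim⟩

end Vale.Agent.P116.Pack
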