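import Vale.Agent.P116.Pack.Step
import Vale.Agent.P116.Pack.Derived

/-!
P116 Pack: finitely many steps give a circle domain.
-/

noncomputable section

namespace Vale.Agent.P116.Pack

open Set Filter Metric

/-- The components of the complement of the image are the parts of the components. -/
lemma comps_compl_image (hC : ClusStmt) {U : Set ℂ} {f : ℂ → ℂ} (hf : IsExt U f)
    (hpre : ∀ E ∈ comps Uᶜ, IsPreconnected (clus U f E)) :
    comps (f '' U)ᶜ = (fun E => clus U f E) '' comps Uᶜ := by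
  obtain ⟨-, heq, hcl⟩ := hC U f hf
  have key : ∀ E ∈ comps Uᶜ, ∀ w ∈ clus U f E,
      connectedComponentIn (f '' U)ᶜ w = clus U f E := fun E hE w hw =>
    Subset.antisymm ((hcl E hE).2.2.1 w hw)
      ((hpre E hE).subset_connectedComponentIn hw fun v hv => hv.1)
  refine Subset.antisymm ?_ ?_
  · rintro _ ⟨w, hw, rfl⟩
    obtain ⟨E, hE, hwE⟩ := mem_iUnion₂.1 (heq ▸ hw)
    exact ⟨E, hE, (key E hE w hwE).symm⟩
  · rintro _ ⟨E, hE, rfl⟩
    obtain ⟨w, hw⟩ := (hcl E hE).1
    exact ⟨w, hw.1, key E hE w hw⟩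

theorem plane (hC : ClusStmt) (hL : LimitStmt) (hD : DiscGoodStmt) (hS : StepStmt) :
    PlaneStmt := by
  suffices key : ∀ (k : ℕ) (U : Set ℂ), Dom U → ∀ B : Set (Set ℂ), B ⊆ comps Uᶜ →
      (∀ E ∈ comps Uᶜ, ¬ Good Uᶜ E → E ∈ B) → (derived Uᶜ)^[k] B = ∅ →
        ∃ f : ℂ → ℂ, IsExt U f ∧
          ∀ E ∈ comps (f '' U)ᶜ, ∃ (c : ℂ) (r : ℝ), 0 ≤ r ∧ E = closedBall c r by
    intro U hU hbad
    obtain ⟨k, hk⟩ := hbad
    exact key k U hU {E ∈ comps Uᶜ | ¬ Good Uᶜ E} (fun E hE => hE.1) (fun E hE h => ⟨hE, h⟩) hk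
  intro k
  induction k with
  | zero =>
    intro U hU B hBK hB hk
    have hk' : B = ∅ := hk
    have hgood : ∀ E ∈ comps Uᶜ, Good Uᶜ E := fun E hE =>
      by_contra fun h => by simpa [hk'] using hB E hE h
    obtain ⟨f, hf, hfE⟩ := hS U hU
      ((countable_of_finRank hBK 0 hk).mono fun E hE => hB E hE.1 hE.2)
    refine ⟨f, hf, fun C hC' => ?_⟩
    rw [comps_compl_image hC hf fun E hE => (hfE E hE).1] at hC'
    obtain ⟨E, hE, rfl⟩ := hC'
    exact (hfE E hE).2 (hgood E hE)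
  | succ k ih =>
    intro U hU B hBK hB hk
    obtain ⟨f, hf, hfE⟩ := hS U hU
      ((countable_of_finRank hBK (k + 1) hk).mono fun E hE => hB E hE.1 hE.2)
    set V := f '' U with hVd
    have hV : Dom V := (hC U f hf).1
    have hcV : comps Vᶜ = (fun E => clus U f E) '' comps Uᶜ :=
      comps_compl_image hC hf fun E hE => (hfE E hE).1
    set B₁ := (fun E => clus U f E) '' B
    have hgood : ∀ C ∈ comps Vᶜ, C ∉ derived Vᶜ B₁ → Good Vᶜ C := by
      intro C hC' hnd
      obtain ⟨O, hO, hCO, hO'⟩ : ∃ O : Set ℂ, IsOpen O ∧ C ⊆ O ∧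
          ∀ C' ∈ B₁, C' ≠ C → ¬ (C' ∩ O).Nonempty := by
        by_contra! h
        exact hnd ⟨hC', fun O hO hCO => h O hO hCO⟩
      refine hD _ C O hV.compact_compl hC' hO hCO fun C' hC'' hne hmeet => ?_
      rw [hcV] at hC''
      obtain ⟨E', hE', rfl⟩ := hC''
      by_cases hgE : Good Uᶜ E'
      · obtain ⟨c, r, -, h⟩ := (hfE E' hE').2 hgE
        exact ⟨c, r, h⟩
      · exact absurd hmeet (hO' _ ⟨E', hB E' hE' hgE, rfl⟩ hne)
    have hit : ∀ (m : ℕ) (X : Set (Set ℂ)), X ⊆ comps Uᶜ →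
        (derived Vᶜ)^[m] ((fun E => clus U f E) '' X) ⊆
          (fun E => clus U f E) '' ((derived Uᶜ)^[m] X) := by
      intro m
      induction m with
      | zero => exact fun X _ => Subset.rfl
      | succ m ihm =>
        intro X hX
        rw [Function.iterate_succ_apply, Function.iterate_succ_apply]
        exact (iterate_derived_mono m (derived_image hC hL hf hX hcV)).trans
          (ihm _ fun E hE => hE.1)
    have hk₁ : (derived Vᶜ)^[k] (derived Vᶜ B₁) = ∅ := by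
      have := hit (k + 1) B hBK
      rwa [hk, image_empty, subset_empty_iff, Function.iterate_succ_apply] at this
    obtain ⟨g, hg, hgE⟩ := ih V hV (derived Vᶜ B₁) (fun C h => h.1)
      (fun C hC' hn => by_contra fun h => hn (hgood C hC' h)) hk₁
    refine ⟨g ∘ f, hf.comp hg, fun C hC' => ?_⟩
    rw [image_comp] at hC'
    exact hgE C hC'

/-- Finitely many bad components are allowed. -/
lemma finRankBad_of_finite {U : Set ℂ} (hU : Dom U) (h : {E ∈ comps Uᶜ | ¬ Good Uᶜ E}.Finite) :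
    FinRankBad Uᶜ :=
  ⟨1, derived_finite hU.compact_compl (fun _ hE => hE.1) h⟩

end Vale.Agent.P116.Pack
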