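import Vale.Agent.P116.Pack.Basic
import Vale.Agent.P116.Reflect

/-!
P116 Pack: Schwarz reflection across a circle (`ReflectStmt`), from the reflection lemmas for the
real line, pulled back by `ζ ↦ c + r exp (-i ζ)`.
-/

noncomputable section

namespace Vale.Agent.P116.Pack

open Set Filter Metric Function Complex
open scoped Topology ComplexConjugate

/-- The covering of `ℂ \ {c}` that maps the upper half plane outside the circle. -/
def expCirc (c : ℂ) (r : ℝ) (ζ : ℂ) : ℂ := c + r * Complex.exp (-I * ζ)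

lemma hasDerivAt_expCirc (c : ℂ) (r : ℝ) (ζ : ℂ) :
    HasDerivAt (expCirc c r) ((r : ℂ) * (Complex.exp (-I * ζ) * -I)) ζ := by
  have h1 : HasDerivAt (fun w : ℂ => -I * w) (-I) ζ := by
    simpa using (hasDerivAt_id' ζ).const_mul (-I)
  exact (h1.cexp.const_mul _).const_add _

lemma differentiable_expCirc (c : ℂ) (r : ℝ) : Differentiable ℂ (expCirc c r) := fun ζ =>
  (hasDerivAt_expCirc c r ζ).differentiableAt

lemma hasStrictDerivAt_expCirc (c : ℂ) (r : ℝ) (ζ : ℂ) :
    HasStrictDerivAt (expCirc c r) ((r : ℂ) * (Complex.exp (-I * ζ) * -I)) ζ := by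
  have h1 := ((differentiable_expCirc c r).analyticAt ζ).hasStrictDerivAt
  rwa [(hasDerivAt_expCirc c r ζ).deriv] at h1

lemma expCirc_deriv_ne {r : ℝ} (hr : 0 < r) (ζ : ℂ) :
    (r : ℂ) * (Complex.exp (-I * ζ) * -I) ≠ 0 := by
  simp [hr.ne', Complex.exp_ne_zero]

lemma dist_expCirc (c : ℂ) {r : ℝ} (hr : 0 < r) (ζ : ℂ) :
    dist (expCirc c r ζ) c = r * Real.exp ζ.im := by
  rw [dist_eq_norm, expCirc, add_sub_cancel_left, norm_mul, Complex.norm_exp, Complex.norm_real,
    Real.norm_eq_abs, abs_of_pos hr]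
  simp

lemma preimage_outside (c : ℂ) {r : ℝ} (hr : 0 < r) :
    expCirc c r ⁻¹' (closedBall c r)ᶜ = upHP := by
  ext ζ
  rw [mem_preimage, mem_compl_iff, mem_closedBall, dist_expCirc c hr, not_le,
    lt_mul_iff_one_lt_right hr, Real.one_lt_exp_iff]
  rfl

lemma map_expCirc_nhdsWithin (c : ℂ) {r : ℝ} (hr : 0 < r) (x : ℂ) :
    map (expCirc c r) (𝓝[upHP] x) = 𝓝[(closedBall c r)ᶜ] (expCirc c r x) := by
  rw [nhdsWithin, nhdsWithin, ← preimage_outside c hr, ← comap_principal, Filter.push_pull,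
    (hasStrictDerivAt_expCirc c r x).map_nhds_eq (expCirc_deriv_ne hr x)]

lemma exists_real_preimage (c : ℂ) {r : ℝ} (hr : 0 < r) {p : ℂ} (hp : p ∈ sphere c r) :
    ∃ x : ℂ, x.im = 0 ∧ expCirc c r x = p := by
  have hn : ‖(p - c) / (r : ℂ)‖ = 1 := by
    rw [norm_div, Complex.norm_real, Real.norm_eq_abs, abs_of_pos hr, ← dist_eq_norm,
      mem_sphere.1 hp, div_self hr.ne']
  obtain ⟨θ, hθ⟩ := (Complex.norm_eq_one_iff _).1 hn
  refine ⟨((-θ : ℝ) : ℂ), by simp, ?_⟩
  have h0 : (r : ℂ) ≠ 0 := by exact_mod_cast hr.ne'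
  rw [expCirc, show -I * ((-θ : ℝ) : ℂ) = θ * I by push_cast; ring, hθ]
  field_simp
  ring

lemma dist_circInv (c : ℂ) {r : ℝ} (z : ℂ) :
    dist (circInv c r z) c = r ^ 2 / dist z c := by
  rw [dist_eq_norm, circInv, add_sub_cancel_left, norm_div, norm_pow, Complex.norm_real,
    Real.norm_eq_abs, sq_abs, Complex.norm_conj, dist_eq_norm]

lemma circInv_of_mem_sphere {c : ℂ} {r : ℝ} (hr : 0 < r) {z : ℂ} (hz : z ∈ sphere c r) :
    circInv c r z = z := by
  have h : z - c ≠ 0 := sub_ne_zero.2 (ne_of_mem_sphere hz hr.ne')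
  have h2 : conj (z - c) ≠ 0 := (map_ne_zero _).2 h
  have h3 : (z - c) * conj (z - c) = (r : ℂ) ^ 2 := by
    rw [Complex.mul_conj', ← dist_eq_norm, mem_sphere.1 hz]
  rw [circInv, ← h3, mul_div_assoc, div_self h2, mul_one, add_sub_cancel]

lemma continuousOn_circInv (c : ℂ) (r : ℝ) : ContinuousOn (circInv c r) {c}ᶜ := by
  refine continuousOn_const.add (continuousOn_const.div
    (Complex.continuous_conj.comp (continuous_id.sub continuous_const)).continuousOn fun z hz => ?_)
  exact (map_ne_zero _).2 (sub_ne_zero.2 hz)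

/-- `ReflectStmt`. -/
theorem reflect : ReflectStmt := by
  intro c c' r r' V g hr hr' hV hsV hg hlt hbd
  classical
  set S := (closedBall c r)ᶜ with hS
  have hSo : IsOpen S := isClosed_closedBall.isOpen_compl
  have hmemS : ∀ {z : ℂ}, z ∈ S ↔ r < dist z c := fun {z} => by simp [hS]
  have hVS : IsOpen (V ∩ S) := hV.inter hSo
  have hgd : DifferentiableOn ℂ g (V ∩ S) := hg
  have hne : ∀ {z : ℂ}, z ∈ V → r < dist z c → g z - c' ≠ 0 := fun {z} hz hz' h => by
    have := hlt z hz hz'
    rw [dist_eq_norm, h, norm_zero] at this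
    linarith
  -- the boundary limits
  have hlim : ∀ p ∈ sphere c r,
      ∃ L, L ∈ sphere c' r' ∧ Tendsto g (𝓝[S] p) (𝓝 L) ∧ (𝓝[S] p).NeBot := by
    intro p hp
    obtain ⟨x, hx, rfl⟩ := exists_real_preimage c hr hp
    obtain ⟨δ, hδ, hδV⟩ := Metric.isOpen_iff.1 (hV.preimage (differentiable_expCirc c r).continuous)
      x (show expCirc c r x ∈ V from hsV hp)
    set φ : ℂ → ℂ := fun ζ => (r' : ℂ) / (g (expCirc c r ζ) - c') with hφ
    have hmaps : ∀ ζ ∈ ball x δ ∩ upHP, expCirc c r ζ ∈ V ∩ S := fun ζ hζ =>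
      ⟨hδV hζ.1, by
        have := hζ.2
        rwa [← preimage_outside c hr] at this⟩
    have hd : DifferentiableOn ℂ φ (ball x δ ∩ upHP) :=
      (differentiableOn_const _).div
        ((hgd.comp (differentiable_expCirc c r).differentiableOn hmaps).sub_const c')
        fun ζ hζ => hne (hmaps ζ hζ).1 (hmemS.1 (hmaps ζ hζ).2)
    have hsmall : ∀ ζ ∈ ball x δ ∩ upHP, ‖φ ζ‖ < 1 := fun ζ hζ => by
      have h1 := hlt _ (hmaps ζ hζ).1 (hmemS.1 (hmaps ζ hζ).2)
      rw [dist_eq_norm] at h1
      rw [hφ, norm_div, Complex.norm_real, Real.norm_eq_abs, abs_of_pos hr',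
        div_lt_one (hr'.trans h1)]
      exact h1
    obtain ⟨L, hL, hT⟩ := exists_limit_of_norm_tendsto_one hx hδ hd hsmall fun y hy hyi => by
      have hys : expCirc c r y ∈ sphere c r := by
        rw [mem_sphere, dist_expCirc c hr, hyi]; simp
      have h1 := hbd _ hys
      rw [← map_expCirc_nhdsWithin c hr y, tendsto_map'_iff] at h1
      have h2 : Tendsto (fun ζ => r' / dist (g (expCirc c r ζ)) c') (𝓝[upHP] y) (𝓝 (r' / r')) :=
        tendsto_const_nhds.div h1 hr'.ne'
      rw [div_self hr'.ne'] at h2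
      refine h2.congr fun ζ => ?_
      rw [hφ, norm_div, Complex.norm_real, Real.norm_eq_abs, abs_of_pos hr', dist_eq_norm]
    have hL0 : L ≠ 0 := fun h => by simp [h] at hL
    refine ⟨c' + (r' : ℂ) / L, ?_, ?_, ?_⟩
    · simp [hL, abs_of_pos hr']
    · rw [← map_expCirc_nhdsWithin c hr x, tendsto_map'_iff]
      refine (((tendsto_const_nhds (x := (r' : ℂ))).div hT hL0).const_add c').congr' ?_
      filter_upwards [self_mem_nhdsWithin (s := upHP),
        mem_nhdsWithin_of_mem_nhds (ball_mem_nhds x hδ)] with ζ hζu hζb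
      have h0 := hne (hmaps ζ ⟨hζb, hζu⟩).1 (hmemS.1 (hmaps ζ ⟨hζb, hζu⟩).2)
      have hr0 : (r' : ℂ) ≠ 0 := by exact_mod_cast hr'.ne'
      simp only [Pi.div_apply, hφ, Function.comp_apply, div_div_cancel₀ hr0, add_sub_cancel]
    · rw [← map_expCirc_nhdsWithin c hr x]
      have := nhdsWithin_upHP_neBot (x := x) hx.ge
      infer_instance
  set G := extendFrom S g with hG
  have hclS : ∀ {z : ℂ}, z ∈ V → r ≤ dist z c → z ∈ closure S := fun {z} hz hz' => by
    rcases lt_or_eq_of_le hz' with h | h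
    · exact subset_closure (hmemS.2 h)
    · obtain ⟨L, -, -, hne⟩ := hlim z (mem_sphere.2 h.symm)
      exact mem_closure_iff_nhdsWithin_neBot.2 hne
  have hGout : ∀ {z : ℂ}, z ∈ V → r < dist z c → G z = g z := fun {z} hz hz' =>
    extendFrom_eq (subset_closure (hmemS.2 hz'))
      ((hgd.differentiableAt (hVS.mem_nhds ⟨hz, hmemS.2 hz'⟩)).continuousAt.mono_left
        nhdsWithin_le_nhds)
  have hGsph : ∀ {z : ℂ}, z ∈ sphere c r → G z ∈ sphere c' r' := fun {z} hz => by
    obtain ⟨L, hL, hT, hne⟩ := hlim z hz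
    rw [hG, extendFrom_eq (mem_closure_iff_nhdsWithin_neBot.2 hne) hT]
    exact hL
  have hGc : ContinuousOn G (V ∩ {z | r ≤ dist z c}) := by
    refine continuousOn_extendFrom (fun z hz => hclS hz.1 hz.2) ?_
    rintro z ⟨hz, hz'⟩
    rcases lt_or_eq_of_le (show r ≤ dist z c from hz') with h | h
    · exact ⟨g z, (hgd.differentiableAt (hVS.mem_nhds ⟨hz, hmemS.2 h⟩)).continuousAt.mono_left
        nhdsWithin_le_nhds⟩
    · obtain ⟨L, -, hT, -⟩ := hlim z (mem_sphere.2 h.symm)
      exact ⟨L, hT⟩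
  set W := ({c}ᶜ ∩ circInv c r ⁻¹' V) ∩ V with hW
  have hWo : IsOpen W :=
    ((continuousOn_circInv c r).isOpen_inter_preimage isOpen_compl_singleton hV).inter hV
  have hsW : sphere c r ⊆ W := fun z hz =>
    ⟨⟨ne_of_mem_sphere hz hr.ne', by rw [mem_preimage, circInv_of_mem_sphere hr hz]; exact hsV hz⟩,
      hsV hz⟩
  set Q : ℂ → ℂ := fun z =>
    if r ≤ dist z c then G z else circInv c' r' (G (circInv c r z)) with hQ
  have hin : ∀ {z : ℂ}, z ∈ W → dist z c ≤ r → r ≤ dist (circInv c r z) c := fun {z} hz h => by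
    have h0 : 0 < dist z c := dist_pos.2 hz.1.1
    rw [dist_circInv, le_div_iff₀ h0, sq]
    exact mul_le_mul_of_nonneg_left h hr.le
  have hin' : ∀ {z : ℂ}, z ∈ W → dist z c < r → r < dist (circInv c r z) c := fun {z} hz h => by
    have h0 : 0 < dist z c := dist_pos.2 hz.1.1
    rw [dist_circInv, lt_div_iff₀ h0, sq]
    exact mul_lt_mul_of_pos_left h hr
  have hQc : ContinuousOn Q W := by
    refine ContinuousOn.if ?_ ?_ ?_
    · rintro z ⟨hz, hzf⟩
      have h1 : r = dist z c :=
        frontier_le_subset_eq continuous_const (continuous_id.dist continuous_const) hzf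
      have hs : z ∈ sphere c r := mem_sphere.2 h1.symm
      rw [circInv_of_mem_sphere hr hs, circInv_of_mem_sphere hr' (hGsph hs)]
    · refine hGc.mono ?_
      rintro z ⟨hz, hzc⟩
      exact ⟨hz.2, closure_minimal (t := {z | r ≤ dist z c}) subset_rfl
        (isClosed_le continuous_const (continuous_id.dist continuous_const)) hzc⟩
    · have hsub : ∀ z ∈ W ∩ closure {z | ¬ r ≤ dist z c},
          circInv c r z ∈ V ∩ {z | r ≤ dist z c} := by
        rintro z ⟨hz, hzc⟩
        refine ⟨hz.1.2, hin hz ?_⟩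
        exact closure_minimal (t := {z | dist z c ≤ r})
          (fun y hy => (not_le.1 hy).le)
          (isClosed_le (continuous_id.dist continuous_const) continuous_const) hzc
      refine (continuousOn_circInv c' r').comp
        (hGc.comp ((continuousOn_circInv c r).mono fun z hz => hz.1.1.1) hsub) fun z hz => ?_
      have h1 := hsub z hz
      show G (circInv c r z) ≠ c'
      intro h
      rcases lt_or_eq_of_le (show r ≤ dist (circInv c r z) c from h1.2) with h2 | h2
      · rw [hGout h1.1 h2] at h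
        exact hne h1.1 h2 (sub_eq_zero.2 h)
      · exact ne_of_mem_sphere (hGsph (mem_sphere.2 h2.symm)) hr'.ne' h
  have hQoff : ∀ z ∈ W, dist z c ≠ r → DifferentiableAt ℂ Q z := by
    intro z hz hne'
    rcases lt_or_gt_of_ne hne' with h | h
    · set w₀ := conj c + (r : ℂ) ^ 2 / (z - c) with hw₀
      have hw : conj w₀ = circInv c r z := by simp [hw₀, circInv]
      have hmem : circInv c r z ∈ V ∩ S := ⟨hz.1.2, hmemS.2 (hin' hz h)⟩
      have hF : DifferentiableAt ℂ (fun w => conj (g (conj w))) w₀ :=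
        differentiableAt_conj_conj_iff.2 (hgd.differentiableAt (hVS.mem_nhds (hw ▸ hmem)))
      have h0 : z - c ≠ 0 := sub_ne_zero.2 hz.1.1
      have hm : DifferentiableAt ℂ (fun v : ℂ => conj c + (r : ℂ) ^ 2 / (v - c)) z :=
        (((differentiableAt_id).sub_const c).inv h0).const_mul _ |>.const_add _
      have hcomp : DifferentiableAt ℂ
          (fun v => c' + (r' : ℂ) ^ 2 / (conj (g (conj (conj c + (r : ℂ) ^ 2 / (v - c)))) - conj c')) z := by
        refine (((hF.comp z hm).sub_const (conj c')).inv ?_).const_mul _ |>.const_add _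
        simp only [Function.comp_apply, ← hw₀, hw, ← map_sub]
        exact (map_ne_zero _).2 (hne hmem.1 (hmemS.1 hmem.2))
      refine hcomp.congr_of_eventuallyEq ?_
      filter_upwards [hWo.mem_nhds hz,
        (isOpen_lt (continuous_id.dist continuous_const) continuous_const).mem_nhds h] with v hv hvd
      have hvd' : dist v c < r := hvd
      simp only [hQ, if_neg (not_le.2 hvd')]
      rw [hGout hv.1.2 (hin' hv hvd')]
      simp [circInv]
    · refine (hgd.differentiableAt (hVS.mem_nhds ⟨hz.2, hmemS.2 h⟩)).congr_of_eventuallyEq ?_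
      filter_upwards [hVS.mem_nhds ⟨hz.2, hmemS.2 h⟩] with v hv
      simp only [hQ, if_pos (le_of_lt (hmemS.1 hv.2))]
      exact hGout hv.1 (hmemS.1 hv.2)
  refine ⟨W, Q, hWo, hsW, inter_subset_right, ?_, ?_, ?_, ?_⟩
  · intro p hp
    by_cases hpd : dist p c = r
    · obtain ⟨x, hx, rfl⟩ := exists_real_preimage c hr (mem_sphere.2 hpd)
      obtain ⟨δ, hδ, hδW⟩ :=
        Metric.isOpen_iff.1 (hWo.preimage (differentiable_expCirc c r).continuous) x hp
      have hd : DifferentiableOn ℂ (Q ∘ expCirc c r) (ball x δ) :=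
        differentiableOn_of_off_real
          (hQc.comp (differentiable_expCirc c r).continuous.continuousOn hδW)
          fun ζ hζ hζi => by
            refine (hQoff _ (hδW hζ) fun h => hζi ?_).comp ζ (differentiable_expCirc c r ζ)
            rw [dist_expCirc c hr, mul_eq_left₀ hr.ne', Real.exp_eq_one_iff] at h
            exact h
      set hs := hasStrictDerivAt_expCirc c r x
      set h0 := expCirc_deriv_ne hr x
      have hli := (hs.to_localInverse h0).hasDerivAt.differentiableAt
      have hfix : hs.localInverse (expCirc c r) _ x h0 (expCirc c r x) = x :=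
        (hs.eventually_left_inverse h0).self_of_nhds
      have hd1 : DifferentiableAt ℂ (Q ∘ expCirc c r)
          (hs.localInverse (expCirc c r) _ x h0 (expCirc c r x)) := by
        rw [hfix]
        exact hd.differentiableAt (isOpen_ball.mem_nhds (mem_ball_self hδ))
      refine ((hd1.comp (expCirc c r x) hli).congr_of_eventuallyEq ?_).differentiableWithinAt
      filter_upwards [hs.eventually_right_inverse h0] with v hv
      simp only [Function.comp_apply, hv]
    · exact (hQoff p hp hpd).differentiableWithinAt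
  · intro z hz h
    simp only [hQ, if_pos h.le]
    exact hGout hz.2 h
  · intro z hz h
    refine ⟨hz.1.2, ?_⟩
    simp only [hQ, if_neg (not_le.2 h)]
    rw [hGout hz.1.2 (hin' hz h)]
  · intro z hz
    simp only [hQ, if_pos (mem_sphere.1 hz).ge]
    exact hGsph hz

end Vale.Agent.P116.Pack
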