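import Vale.Agent.P116.Pack.AreaTools
import Vale.Agent.P116.Cover

/-!
P116 Pack: the exterior Riemann map of a continuum `K` with connected complement.

For `a ≠ b` in `K` a branch `G` of the square root of `(z - a) / (z - b)` off `K` is a limit of
sums of principal logarithms along finer and finer chains in `K`. The map `B = c / (1 + G)` sends
`Kᶜ ∪ {∞}` onto a bounded domain whose complement is connected and unbounded: the preimage of
`K` under the rational inverse of `B` is connected, because this inverse is open, proper and has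
a single preimage of `a`. The Riemann map of that domain gives the exterior map.
-/

noncomputable section

namespace Vale.Agent.P116.Pack

open Set Filter Metric Function Complex
open scoped Topology ComplexConjugate

namespace Round

variable {K : Set ℂ} {a b : ℂ}

/-- An injective holomorphic map has open image. -/
lemma isOpen_image' {g : ℂ → ℂ} {V : Set ℂ} (hV : IsOpen V) (hd : DifferentiableOn ℂ g V)
    (hi : InjOn g V) : IsOpen (g '' V) := by
  refine isOpen_iff_mem_nhds.2 ?_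
  rintro _ ⟨z, hz, rfl⟩
  have hne := P142.Area.deriv_ne_zero_of_injOn hV hd hi hz
  rw [← ((hd.analyticAt (hV.mem_nhds hz)).hasStrictDerivAt).map_nhds_eq hne]
  exact image_mem_map (hV.mem_nhds hz)

lemma tendsto_ratio (y y' : ℂ) :
    Tendsto (fun z : ℂ => (z - y) / (z - y')) (cocompact ℂ) (𝓝 1) := by
  rw [← cobounded_eq_cocompact]
  have h0 : Tendsto (fun z : ℂ => z⁻¹) (Bornology.cobounded ℂ) (𝓝 0) := tendsto_inv₀_cobounded
  have h1 := ((h0.const_mul y).const_sub 1).div ((h0.const_mul y').const_sub 1) (by simp)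
  simp only [mul_zero, sub_zero, div_one] at h1
  refine h1.congr' ?_
  have hne : ∀ᶠ z : ℂ in Bornology.cobounded ℂ, z ≠ 0 := by
    refine Filter.mem_of_superset
      (Bornology.IsBounded.compl (Bornology.isBounded_singleton (x := (0 : ℂ)))) fun z hz => hz
  filter_upwards [hne] with z hz
  simp only [Pi.div_apply]
  rw [show 1 - y * z⁻¹ = (z - y) * z⁻¹ by field_simp,
    show 1 - y' * z⁻¹ = (z - y') * z⁻¹ by field_simp,
    mul_div_mul_right _ _ (inv_ne_zero hz)]

/-- The points farther than `ε` from `K`. -/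
def far (K : Set ℂ) (ε : ℝ) : Set ℂ := {z | ε < infDist z K}

lemma isOpen_far (K : Set ℂ) (ε : ℝ) : IsOpen (far K ε) :=
  isOpen_lt continuous_const (continuous_infDist_pt K)

lemma dist_gt {ε : ℝ} {z k : ℂ} (hz : z ∈ far K ε) (hk : k ∈ K) : ε < dist z k :=
  lt_of_lt_of_le hz (infDist_le_dist_of_mem hk)

/-- A logarithm of `(z - a) / (z - b)` off a neighbourhood of `K`. -/
lemma exists_log_chain (hKc : IsPreconnected K) (ha : a ∈ K) (hb : b ∈ K) {ε : ℝ} (hε : 0 < ε) :
    ∃ L : ℂ → ℂ, DifferentiableOn ℂ L (far K ε) ∧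
      (∀ z ∈ far K ε, exp (L z) = (z - a) / (z - b)) ∧ Tendsto L (cocompact ℂ) (𝓝 0) := by
  set P : ℂ → Prop := fun y => ∃ L : ℂ → ℂ, DifferentiableOn ℂ L (far K ε) ∧
      (∀ z ∈ far K ε, exp (L z) = (z - a) / (z - y)) ∧ Tendsto L (cocompact ℂ) (𝓝 0) with hP
  have hne : ∀ z ∈ far K ε, ∀ k ∈ K, z - k ≠ 0 := by
    intro z hz k hk h
    have := dist_gt hz hk
    rw [dist_eq_norm, h, norm_zero] at this
    linarith
  have hstep : ∀ y ∈ K, P y → ∀ y' ∈ K, dist y y' < ε → P y' := by
    rintro y hy ⟨L, hLd, hLe, hLt⟩ y' hy' hdist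
    have hslit : ∀ z ∈ far K ε, (z - y) / (z - y') ∈ slitPlane := by
      intro z hz
      rw [mem_slitPlane_iff]
      by_contra h
      rw [not_or, not_lt, not_not] at h
      obtain ⟨t, ht, he⟩ : ∃ t : ℝ, 0 ≤ t ∧ (z - y) / (z - y') = -(t : ℂ) := by
        refine ⟨-((z - y) / (z - y')).re, by linarith [h.1], ?_⟩
        apply Complex.ext <;> simp [h.2]
      rw [div_eq_iff (hne z hz y' hy')] at he
      have h1 : ((1 + t : ℝ) : ℂ) * (z - y) = (t : ℂ) * (y' - y) := by
        push_cast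
        linear_combination he
      have h2 := congrArg norm h1
      rw [norm_mul, norm_mul, Complex.norm_real, Complex.norm_real,
        Real.norm_of_nonneg (by linarith), Real.norm_of_nonneg ht, ← dist_eq_norm, ← dist_eq_norm,
        dist_comm y' y] at h2
      have h3 : (1 + t) * ε ≤ (1 + t) * dist z y :=
        mul_le_mul_of_nonneg_left (dist_gt hz hy).le (by linarith)
      have h4 : t * dist y y' ≤ t * ε := mul_le_mul_of_nonneg_left hdist.le ht
      nlinarith
    refine ⟨fun z => L z + log ((z - y) / (z - y')), ?_, ?_, ?_⟩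
    · refine hLd.add fun z hz => ?_
      exact (((differentiableAt_id.sub_const y).div (differentiableAt_id.sub_const y')
        (hne z hz y' hy')).clog (hslit z hz)).differentiableWithinAt
    · intro z hz
      show exp (L z + log ((z - y) / (z - y'))) = (z - a) / (z - y')
      rw [exp_add, hLe z hz, exp_log (slitPlane_ne_zero (hslit z hz))]
      field_simp [hne z hz y hy, hne z hz y' hy']
    · have := hLt.add (((continuousAt_clog one_mem_slitPlane).tendsto).comp (tendsto_ratio y y'))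
      rw [log_one, add_zero] at this
      exact this
  have haP : P a := ⟨fun _ => 0, differentiableOn_const 0, fun z hz => by
    rw [exp_zero, div_self (hne z hz a ha)], tendsto_const_nhds⟩
  set O₁ := ⋃ y ∈ {y ∈ K | P y}, ball y ε with hO₁
  set O₂ := ⋃ y ∈ {y ∈ K | ¬ P y}, ball y ε with hO₂
  by_contra hbP
  obtain ⟨x, hxK, hx1, hx2⟩ := hKc O₁ O₂ (isOpen_biUnion fun _ _ => isOpen_ball)
    (isOpen_biUnion fun _ _ => isOpen_ball)
    (fun x hx => by
      by_cases h : P x
      · exact Or.inl (mem_biUnion (x := x) ⟨hx, h⟩ (mem_ball_self hε))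
      · exact Or.inr (mem_biUnion (x := x) ⟨hx, h⟩ (mem_ball_self hε)))
    ⟨a, ha, mem_biUnion (x := a) ⟨ha, haP⟩ (mem_ball_self hε)⟩
    ⟨b, hb, mem_biUnion (x := b) ⟨hb, hbP⟩ (mem_ball_self hε)⟩
  simp only [hO₁, hO₂, mem_iUnion, exists_prop] at hx1 hx2
  obtain ⟨y, ⟨hyK, hyP⟩, hxy⟩ := hx1
  obtain ⟨y', ⟨hyK', hyP'⟩, hxy'⟩ := hx2
  rw [mem_ball] at hxy hxy'
  exact hyP' (hstep x hxK (hstep y hyK hyP x hxK (by rwa [dist_comm])) y' hyK' hxy')

/-- A branch of the square root of `(z - a) / (z - b)` off `K`. -/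
lemma exists_sqrt (hK : IsCompact K) (hKc : IsPreconnected K) (hKcc : IsPreconnected Kᶜ)
    (ha : a ∈ K) (hb : b ∈ K) :
    ∃ G : ℂ → ℂ, DifferentiableOn ℂ G Kᶜ ∧ (∀ z ∉ K, G z ^ 2 = (z - a) / (z - b)) ∧
      Tendsto G (cocompact ℂ) (𝓝 1) := by
  have hne : K.Nonempty := ⟨a, ha⟩
  obtain ⟨R₀, hR₀⟩ := hK.isBounded.subset_closedBall 0
  set R := max R₀ 0 with hR
  have hKR : ∀ k ∈ K, ‖k‖ ≤ R := fun k hk =>
    (mem_closedBall_zero_iff.1 (hR₀ hk)).trans (le_max_left _ _)
  have hR0 : 0 ≤ R := le_max_right _ _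
  set e : ℕ → ℝ := fun n => 1 / ((n : ℝ) + 1) with he
  choose L hLd hLe hLt using fun n : ℕ =>
    exists_log_chain hKc ha hb (show 0 < e n by simp only [he]; positivity)
  set F := {z : ℂ | R + 1 < ‖z‖} with hF
  have hFfar : ∀ n, F ⊆ far K (e n) := by
    intro n z hz
    have h1 : ‖z‖ - R ≤ infDist z K := by
      refine (le_infDist hne).2 fun k hk => ?_
      rw [dist_eq_norm]
      linarith [hKR k hk, norm_sub_norm_le z k]
    have h2 : e n ≤ 1 := by
      simp only [he]
      rw [div_le_one (by positivity)]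
      linarith [n.cast_nonneg (α := ℝ)]
    have h3 : R + 1 < ‖z‖ := hz
    show e n < infDist z K
    linarith
  set q : ℂ := ((R + 2 : ℝ) : ℂ) with hq
  have hqF : q ∈ F := by
    show R + 1 < ‖q‖
    rw [hq, Complex.norm_of_nonneg (by linarith)]
    linarith
  set W : ℕ → Set ℂ := fun n => connectedComponentIn (far K (e n)) q with hW
  have hWo : ∀ n, IsOpen (W n) := fun n => (isOpen_far K _).connectedComponentIn
  have hWfar : ∀ n, W n ⊆ far K (e n) := fun n => connectedComponentIn_subset _ _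
  have hFW : ∀ n, F ⊆ W n := fun n =>
    (isPreconnected_ext (R + 1) (by linarith)).subset_connectedComponentIn hqF (hFfar n)
  have hmono : ∀ n m, n ≤ m → far K (e n) ⊆ far K (e m) := by
    intro n m hnm z hz
    have h2 : e m ≤ e n := by
      simp only [he]
      gcongr
    exact lt_of_le_of_lt h2 hz
  have hFev : ∀ᶠ z : ℂ in cocompact ℂ, z ∈ F :=
    tendsto_norm_cocompact_atTop.eventually (eventually_gt_atTop (R + 1))
  have hagree : ∀ n m, n ≤ m → ∀ z ∈ W n, L n z = L m z := by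
    intro n m hnm z hz
    have hexp : ∀ w ∈ W n, exp (L n w) = exp (L m w) := fun w hw => by
      rw [hLe n w (hWfar n hw), hLe m w (hmono n m hnm (hWfar n hw))]
    have hd : ∀ w ∈ W n, L n w - L n q = L m w - L m q := fun w hw =>
      log_diff_const isPreconnected_connectedComponentIn
        ((hLd n).continuousOn.mono (hWfar n))
        ((hLd m).continuousOn.mono ((hWfar n).trans (hmono n m hnm))) hexp (hFW n hqF) hw
    have h0 : L n q - L m q = 0 := by
      have h1 : Tendsto (fun w => L n w - L m w) (cocompact ℂ) (𝓝 0) := by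
        simpa using (hLt n).sub (hLt m)
      refine tendsto_nhds_unique (tendsto_const_nhds.congr' ?_) h1
      filter_upwards [hFev] with w hw
      linear_combination -(hd w (hFW n hw))
    linear_combination hd z hz + h0
  have hcov : ∀ z ∉ K, ∃ n, z ∈ W n := by
    intro z hz
    have hqK : q ∉ K := fun h => by
      have h1 := hKR q h
      have h2 : R + 1 < ‖q‖ := hqF
      linarith
    have hconn : IsPathConnected Kᶜ :=
      (hK.isClosed.isOpen_compl.isConnected_iff_isPathConnected).1 ⟨⟨q, hqK⟩, hKcc⟩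
    set γ := (hconn.joinedIn q hqK z hz).somePath with hγ
    have hγK : ∀ t, γ t ∉ K := fun t => (hconn.joinedIn q hqK z hz).somePath_mem t
    obtain ⟨y, hy, hmin⟩ := (isCompact_range γ.continuous).exists_isMinOn (range_nonempty γ)
      (continuous_infDist_pt K).continuousOn
    obtain ⟨t, rfl⟩ := hy
    have hpos : 0 < infDist (γ t) K := (hK.isClosed.notMem_iff_infDist_pos hne).1 (hγK t)
    obtain ⟨n, hn⟩ := exists_nat_one_div_lt hpos
    refine ⟨n, ?_⟩
    have hsub : range γ ⊆ far K (e n) := fun w hw => lt_of_lt_of_le hn (hmin hw)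
    exact (isPreconnected_range γ.continuous).subset_connectedComponentIn
      ⟨0, γ.source⟩ hsub ⟨1, γ.target⟩
  classical
  set Lg : ℂ → ℂ := fun z => if h : ∃ n, z ∈ W n then L (Nat.find h) z else 0 with hLg
  have hLg_eq : ∀ n, ∀ z ∈ W n, Lg z = L n z := by
    intro n z hz
    have h : ∃ n, z ∈ W n := ⟨n, hz⟩
    simp only [hLg, dif_pos h]
    exact hagree _ n (Nat.find_le hz) z (Nat.find_spec h)
  refine ⟨fun z => exp (Lg z / 2), ?_, ?_, ?_⟩
  · intro z hz
    obtain ⟨n, hn⟩ := hcov z hz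
    have hd : DifferentiableAt ℂ (fun w => exp (L n w / 2)) z :=
      (((hLd n).differentiableAt ((isOpen_far K _).mem_nhds (hWfar n hn))).div_const 2).cexp
    refine (hd.congr_of_eventuallyEq ?_).differentiableWithinAt
    filter_upwards [(hWo n).mem_nhds hn] with w hw
    rw [hLg_eq n w hw]
  · intro z hz
    obtain ⟨n, hn⟩ := hcov z hz
    show exp (Lg z / 2) ^ 2 = _
    rw [sq, ← exp_add, add_halves, hLg_eq n z hn, hLe n z (hWfar n hn)]
  · have h : Tendsto (fun w => exp (L 0 w / 2)) (cocompact ℂ) (𝓝 1) := by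
      have := (((hLt 0).div_const (2 : ℂ)).cexp)
      simpa using this
    refine h.congr' ?_
    filter_upwards [hFev] with w hw
    rw [hLg_eq 0 w (hFW 0 hw)]

/-- A function near infinity, seen near the origin. -/
def ext0 (g : ℂ → ℂ) (l : ℂ) (ζ : ℂ) : ℂ := if ζ = 0 then l else g ζ⁻¹

lemma differentiableOn_ext0 {g : ℂ → ℂ} {l : ℂ} {R : ℝ} (hR : 0 < R)
    (hKR : K ⊆ closedBall 0 R) (hKo : IsOpen Kᶜ) (hg : DifferentiableOn ℂ g Kᶜ)
    (hl : Tendsto g (cocompact ℂ) (𝓝 l)) : DifferentiableOn ℂ (ext0 g l) (ball 0 R⁻¹) := by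
  refine (Complex.differentiableOn_compl_singleton_and_continuousAt_iff
    (isOpen_ball.mem_nhds (mem_ball_self (inv_pos.2 hR)))).1 ⟨?_, ?_⟩
  · rintro ζ ⟨hζ, hζ0 : ζ ≠ 0⟩
    have hn : ζ⁻¹ ∉ K := fun h => by
      have h1 := mem_closedBall_zero_iff.1 (hKR h)
      rw [norm_inv] at h1
      exact absurd h1 (not_le.2 (lt_inv_of_lt_inv₀ (norm_pos_iff.2 hζ0)
        (mem_ball_zero_iff.1 hζ)))
    have hd : DifferentiableAt ℂ (fun w : ℂ => g w⁻¹) ζ :=
      (hg.differentiableAt (hKo.mem_nhds hn)).comp ζ (differentiableAt_inv hζ0)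
    refine (hd.congr_of_eventuallyEq ?_).differentiableWithinAt
    filter_upwards [isOpen_ne.mem_nhds hζ0] with w hw
    simp [ext0, show w ≠ 0 from hw]
  · rw [continuousAt_iff_punctured_nhds]
    have h1 : Tendsto (fun ζ : ℂ => ζ⁻¹) (𝓝[≠] 0) (cocompact ℂ) := by
      rw [← cobounded_eq_cocompact]
      exact tendsto_inv₀_nhdsNE_zero
    have h2 := hl.comp h1
    rw [show ext0 g l 0 = l from if_pos rfl]
    refine h2.congr' ?_
    filter_upwards [self_mem_nhdsWithin] with ζ hζ
    simp [ext0, Function.comp_apply, show ζ ≠ 0 from hζ]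

/-- The inverse of `B`. -/
def back (a b c u : ℂ) : ℂ := (b * (c - u) ^ 2 - a * u ^ 2) / (c * (c - 2 * u))

lemma back_den {c u : ℂ} (hc : c ≠ 0) (hu : u ≠ c / 2) : c * (c - 2 * u) ≠ 0 := by
  refine mul_ne_zero hc fun h => hu ?_
  linear_combination -h / 2

/-- The preimage of `K` under `back` is compact and connected. -/
lemma back_preimage (hK : IsCompact K) (hKc : IsPreconnected K) (ha : a ∈ K) (hab : a ≠ b)
    {c : ℂ} (hc : c ≠ 0) :
    IsCompact {u : ℂ | u ≠ c / 2 ∧ back a b c u ∈ K} ∧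
      IsPreconnected {u : ℂ | u ≠ c / 2 ∧ back a b c u ∈ K} := by
  set T := {u : ℂ | u ≠ c / 2 ∧ back a b c u ∈ K} with hT
  set D : Set ℂ := {c / 2}ᶜ with hD
  have hDo : IsOpen D := isOpen_compl_singleton
  have hba : b - a ≠ 0 := sub_ne_zero.2 (Ne.symm hab)
  obtain ⟨R, hR⟩ := hK.isBounded.subset_closedBall 0
  have hR0 : 0 ≤ R := (norm_nonneg a).trans (mem_closedBall_zero_iff.1 (hR ha))
  set S := ‖b‖ + R with hS
  set N := max 1 ((2 * ‖c‖ * S + S * ‖c‖ ^ 2) / ‖b - a‖) with hN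
  -- the relation `num u = k * den u`
  set Z := {p : ℂ × ℂ | b * (c - p.1) ^ 2 - a * p.1 ^ 2 = p.2 * (c * (c - 2 * p.1))} with hZ
  have hTeq : T = Prod.fst '' ((closedBall (0 : ℂ) N ×ˢ K) ∩ Z) := by
    ext u
    constructor
    · rintro ⟨hu, hk⟩
      have he : b * (c - u) ^ 2 - a * u ^ 2 = back a b c u * (c * (c - 2 * u)) := by
        rw [back, div_mul_cancel₀ _ (back_den hc hu)]
      refine ⟨(u, back a b c u), ⟨⟨?_, hk⟩, he⟩, rfl⟩
      rw [mem_closedBall_zero_iff]
      set k := back a b c u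
      have hkS : ‖b - k‖ ≤ S := (norm_sub_le _ _).trans (by
        have := mem_closedBall_zero_iff.1 (hR hk)
        linarith)
      rcases le_or_gt ‖u‖ 1 with h1 | h1
      · exact h1.trans (le_max_left _ _)
      refine le_trans ?_ (le_max_right _ _)
      rw [le_div_iff₀ (norm_pos_iff.2 hba)]
      have e : (b - a) * u ^ 2 = 2 * c * (b - k) * u + (k - b) * c ^ 2 := by
        linear_combination he
      have h2 := congrArg norm e
      rw [norm_mul, norm_pow] at h2
      have h3 : ‖2 * c * (b - k) * u + (k - b) * c ^ 2‖ ≤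
          2 * ‖c‖ * S * ‖u‖ + S * ‖c‖ ^ 2 := by
        refine (norm_add_le _ _).trans ?_
        simp only [norm_mul, norm_pow, Complex.norm_ofNat]
        rw [norm_sub_rev k b]
        gcongr
      have hS0 : 0 ≤ S := by rw [hS]; positivity
      have h4 : S * ‖c‖ ^ 2 ≤ S * ‖c‖ ^ 2 * ‖u‖ :=
        le_mul_of_one_le_right (by positivity) h1.le
      refine le_of_mul_le_mul_right ?_ (lt_trans one_pos h1)
      linarith
    · rintro ⟨⟨u', k⟩, ⟨⟨-, hk⟩, he⟩, rfl⟩
      have he' : b * (c - u') ^ 2 - a * u' ^ 2 = k * (c * (c - 2 * u')) := he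
      have hu : u' ≠ c / 2 := by
        intro h
        have h0 : (b - a) * c ^ 2 = 0 := by
          rw [h] at he'
          linear_combination 4 * he'
        exact mul_ne_zero hba (pow_ne_zero 2 hc) h0
      refine ⟨hu, ?_⟩
      show back a b c u' ∈ K
      rw [back, he', mul_div_cancel_right₀ _ (back_den hc hu)]
      exact hk
  have hTc : IsCompact T := by
    rw [hTeq]
    refine (((isCompact_closedBall 0 N).prod hK).inter_right ?_).image continuous_fst
    exact isClosed_eq (by fun_prop) (by fun_prop)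
  refine ⟨hTc, ?_⟩
  have hdiff : DifferentiableOn ℂ (back a b c) D := fun u hu => by
    have hne := back_den hc (show u ≠ c / 2 from hu)
    unfold back
    refine DifferentiableAt.differentiableWithinAt (DifferentiableAt.div ?_ ?_ hne) <;> fun_prop
  have hopen : ∀ s ⊆ D, IsOpen s → IsOpen (back a b c '' s) := by
    rcases (hdiff.analyticOnNhd hDo).is_constant_or_isOpen
      (isConnected_compl_singleton_of_one_lt_rank (by simp) _).isPreconnected with
      ⟨w, hw⟩ | h
    · exfalso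
      have e0 := hw 0 (fun h => hc (by
        have : (0 : ℂ) = c / 2 := h
        linear_combination -2 * this))
      have ec := hw c (fun h => hc (by
        have : c = c / 2 := h
        linear_combination 2 * this))
      have h1 : back a b c 0 = b := by
        rw [back, div_eq_iff (back_den hc fun h => hc (by linear_combination -2 * h))]
        ring
      have h2 : back a b c c = a := by
        rw [back, div_eq_iff (back_den hc fun h => hc (by linear_combination 2 * h))]
        ring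
      exact hab (h2.symm.trans (ec.trans (e0.symm.trans h1)))
    · exact h
  -- every clopen piece maps onto `K`
  have hpiece : ∀ O O' : Set ℂ, IsOpen O → IsOpen O' → T ⊆ O ∪ O' → T ∩ (O ∩ O') = ∅ →
      (T ∩ O).Nonempty → c ∈ O := by
    intro O O' hO hO' hsub hdisj hne
    have hTO : T ∩ O = T \ O' := by
      ext u
      constructor
      · rintro ⟨h1, h2⟩
        exact ⟨h1, fun h3 => eq_empty_iff_forall_notMem.1 hdisj u ⟨h1, h2, h3⟩⟩
      · rintro ⟨h1, h2⟩
        exact ⟨h1, (hsub h1).resolve_right h2⟩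
    have hcont : ContinuousOn (back a b c) (T ∩ O) :=
      hdiff.continuousOn.mono fun u hu => hu.1.1
    set A := back a b c '' (T ∩ O) with hA
    have hAc : IsClosed A :=
      (((hTO ▸ hTc.diff hO' : IsCompact (T ∩ O))).image_of_continuousOn hcont).isClosed
    set A' := back a b c '' (D ∩ O) with hA'
    have hA'o : IsOpen A' := hopen _ inter_subset_left (hDo.inter hO)
    have hKA : ∀ k ∈ K, k ∈ A' → k ∈ A := by
      rintro k hk ⟨u, ⟨huD, huO⟩, rfl⟩
      exact ⟨u, ⟨⟨huD, hk⟩, huO⟩, rfl⟩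
    have hAA : A ⊆ A' := image_mono fun u hu => ⟨hu.1.1, hu.2⟩
    obtain ⟨u₀, hu₀⟩ := hne
    have haA : a ∈ A := by
      by_contra haA
      obtain ⟨x, hx, hx1, hx2⟩ := hKc A' Aᶜ hA'o hAc.isOpen_compl
        (fun k _ => (em (k ∈ A)).imp (fun h => hAA h) id)
        ⟨_, hu₀.1.2, hAA (mem_image_of_mem _ hu₀)⟩ ⟨a, ha, haA⟩
      exact hx2 (hKA x hx hx1)
    obtain ⟨u, ⟨hu, huO⟩, hua⟩ := haA
    have huc : u = c := by
      rw [back, div_eq_iff (back_den hc hu.1)] at hua
      have : (b - a) * (c - u) ^ 2 = 0 := by linear_combination hua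
      have h2 := (pow_eq_zero_iff two_ne_zero).1 ((mul_eq_zero.1 this).resolve_left hba)
      linear_combination -h2
    exact huc ▸ huO
  intro O₁ O₂ hO₁ hO₂ hsub h1 h2
  by_contra hne
  have hdisj : T ∩ (O₁ ∩ O₂) = ∅ := not_nonempty_iff_eq_empty.1 hne
  have hc1 := hpiece O₁ O₂ hO₁ hO₂ hsub hdisj h1
  have hc2 := hpiece O₂ O₁ hO₂ hO₁ (by rwa [union_comm]) (by rwa [inter_comm O₂]) h2
  have hcT : c ∈ T := by
    refine ⟨fun h => hc (by linear_combination 2 * h), ?_⟩
    have h3 : back a b c c = a := by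
      rw [back, div_eq_iff (back_den hc fun h => hc (by linear_combination 2 * h))]
      ring
    rw [h3]
    exact ha
  exact eq_empty_iff_forall_notMem.1 hdisj c ⟨hcT, hc1, hc2⟩

/-- Off `K` the two values `c / (1 ± G)` exhaust the fibres of `back`. -/
lemma back_cover {G : ℂ → ℂ} {c u : ℂ} (hb : b ∈ K) (hab : a ≠ b) (hc : c ≠ 0)
    (hG : ∀ z ∉ K, G z ^ 2 = (z - a) / (z - b)) (hu : u ≠ c / 2) (hk : back a b c u ∉ K) :
    u = c / (1 + G (back a b c u)) ∨ u = c / (1 - G (back a b c u)) := by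
  set z := back a b c u with hz
  have hu0 : u ≠ 0 := by
    rintro rfl
    refine hk ?_
    have : z = b := by
      rw [hz, back, div_eq_iff (back_den hc hu)]
      ring
    rw [this]
    exact hb
  have hden := back_den hc hu
  have hzb : z - b ≠ 0 := fun h => hk (by rw [sub_eq_zero.1 h]; exact hb)
  have e : z * (c * (c - 2 * u)) = b * (c - u) ^ 2 - a * u ^ 2 := by
    rw [hz, back, div_mul_cancel₀ _ hden]
  have hm : (z - a) / (z - b) = ((c - u) / u) ^ 2 := by
    rw [div_pow, div_eq_div_iff hzb (pow_ne_zero 2 hu0)]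
    have h1 : (z - a) * (c * (c - 2 * u)) = (b - a) * (c - u) ^ 2 := by linear_combination e
    have h2 : (z - b) * (c * (c - 2 * u)) = (b - a) * u ^ 2 := by linear_combination e
    refine mul_right_cancel₀ hden ?_
    linear_combination u ^ 2 * h1 - (c - u) ^ 2 * h2
  have h3 := (hG z hk).trans hm
  rcases sq_eq_sq_iff_eq_or_eq_neg.1 h3 with h | h
  · refine Or.inl ?_
    rw [h, one_add_div hu0, add_sub_cancel, div_div_cancel₀ hc]
  · refine Or.inr ?_
    rw [h, sub_neg_eq_add, one_add_div hu0, add_sub_cancel, div_div_cancel₀ hc]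

/-- The plane part of the exterior of `K`, mapped into the disc with unbounded connected
complement. -/
lemma exists_disc_map (hK : IsCompact K) (hKc : IsPreconnected K) (hKcc : IsPreconnected Kᶜ)
    (ha : a ∈ K) (hb : b ∈ K) (hab : a ≠ b) :
    ∃ (B : ℂ → ℂ) (w₀ : ℂ) (R : ℝ), 0 < R ∧ K ⊆ closedBall 0 R ∧ DifferentiableOn ℂ B Kᶜ ∧
      InjOn B Kᶜ ∧ (∀ z ∉ K, B z ≠ w₀) ∧ Tendsto B (cocompact ℂ) (𝓝 w₀) ∧
      IsOpen (insert w₀ (B '' Kᶜ)) ∧ IsPreconnected (insert w₀ (B '' Kᶜ)) ∧
      insert w₀ (B '' Kᶜ) ⊆ ball 0 1 ∧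
      ∀ x ∉ insert w₀ (B '' Kᶜ), ∃ S, IsPreconnected S ∧ x ∈ S ∧
        S ⊆ (insert w₀ (B '' Kᶜ))ᶜ ∧ ¬ Bornology.IsBounded S := by
  obtain ⟨G, hGd, hG, hGt⟩ := exists_sqrt hK hKc hKcc ha hb
  obtain ⟨R₀, hR₀⟩ := hK.isBounded.subset_closedBall 0
  set R := max R₀ 1 with hRdef
  have hR : 0 < R := lt_of_lt_of_le one_pos (le_max_right _ _)
  have hKR : K ⊆ closedBall 0 R := hR₀.trans (closedBall_subset_closedBall (le_max_left _ _))
  have hKo : IsOpen Kᶜ := hK.isClosed.isOpen_compl
  have hzb : ∀ z ∉ K, z - b ≠ 0 := fun z hz h => hz (by rw [sub_eq_zero.1 h]; exact hb)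
  have hm1 : ∀ z ∉ K, (z - a) / (z - b) ≠ 1 := by
    intro z hz h
    rw [div_eq_one_iff_eq (hzb z hz)] at h
    exact hab (sub_right_inj.1 h)
  have hG1 : ∀ z ∉ K, 1 + G z ≠ 0 ∧ 1 - G z ≠ 0 := by
    intro z hz
    constructor <;> intro h <;> refine hm1 z hz ?_ <;> rw [← hG z hz]
    · linear_combination (G z - 1) * h
    · linear_combination (-1 - G z) * h
  have hG0 : ∀ z ∉ K, G z ≠ 0 := by
    intro z hz h
    have := hG z hz
    rw [h, zero_pow two_ne_zero, eq_comm, div_eq_zero_iff] at this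
    rcases this with h1 | h1
    · exact hz (by rw [sub_eq_zero.1 h1]; exact ha)
    · exact hzb z hz h1
  have hGm : ∀ z ∉ K, ∀ z' ∉ K, G z ^ 2 = G z' ^ 2 → z = z' := by
    intro z hz z' hz' h
    rw [hG z hz, hG z' hz', div_eq_div_iff (hzb z hz) (hzb z' hz')] at h
    have : (a - b) * (z - z') = 0 := by linear_combination h
    exact sub_eq_zero.1 ((mul_eq_zero.1 this).resolve_left (sub_ne_zero.2 hab))
  -- a lower bound for `1 + G`
  obtain ⟨δ, hδ, hδG⟩ : ∃ δ : ℝ, 0 < δ ∧ ∀ z ∉ K, δ ≤ ‖1 + G z‖ := by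
    have h1 := (Metric.tendsto_nhds.1 hGt 1 one_pos)
    rw [← cobounded_eq_cocompact, ← comap_norm_atTop] at h1
    obtain ⟨N₀, hN⟩ := eventually_atTop.1 (eventually_comap.1 h1)
    set N := max N₀ 0 with hNdef
    set δ₀ := ‖b - a‖ / (N + ‖b‖ + 1) with hδ₀
    have hba : 0 < ‖b - a‖ := norm_pos_iff.2 (sub_ne_zero.2 (Ne.symm hab))
    have hN0 : 0 ≤ N := le_max_right _ _
    have hden : 0 < N + ‖b‖ + 1 := by positivity
    have hδ₀0 : 0 < δ₀ := div_pos hba hden
    refine ⟨min 1 (δ₀ / 3), lt_min one_pos (by linarith), fun z hz => ?_⟩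
    rcases le_or_gt N ‖z‖ with h | h
    · have h2 := hN ‖z‖ ((le_max_left _ _).trans h) z rfl
      rw [dist_eq_norm] at h2
      refine (min_le_left _ _).trans ?_
      have h3 := norm_sub_norm_le (2 : ℂ) (1 - G z)
      rw [show (2 : ℂ) - (1 - G z) = 1 + G z by ring, Complex.norm_ofNat, norm_sub_rev] at h3
      linarith
    · rcases le_or_gt 1 ‖1 + G z‖ with h4 | h4
      · exact (min_le_left _ _).trans h4
      refine (min_le_right _ _).trans ?_
      have h5 : ‖(1 + G z) * (G z - 1)‖ = ‖b - a‖ / ‖z - b‖ := by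
        rw [show (1 + G z) * (G z - 1) = G z ^ 2 - 1 by ring, hG z hz,
          div_sub_one (hzb z hz), norm_div, show z - a - (z - b) = b - a by ring]
      have h6 : δ₀ ≤ ‖b - a‖ / ‖z - b‖ := by
        refine div_le_div_of_nonneg_left hba.le (norm_pos_iff.2 (hzb z hz)) ?_
        linarith [norm_sub_le z b]
      have h7 : ‖G z - 1‖ ≤ 3 := by
        have := norm_sub_le (1 + G z) (2 : ℂ)
        rw [show 1 + G z - 2 = G z - 1 by ring, Complex.norm_ofNat] at this
        linarith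
      rw [norm_mul] at h5
      have h8 := mul_le_mul_of_nonneg_left h7 (norm_nonneg (1 + G z))
      linarith
  set c : ℂ := ((min δ 1 / 2 : ℝ) : ℂ) with hcdef
  have hcpos : 0 < min δ 1 / 2 := by positivity
  have hcn : ‖c‖ = min δ 1 / 2 := by rw [hcdef, Complex.norm_of_nonneg hcpos.le]
  have hc : c ≠ 0 := norm_pos_iff.1 (by rw [hcn]; exact hcpos)
  set B : ℂ → ℂ := fun z => c / (1 + G z) with hB
  set B' : ℂ → ℂ := fun z => c / (1 - G z) with hB'
  set w₀ := c / 2 with hw₀
  have hBd : DifferentiableOn ℂ B Kᶜ := fun z hz =>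
    (((hGd z hz).const_add 1).fun_inv (hG1 z hz).1).const_mul c |>.congr
      (fun w _ => div_eq_mul_inv _ _) (div_eq_mul_inv _ _)
  have hB'd : DifferentiableOn ℂ B' Kᶜ := fun z hz =>
    (((hGd z hz).const_sub 1).fun_inv (hG1 z hz).2).const_mul c |>.congr
      (fun w _ => div_eq_mul_inv _ _) (div_eq_mul_inv _ _)
  have hBinj : InjOn B Kᶜ := by
    intro z hz z' hz' h
    simp only [hB, div_eq_div_iff (hG1 z hz).1 (hG1 z' hz').1] at h
    have h' : G z = G z' := by linear_combination -(mul_left_cancel₀ hc h)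
    exact hGm z hz z' hz' (by rw [h'])
  have hB'inj : InjOn B' Kᶜ := by
    intro z hz z' hz' h
    simp only [hB', div_eq_div_iff (hG1 z hz).2 (hG1 z' hz').2] at h
    have h' : G z = G z' := by linear_combination mul_left_cancel₀ hc h
    exact hGm z hz z' hz' (by rw [h'])
  have hBne : ∀ z ∉ K, B z ≠ w₀ := by
    intro z hz h
    simp only [hB, hw₀, div_eq_div_iff (hG1 z hz).1 two_ne_zero] at h
    exact (hG1 z hz).2 (by linear_combination mul_left_cancel₀ hc h)
  have hB'ne : ∀ z ∉ K, B' z ≠ w₀ := by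
    intro z hz h
    simp only [hB', hw₀, div_eq_div_iff (hG1 z hz).2 two_ne_zero] at h
    exact (hG1 z hz).1 (by linear_combination mul_left_cancel₀ hc h)
  have hBB' : ∀ z ∉ K, ∀ z' ∉ K, B z ≠ B' z' := by
    intro z hz z' hz' h
    simp only [hB, hB', div_eq_div_iff (hG1 z hz).1 (hG1 z' hz').2] at h
    have h' : G z = -G z' := by linear_combination -(mul_left_cancel₀ hc h)
    have h'' := hGm z hz z' hz' (by rw [h', neg_sq])
    rw [← h''] at h'
    exact hG0 z hz (by linear_combination h' / 2)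
  have hBt : Tendsto B (cocompact ℂ) (𝓝 w₀) := by
    have h := (tendsto_const_nhds (x := c)).div ((tendsto_const_nhds (x := (1 : ℂ))).add hGt)
      (by norm_num)
    rw [show (1 : ℂ) + 1 = 2 by norm_num] at h
    exact h
  have hev : ∀ᶠ z : ℂ in cocompact ℂ, z ∈ Kᶜ := hK.compl_mem_cocompact
  -- `U` is open and connected
  set U := insert w₀ (B '' Kᶜ) with hU
  set T := {u : ℂ | u ≠ c / 2 ∧ back a b c u ∈ K} with hT
  have hBo : IsOpen (B '' Kᶜ) := isOpen_image' hKo hBd hBinj
  have hB'o : IsOpen (B' '' Kᶜ) := isOpen_image' hKo hB'd hB'inj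
  have hmem : ∀ ζ ∈ ball (0 : ℂ) R⁻¹, ζ ≠ 0 → ζ⁻¹ ∉ K := fun ζ hζ hζ0 h => by
    have h1 := mem_closedBall_zero_iff.1 (hKR h)
    rw [norm_inv] at h1
    exact absurd h1 (not_le.2 (lt_inv_of_lt_inv₀ (norm_pos_iff.2 hζ0) (mem_ball_zero_iff.1 hζ)))
  have hXi : InjOn (ext0 B w₀) (ball 0 R⁻¹) := by
    intro x hx y hy h
    by_cases hx0 : x = 0 <;> by_cases hy0 : y = 0
    · rw [hx0, hy0]
    · simp only [ext0, if_pos hx0, if_neg hy0] at h
      exact absurd h.symm (hBne _ (hmem y hy hy0))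
    · simp only [ext0, if_neg hx0, if_pos hy0] at h
      exact absurd h (hBne _ (hmem x hx hx0))
    · simp only [ext0, if_neg hx0, if_neg hy0] at h
      exact inv_injective (hBinj (hmem x hx hx0) (hmem y hy hy0) h)
  have hUo : IsOpen U := by
    have hXo := isOpen_image' isOpen_ball (differentiableOn_ext0 hR hKR hKo hBd hBt) hXi
    have e : U = B '' Kᶜ ∪ ext0 B w₀ '' ball 0 R⁻¹ := by
      refine Subset.antisymm ?_ (union_subset (subset_insert _ _) ?_)
      · rintro w (rfl | hw)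
        · exact Or.inr ⟨0, mem_ball_self (inv_pos.2 hR), by simp [ext0]⟩
        · exact Or.inl hw
      · rintro _ ⟨ζ, hζ, rfl⟩
        by_cases h0 : ζ = 0
        · exact Or.inl (by simp [ext0, h0])
        · exact Or.inr ⟨ζ⁻¹, hmem ζ hζ h0, by simp [ext0, h0]⟩
    rw [e]
    exact hBo.union hXo
  have hUc : IsPreconnected U := by
    refine (hKcc.image _ hBd.continuousOn).subset_closure (subset_insert _ _)
      (insert_subset ?_ subset_closure)
    exact mem_closure_of_tendsto hBt (hev.mono fun z hz => mem_image_of_mem B hz)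
  have hUb : U ⊆ ball 0 1 := by
    refine insert_subset ?_ ?_
    · rw [mem_ball_zero_iff, hw₀, norm_div, hcn, Complex.norm_ofNat]
      linarith [min_le_right δ 1]
    · rintro _ ⟨z, hz, rfl⟩
      rw [mem_ball_zero_iff, hB, norm_div, hcn]
      have h1 := hδG z hz
      rw [div_lt_one (lt_of_lt_of_le hδ h1)]
      linarith [min_le_left δ 1]
  -- the complement
  have hdecomp : ∀ u ∉ U, u ∈ T ∨ u ∈ B' '' Kᶜ := by
    intro u hu
    simp only [hU, mem_insert_iff, not_or] at hu
    by_cases hk : back a b c u ∈ K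
    · exact Or.inl ⟨hu.1, hk⟩
    · rcases back_cover hb hab hc hG hu.1 hk with h | h
      · exact absurd ⟨_, hk, h.symm⟩ hu.2
      · exact Or.inr ⟨_, hk, h.symm⟩
  have hBT : ∀ z ∉ K, back a b c (B z) = z ∧ back a b c (B' z) = z := by
    intro z hz
    have e := hG z hz
    rw [eq_div_iff (hzb z hz)] at e
    refine ⟨?_, ?_⟩
    · have hne := back_den hc (show B z ≠ c / 2 from hBne z hz)
      rw [back, div_eq_iff hne]
      have := (hG1 z hz).1
      simp only [hB]
      field_simp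
      linear_combination -e
    · have hne := back_den hc (show B' z ≠ c / 2 from hB'ne z hz)
      rw [back, div_eq_iff hne]
      have := (hG1 z hz).2
      simp only [hB']
      field_simp
      linear_combination -e
  have hTU : T ⊆ Uᶜ := by
    rintro u ⟨hu, hk⟩ (h | ⟨z, hz, h⟩)
    · exact hu h
    · rw [← h, (hBT z hz).1] at hk
      exact hz hk
  have hB'U : B' '' Kᶜ ⊆ Uᶜ := by
    rintro _ ⟨z, hz, rfl⟩ (h | ⟨z', hz', h⟩)
    · exact hB'ne z hz h
    · exact hBB' z' hz' z hz h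
  have hB'c : IsPreconnected (B' '' Kᶜ) := hKcc.image _ hB'd.continuousOn
  -- the closure of the second sheet meets `T`
  obtain ⟨x₁, hx₁c, hx₁T⟩ : (closure (B' '' Kᶜ) ∩ T).Nonempty := by
    by_contra hne
    have hD : IsPreconnected ({c / 2}ᶜ : Set ℂ) :=
      (isConnected_compl_singleton_of_one_lt_rank (by simp) _).isPreconnected
    obtain ⟨z₁, hz₁⟩ : (Kᶜ).Nonempty := nonempty_of_mem hev
    have hsub := hD.subset_of_closure_inter_subset hB'o
      ⟨B' z₁, hB'ne z₁ hz₁, mem_image_of_mem _ hz₁⟩ (by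
        rintro u ⟨hcl, hu⟩
        have huU : u ∉ U := by
          rintro (h | h)
          · exact hu h
          · obtain ⟨v, hv1, hv2⟩ := mem_closure_iff_nhds.1 hcl _ (hBo.mem_nhds h)
            exact hB'U hv2 (Or.inr hv1)
        rcases hdecomp u huU with h | h
        · exact absurd ⟨u, hcl, h⟩ hne
        · exact h)
    exact hB'U (hsub (hBne z₁ hz₁)) (Or.inr (mem_image_of_mem _ hz₁))
  have hS : IsPreconnected (T ∪ (insert x₁ (B' '' Kᶜ))) :=
    (back_preimage hK hKc ha hab hc).2.union x₁ hx₁T (mem_insert _ _)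
      (hB'c.subset_closure (subset_insert _ _) (insert_subset hx₁c subset_closure))
  refine ⟨B, w₀, R, hR, hKR, hBd, hBinj, hBne, hBt, hUo, hUc, hUb, fun x hx => ?_⟩
  refine ⟨T ∪ insert x₁ (B' '' Kᶜ), hS, (hdecomp x hx).imp id Or.inr,
    union_subset hTU (insert_subset (hTU hx₁T) hB'U), fun hbd => ?_⟩
  obtain ⟨M, hM⟩ := hbd.subset_closedBall 0
  set M' := max M 1 with hM'
  have hM'0 : 0 < M' := lt_of_lt_of_le one_pos (le_max_right _ _)
  have hev' : ∀ᶠ z : ℂ in cocompact ℂ, dist (G z) 1 < ‖c‖ / M' :=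
    Metric.tendsto_nhds.1 hGt _ (div_pos (norm_pos_iff.2 hc) hM'0)
  obtain ⟨z, hz, hzd⟩ := (hev.and hev').exists
  have h1 := mem_closedBall_zero_iff.1 (hM (Or.inr (Or.inr (mem_image_of_mem B' hz))))
  rw [dist_eq_norm, norm_sub_rev, lt_div_iff₀ hM'0] at hzd
  simp only [hB', norm_div] at h1
  rw [div_le_iff₀ (norm_pos_iff.2 (hG1 z hz).2)] at h1
  have h2 := mul_le_mul_of_nonneg_right (le_max_left M 1) (norm_nonneg (1 - G z))
  linarith

end Round

open Round in
theorem round : RoundStmt := by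
  intro K hK hKconn hKnt hKcc
  obtain ⟨a, ha, b, hb, hab⟩ := hKnt
  obtain ⟨B, w₀, R, hR, hKR, hBd, hBi, hBne, hBt, hUo, hUc, hUb, hS⟩ :=
    exists_disc_map hK hKconn.isPreconnected hKcc ha hb hab
  set U := insert w₀ (B '' Kᶜ) with hU
  have hw₀ : w₀ ∈ U := mem_insert _ _
  obtain ⟨ψ, p, hψd, hpd, hψm, hpm, hpψ, hψp⟩ := exists_riemann_map hUo hUc hUb hw₀ hS
  set e := ψ w₀ with he
  have he1 : ‖e‖ < 1 := mem_ball_zero_iff.1 (hψm hw₀)
  have hKo : IsOpen Kᶜ := hK.isClosed.isOpen_compl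
  set φ : ℂ → ℂ := fun u => mob e (ψ u) with hφ
  have hφd : DifferentiableOn ℂ φ U := differentiableOn_mob_comp he1 hψd hψm
  have hφ0 : φ w₀ = 0 := mob_self e
  have hφm : MapsTo φ U (ball 0 1) := (mob_mapsTo he1).comp hψm
  have hφi : InjOn φ U := by
    intro u hu v hv h
    have h1 : ψ u = ψ v := by
      have := congrArg (mob (-e)) h
      rwa [mob_neg_mob he1 (mem_ball_zero_iff.1 (hψm hu)).le,
        mob_neg_mob he1 (mem_ball_zero_iff.1 (hψm hv)).le] at this
    rw [← hpψ u hu, ← hpψ v hv, h1]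
  have hBU : MapsTo B Kᶜ U := fun z hz => mem_insert_of_mem _ (mem_image_of_mem B hz)
  have hφB : ∀ z ∉ K, φ (B z) ≠ 0 := fun z hz h =>
    hBne z hz (hφi (hBU hz) hw₀ (h.trans hφ0.symm))
  -- the map near infinity
  have hmemζ : ∀ ζ ∈ ball (0 : ℂ) R⁻¹, ζ ≠ 0 → ζ⁻¹ ∉ K := fun ζ hζ hζ0 h => by
    have h1 := mem_closedBall_zero_iff.1 (hKR h)
    rw [norm_inv] at h1
    exact absurd h1 (not_le.2 (lt_inv_of_lt_inv₀ (norm_pos_iff.2 hζ0) (mem_ball_zero_iff.1 hζ)))
  set F : ℂ → ℂ := fun ζ => φ (ext0 B w₀ ζ) with hF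
  have hXU : MapsTo (ext0 B w₀) (ball 0 R⁻¹) U := by
    intro ζ hζ
    by_cases h0 : ζ = 0
    · simp [ext0, h0, hw₀]
    · simp only [ext0, if_neg h0]
      exact hBU (hmemζ ζ hζ h0)
  have hFd : DifferentiableOn ℂ F (ball 0 R⁻¹) :=
    hφd.comp (differentiableOn_ext0 hR hKR hKo hBd hBt) hXU
  have hF0 : F 0 = 0 := by simp [hF, ext0, hφ0]
  have hFi : InjOn F (ball 0 R⁻¹) := by
    intro x hx y hy h
    have h1 := hφi (hXU hx) (hXU hy) h
    by_cases hx0 : x = 0 <;> by_cases hy0 : y = 0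
    · rw [hx0, hy0]
    · simp only [ext0, if_pos hx0, if_neg hy0] at h1
      exact absurd h1.symm (hBne _ (hmemζ y hy hy0))
    · simp only [ext0, if_neg hx0, if_pos hy0] at h1
      exact absurd h1 (hBne _ (hmemζ x hx hx0))
    · simp only [ext0, if_neg hx0, if_neg hy0] at h1
      exact inv_injective (hBi (hmemζ x hx hx0) (hmemζ y hy hy0) h1)
  have h0b : (0 : ℂ) ∈ ball (0 : ℂ) R⁻¹ := mem_ball_self (inv_pos.2 hR)
  set d := deriv F 0 with hd
  have hd0 : d ≠ 0 := P142.Area.deriv_ne_zero_of_injOn isOpen_ball hFd hFi h0b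
  set q := dslope F 0 with hq
  have hqd : DifferentiableOn ℂ q (ball 0 R⁻¹) :=
    (Complex.differentiableOn_dslope (isOpen_ball.mem_nhds h0b)).2 hFd
  have hq0 : q 0 = d := dslope_same _ _
  set Lc := -deriv q 0 / d ^ 2 with hLc
  set k : ℂ → ℂ := fun z => (φ (B z))⁻¹ with hk
  -- `k z - z / d → Lc`
  have hlim : Tendsto (fun z => k z - z / d) (cocompact ℂ) (𝓝 Lc) := by
    have hsl : Tendsto (slope q 0) (𝓝[≠] 0) (𝓝 (deriv q 0)) := hasDerivAt_iff_tendsto_slope.1
      (hqd.differentiableAt (isOpen_ball.mem_nhds h0b)).hasDerivAt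
    have hqt : Tendsto q (𝓝[≠] 0) (𝓝 d) := hq0 ▸
      ((hqd.differentiableAt (isOpen_ball.mem_nhds h0b)).continuousAt.tendsto.mono_left
        nhdsWithin_le_nhds)
    have h1 : Tendsto (fun ζ => -slope q 0 ζ / (q ζ * d)) (𝓝[≠] 0) (𝓝 Lc) := by
      rw [hLc, sq]
      exact hsl.neg.div (hqt.mul_const d) (mul_ne_zero hd0 hd0)
    have hinv : Tendsto (fun z : ℂ => z⁻¹) (cocompact ℂ) (𝓝[≠] 0) := by
      rw [← cobounded_eq_cocompact]
      refine tendsto_nhdsWithin_iff.2 ⟨tendsto_inv₀_cobounded, ?_⟩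
      exact Filter.mem_of_superset
        (Bornology.IsBounded.compl (Bornology.isBounded_singleton (x := (0 : ℂ))))
        fun z hz => inv_ne_zero hz
    have hev : ∀ᶠ z : ℂ in cocompact ℂ, R < ‖z‖ :=
      tendsto_norm_cocompact_atTop.eventually (eventually_gt_atTop R)
    refine (h1.comp hinv).congr' ?_
    filter_upwards [hev] with z hz
    have hz0 : z ≠ 0 := norm_pos_iff.1 (hR.trans hz)
    have hζ : z⁻¹ ∈ ball (0 : ℂ) R⁻¹ := by
      rw [mem_ball_zero_iff, norm_inv]
      exact (inv_lt_inv₀ (norm_pos_iff.2 hz0) hR).2 hz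
    have hFz : F z⁻¹ = φ (B z) := by simp [hF, ext0, hz0]
    have hne : φ (B z) ≠ 0 := hφB z fun h => by
      have := mem_closedBall_zero_iff.1 (hKR h)
      linarith
    have hqz : q z⁻¹ = φ (B z) * z := by
      rw [hq, dslope_of_ne _ (inv_ne_zero hz0), slope_def_field, hFz, hF0, sub_zero, sub_zero,
        div_inv_eq_mul]
    simp only [Function.comp_apply, slope_def_field, sub_zero, hq0, hqz, hk, div_inv_eq_mul]
    field_simp
    ring
  set h : ℂ → ℂ := fun z => d * (k z - Lc) with hh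
  refine ⟨h, -(d * Lc), ‖d‖, norm_pos_iff.2 hd0, ⟨⟨hKo, hKcc, by rwa [compl_compl]⟩, ?_, ?_, ?_⟩, ?_⟩
  · refine DifferentiableOn.const_mul (DifferentiableOn.sub_const ?_ Lc) d
    exact (hφd.comp hBd hBU).fun_inv fun z hz => hφB z hz
  · intro z hz z' hz' he
    have h1 : k z = k z' := sub_left_inj.1 (mul_left_cancel₀ hd0 he)
    exact hBi hz hz' (hφi (hBU hz) (hBU hz') (inv_injective h1))
  · have h1 := ((hlim.sub_const Lc).const_mul d)
    rw [sub_self, mul_zero] at h1
    refine h1.congr fun z => ?_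
    simp only [hh]
    field_simp
    ring
  · ext w
    simp only [mem_image, mem_compl_iff, mem_closedBall, not_le, dist_eq_norm, sub_neg_eq_add]
    constructor
    · rintro ⟨z, hz, rfl⟩
      rw [show h z + d * Lc = d * k z by simp only [hh]; ring, norm_mul, hk, norm_inv]
      have h1 : ‖φ (B z)‖ < 1 := mem_ball_zero_iff.1 (hφm (hBU hz))
      exact lt_mul_of_one_lt_right (norm_pos_iff.2 hd0)
        ((one_lt_inv₀ (norm_pos_iff.2 (hφB z hz))).2 h1)
    · intro hw
      set v := d / (w + d * Lc) with hv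
      have hwne : w + d * Lc ≠ 0 := norm_pos_iff.1 ((norm_nonneg d).trans_lt hw)
      have hv1 : ‖v‖ < 1 := by
        rw [hv, norm_div, div_lt_one (norm_pos_iff.2 hwne)]
        exact hw
      have hv0 : v ≠ 0 := div_ne_zero hd0 hwne
      have he' : ‖-e‖ < 1 := by rwa [norm_neg]
      have hvb : mob (-e) v ∈ ball (0 : ℂ) 1 := mem_ball_zero_iff.2 (norm_mob_lt he' hv1)
      set u := p (mob (-e) v) with hu
      have hφu : φ u = v := by
        show mob e (ψ u) = v
        rw [hu, hψp _ hvb, mob_mob_neg he1 hv1.le]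
      rcases (hpm hvb : u ∈ U) with hcase | ⟨z, hz, hzu⟩
      · refine absurd ?_ hv0
        rw [← hφu, show u = w₀ from hcase, hφ0]
      · refine ⟨z, hz, ?_⟩
        simp only [hh, hk]
        rw [hzu, hφu, hv, inv_div]
        field_simp
        ring

end Vale.Agent.P116.Pack
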