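import Vale.Agent.P116.Sphere

/-!
P116: Koebe's conjecture for domains with packed complementary components.

Plan. Let `U ⊆ ℂ` be a domain with compact complement `K`, and let the components of `K` that are not
`Good` have finite Cantor–Bendixson rank (for example, be finitely many); `Good`: at each point `q` of the component, along some radii `r → 0`, the other
components meeting `r ≤ |z - q| ≤ 2 r` have `∑ min (diam, r) ^ 2 = O (r ^ 2)`.

* The nondegenerate components are countable. `Uₙ`, the complement of the first `n` of them,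
  contains `U`, and by `FiniteKoebeStmt` has a normalised map `fₙ` onto a circle domain.
* `LineStmt`: lines that miss one disc and start in the image of a short segment run to infinity,
  so test functions of small energy (`TestStmt`) give equicontinuity at good components, uniformly
  in `n`.
* `LimitStmt`: the limit maps good components to discs or points and the other ones to continua.
  Seen from the image all components are good (`DiscGoodStmt`), so a second step gives a circle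
  domain.

`FiniteKoebeStmt` is Koebe's iteration: the comparison of two late stages extends by iterated
reflection to the complement of the level `m` holes, and `CutBoundStmt` bounds its distance from
the identity by the area of the level `m` annuli. These are disjoint over the levels, so some
level has small area.
-/

noncomputable section

namespace Vale.Agent.P116.Pack

open Set Filter Metric MeasureTheory Function
open scoped Topology ComplexConjugate BigOperators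

/-- A plane domain with compact complement. -/
structure Dom (U : Set ℂ) : Prop where
  isOpen : IsOpen U
  isPreconnected : IsPreconnected U
  compact_compl : IsCompact Uᶜ

/-- A univalent map of such a domain, normalised by `f z - z → 0` at infinity. -/
structure IsExt (U : Set ℂ) (f : ℂ → ℂ) : Prop where
  dom : Dom U
  diff : DifferentiableOn ℂ f U
  injOn : InjOn f U
  norm_inf : Tendsto (fun z => f z - z) (cocompact ℂ) (𝓝 0)

/-- The boundary cluster values of `f` on `U` at a set `E`. -/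
def bclus (U : Set ℂ) (f : ℂ → ℂ) (E : Set ℂ) : Set ℂ :=
  {w | ∃ p ∈ E, MapClusterPt w (𝓝[U] p) f}

/-- The part of the complement of the image that belongs to `E`: the complementary components of
`f '' U` that meet its cluster values at `E` (boundary values, filled in). -/
def clus (U : Set ℂ) (f : ℂ → ℂ) (E : Set ℂ) : Set ℂ :=
  {w | w ∉ f '' U ∧ (connectedComponentIn (f '' U)ᶜ w ∩ bclus U f E).Nonempty}

/-- The components of a set. -/
def comps (K : Set ℂ) : Set (Set ℂ) := (fun p => connectedComponentIn K p) '' K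

/-- The closed annulus `r ≤ |z - q| ≤ 2 r`. -/
def ring2 (q : ℂ) (r : ℝ) : Set ℂ := {z | r ≤ dist z q ∧ dist z q ≤ 2 * r}

/-- At each point of `E`, along some radii tending to `0`, the other components of `K` meeting the
annulus of radius `r` have `∑ min (diam, r) ^ 2 = O (r ^ 2)`. -/
def Good (K E : Set ℂ) : Prop :=
  ∀ q ∈ E, ∃ C : ℝ, ∀ r₀ : ℝ, 0 < r₀ → ∃ r : ℝ, 0 < r ∧ r < r₀ ∧
    ∀ F : Finset (Set ℂ), (∀ E' ∈ F, E' ∈ comps K ∧ E' ≠ E ∧ (E' ∩ ring2 q r).Nonempty) →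
      ∑ E' ∈ F, min (diam E') r ^ 2 ≤ C * r ^ 2

/-- The derived set of a set `B` of components: the components of `K` of which every neighbourhood
meets another member of `B`. -/
def derived (K : Set ℂ) (B : Set (Set ℂ)) : Set (Set ℂ) :=
  {E ∈ comps K | ∀ O : Set ℂ, IsOpen O → E ⊆ O → ∃ E' ∈ B, E' ≠ E ∧ (E' ∩ O).Nonempty}

/-- The components that are not good have finite Cantor–Bendixson rank: some iterated derived set
of them is empty. -/
def FinRankBad (K : Set ℂ) : Prop :=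
  ∃ k : ℕ, (derived K)^[k] {E ∈ comps K | ¬ Good K E} = ∅

/-- The images of a point: its value, or the part of the complement of its component. -/
def img (U : Set ℂ) (f : ℂ → ℂ) (p : ℂ) : Set ℂ :=
  {w | p ∈ U ∧ w = f p ∨ p ∉ U ∧ w ∈ clus U f (connectedComponentIn Uᶜ p)}

/-- The oscillation of a real function on a set. -/
def osc (φ : ℂ → ℝ) (E : Set ℂ) : ℝ := diam (φ '' E)

/-- The Dirichlet energy. -/
def energy (φ : ℂ → ℝ) : ℝ := ∫ z, ‖fderiv ℝ φ z‖ ^ 2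

/-- Crude distortion at infinity (area theorem). -/
def AreaBoundStmt : Prop :=
  ∃ C : ℝ, 1 ≤ C ∧ ∀ (U : Set ℂ) (f : ℂ → ℂ) (R : ℝ), 0 < R → IsExt U f →
    Uᶜ ⊆ closedBall 0 R →
      (f '' U)ᶜ ⊆ closedBall 0 (C * R) ∧ ∀ z ∈ U, ‖f z‖ ≤ C * (‖z‖ + R)

/-- The parts of the components partition the complement of the image. -/
def ClusStmt : Prop :=
  ∀ (U : Set ℂ) (f : ℂ → ℂ), IsExt U f →
    Dom (f '' U) ∧ (f '' U)ᶜ = ⋃ E ∈ comps Uᶜ, clus U f E ∧
      ∀ E ∈ comps Uᶜ, (clus U f E).Nonempty ∧ IsCompact (clus U f E) ∧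
        (∀ w ∈ clus U f E, connectedComponentIn (f '' U)ᶜ w ⊆ clus U f E) ∧
        ∀ E' ∈ comps Uᶜ, E' ≠ E → Disjoint (clus U f E) (clus U f E')

/-- The limit of maps of larger domains, and its cluster sets. -/
def LimitStmt : Prop :=
  ∀ (U : Set ℂ) (Uk : ℕ → Set ℂ) (fk : ℕ → ℂ → ℂ) (f : ℂ → ℂ), Dom U →
    (∀ k, U ⊆ Uk k) → (∀ k, IsExt (Uk k) (fk k)) → TendstoLocallyUniformlyOn fk f atTop U →
      IsExt U f ∧ ∀ E ∈ comps Uᶜ, ∀ w : ℂ, w ∈ clus U f E ↔
        ∃ (s : ℕ → ℕ) (p : ℕ → ℂ) (v : ℕ → ℂ), StrictMono s ∧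
          (∀ j, v j ∈ img (Uk (s j)) (fk (s j)) (p j)) ∧
          (∃ q ∈ E, Tendsto p atTop (𝓝 q)) ∧ Tendsto v atTop (𝓝 w)

/-- A subsequence converges (Montel, with the distortion bound). -/
def NormalStmt : Prop :=
  ∀ (U : Set ℂ) (Uk : ℕ → Set ℂ) (fk : ℕ → ℂ → ℂ), Dom U →
    (∀ k, U ⊆ Uk k) → (∀ k, IsExt (Uk k) (fk k)) →
      ∃ (s : ℕ → ℕ) (f : ℂ → ℂ), StrictMono s ∧
        TendstoLocallyUniformlyOn (fun j => fk (s j)) f atTop U

/-- Koebe's theorem for finitely many continua. -/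
def FiniteKoebeStmt : Prop :=
  ∀ U : Set ℂ, Dom U → (comps Uᶜ).Finite → (∀ E ∈ comps Uᶜ, E.Nontrivial) →
    ∃ f : ℂ → ℂ, IsExt U f ∧ ∀ E ∈ comps Uᶜ, ∃ (c : ℂ) (r : ℝ), 0 ≤ r ∧
      clus U f E = closedBall c r

/-- Lines to infinity against a test function. -/
def LineStmt : Prop :=
  ∃ C : ℝ, 0 < C ∧ ∀ (U : Set ℂ) (f : ℂ → ℂ) (R : ℝ) (φ : ℂ → ℝ) (X : Set ℂ),
    1 ≤ R → IsExt U f → (comps Uᶜ).Finite → Uᶜ ⊆ closedBall 0 R →
    (∀ E ∈ comps Uᶜ, ∃ (c : ℂ) (r : ℝ), 0 ≤ r ∧ clus U f E = closedBall c r) →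
    ContDiff ℝ 1 φ → (∀ z, R ≤ ‖z‖ → φ z = 1) → IsPreconnected X → (∀ z ∈ X, φ z = 0) →
      (∀ ε : ℝ, 0 ≤ ε → energy φ ≤ ε → ∑ᶠ E ∈ comps Uᶜ, osc φ E ^ 2 ≤ ε →
        ∀ p ∈ X, ∀ p' ∈ X, ∀ w ∈ img U f p, ∀ w' ∈ img U f p', dist w w' ^ 2 ≤ C * R ^ 2 * ε) ∧
      ∀ E ∈ comps Uᶜ, (X ∩ E).Nonempty → ∀ (c : ℂ) (r : ℝ), 0 ≤ r → clus U f E = closedBall c r →
        ∀ ε : ℝ, 0 ≤ ε → energy φ ≤ ε → ∑ᶠ E' ∈ comps Uᶜ \ {E}, osc φ E' ^ 2 ≤ ε →
          ∀ p ∈ X, ∀ w ∈ img U f p, dist w c ≤ r + Real.sqrt (C * R ^ 2 * ε)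

/-- Test functions at the points of good components. -/
def TestStmt : Prop :=
  ∀ (K E : Set ℂ), IsCompact K → E ∈ comps K → Good K E → ∀ q ∈ E, ∀ R : ℝ,
    K ⊆ closedBall 0 R → ∀ ε : ℝ, 0 < ε → ∃ φ : ℂ → ℝ, ContDiff ℝ 1 φ ∧
      (∀ᶠ z in 𝓝 q, φ z = 0) ∧ (∀ z, R + 1 ≤ ‖z‖ → φ z = 1) ∧ energy φ ≤ ε ∧
        ∀ F : Finset (Set ℂ), (∀ E' ∈ F, E' ∈ comps K ∧ E' ≠ E) →
          ∑ E' ∈ F, osc φ E' ^ 2 ≤ ε

/-- There are countably many nondegenerate components. -/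
def CountStmt : Prop :=
  ∀ K : Set ℂ, IsCompact K → {E ∈ comps K | ¬ Good K E}.Countable →
    {E ∈ comps K | E.Nontrivial}.Countable

/-- Next to discs every component is good. -/
def DiscGoodStmt : Prop :=
  ∀ (K E O : Set ℂ), IsCompact K → E ∈ comps K → IsOpen O → E ⊆ O →
    (∀ E' ∈ comps K, E' ≠ E → (E' ∩ O).Nonempty → ∃ (c : ℂ) (r : ℝ), E' = closedBall c r) →
      Good K E

/-- One step: good components go to discs or points, all of them to continua. -/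
def StepStmt : Prop :=
  ∀ U : Set ℂ, Dom U → {E ∈ comps Uᶜ | ¬ Good Uᶜ E}.Countable →
    ∃ f : ℂ → ℂ, IsExt U f ∧ ∀ E ∈ comps Uᶜ, IsPreconnected (clus U f E) ∧
      (Good Uᶜ E → ∃ (c : ℂ) (r : ℝ), 0 ≤ r ∧ clus U f E = closedBall c r)

/-- The result in the plane. -/
def PlaneStmt : Prop :=
  ∀ U : Set ℂ, Dom U → FinRankBad Uᶜ →
    ∃ f : ℂ → ℂ, IsExt U f ∧
      ∀ E ∈ comps (f '' U)ᶜ, ∃ (c : ℂ) (r : ℝ), 0 ≤ r ∧ E = closedBall c r

/-- The result on the sphere. -/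
def SphereStmt : Prop :=
  ∀ G : Set (OnePoint ℂ), IsOpen G → IsConnected G → OnePoint.infty ∈ G →
    FinRankBad ((fun z : ℂ => (z : OnePoint ℂ)) ⁻¹' G)ᶜ →
      ∃ Ω, IsCircleDomain Ω ∧ ConformallyEquiv G Ω

/-! ### Finite Koebe -/

/-- The exterior Riemann map of a continuum. -/
def RoundStmt : Prop :=
  ∀ K : Set ℂ, IsCompact K → IsConnected K → K.Nontrivial → IsPreconnected Kᶜ →
    ∃ (h : ℂ → ℂ) (c : ℂ) (r : ℝ), 0 < r ∧ IsExt Kᶜ h ∧ h '' Kᶜ = (closedBall c r)ᶜ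

/-- Reflection in the circle with centre `c` and radius `r`. -/
def circInv (c : ℂ) (r : ℝ) (z : ℂ) : ℂ := c + (r : ℂ) ^ 2 / conj (z - c)

/-- Schwarz reflection across a circle. -/
def ReflectStmt : Prop :=
  ∀ (c c' : ℂ) (r r' : ℝ) (V : Set ℂ) (g : ℂ → ℂ), 0 < r → 0 < r' → IsOpen V → sphere c r ⊆ V →
    DifferentiableOn ℂ g (V \ closedBall c r) → (∀ z ∈ V, r < dist z c → r' < dist (g z) c') →
    (∀ p ∈ sphere c r,
      Tendsto (fun z => dist (g z) c') (𝓝[(closedBall c r)ᶜ] p) (𝓝 r')) →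
      ∃ (W : Set ℂ) (Q : ℂ → ℂ), IsOpen W ∧ sphere c r ⊆ W ∧ W ⊆ V ∧ DifferentiableOn ℂ Q W ∧
        (∀ z ∈ W, r < dist z c → Q z = g z) ∧
        (∀ z ∈ W, dist z c < r → circInv c r z ∈ V ∧ Q z = circInv c' r' (g (circInv c r z))) ∧
        ∀ z ∈ sphere c r, Q z ∈ sphere c' r'

/-- The open annulus `1 < |ζ| < ρ`. -/
def annu (ρ : ℝ) : Set ℂ := {ζ | 1 < ‖ζ‖ ∧ ‖ζ‖ < ρ}

/-- Conformal or anticonformal injective maps. -/
def ConfMap (V : Set ℂ) (A : ℂ → ℂ) : Prop :=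
  InjOn A V ∧ (DifferentiableOn ℂ A V ∨ DifferentiableOn ℂ (fun ζ => conj (A ζ)) V)

/-- A map off finitely many holes is near the identity if the annuli around the holes and their
images have small area. -/
def CutBoundStmt : Prop :=
  ∀ ρ : ℝ, 1 < ρ → ∃ C : ℝ, 0 ≤ C ∧ ∀ (ι : Type) [Fintype ι] (R : ℝ) (H : ι → Set ℂ)
    (A A' : ι → ℂ → ℂ) (M : ℂ → ℂ), 0 < R →
    (∀ i, IsCompact (H i) ∧ ConfMap (annu ρ) (A i) ∧ ConfMap (annu ρ) (A' i) ∧
      Bornology.IsBounded (A' i '' annu ρ) ∧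
      Disjoint (H i) (A i '' annu ρ) ∧ IsOpen (H i ∪ A i '' annu ρ) ∧
      H i ∪ A i '' annu ρ ⊆ closedBall 0 R ∧
      ∀ t : ℝ, 1 < t → t < ρ → IsCompact (H i ∪ A i '' {ζ | 1 < ‖ζ‖ ∧ ‖ζ‖ ≤ t}) ∧
        IsOpen (H i ∪ A i '' annu t)) →
    Pairwise (fun i j => Disjoint (H i ∪ A i '' annu ρ) (H j ∪ A j '' annu ρ)) →
    DifferentiableOn ℂ M (⋃ i, H i)ᶜ → Tendsto (fun z => M z - z) (cocompact ℂ) (𝓝 0) →
    (∀ i, ∀ ζ ∈ annu ρ, M (A i ζ) = A' i ζ) →
      ∀ z : ℂ, 3 * R ≤ ‖z‖ → ‖M z - z‖ ≤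
        C / R * ∑ i, ((volume (A i '' annu ρ)).toReal + (volume (A' i '' annu ρ)).toReal)

end Vale.Agent.P116.Pack
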