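import Vale.Agent.P116.Pack.Basic
import Vale.Agent.P116.OpenMap

/-!
P116 Pack: from the plane to the sphere.
-/

noncomputable section

namespace Vale.Agent.P116.Pack

open Set Filter Metric Function
open scoped Topology OnePoint

/-- The finite part of a subset of the sphere. -/
def finPart (G : Set (OnePoint ℂ)) : Set ℂ := (fun z : ℂ => (z : OnePoint ℂ)) ⁻¹' G

private lemma isPreconnected_exterior (R : ℝ) (hR : 0 ≤ R) :
    IsPreconnected {z : ℂ | R < ‖z‖} := by
  have h : {z : ℂ | R < ‖z‖} =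
      (fun p : ℝ × ℝ => (p.1 : ℂ) * Complex.exp ((p.2 : ℂ) * Complex.I)) '' (Ioi R ×ˢ univ) := by
    ext z
    constructor
    · intro hz
      exact ⟨(‖z‖, z.arg), ⟨hz, mem_univ _⟩, Complex.norm_mul_exp_arg_mul_I z⟩
    · rintro ⟨⟨a, b⟩, ⟨ha, -⟩, rfl⟩
      have ha' : R < a := ha
      simp only [mem_ofPred_eq, norm_mul, Complex.norm_real, Complex.norm_exp_ofReal_mul_I, mul_one,
        Real.norm_eq_abs, abs_of_pos (hR.trans_lt ha')]
      exact ha'
  rw [h]
  exact (isPreconnected_Ioi.prod isPreconnected_univ).image _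
    (Continuous.continuousOn (by fun_prop))

/-- An open connected set containing infinity has a domain as its finite part. -/
lemma dom_finPart {G : Set (OnePoint ℂ)} (hGo : IsOpen G) (hGc : IsConnected G)
    (hinf : (∞ : OnePoint ℂ) ∈ G) : Dom (finPart G) := by
  have hopen : IsOpen (finPart G) := hGo.preimage OnePoint.continuous_coe
  have hK : IsCompact (finPart G)ᶜ :=
    ((OnePoint.isOpen_iff_of_mem hinf).1 hGo).2
  refine ⟨hopen, ?_, hK⟩
  obtain ⟨R₀, hR₀⟩ := hK.isBounded.subset_closedBall 0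
  set R := max R₀ 0
  have hext : {z : ℂ | R < ‖z‖} ⊆ finPart G := fun z hz => by_contra fun h => by
    have := mem_closedBall_zero_iff.1 (hR₀ h)
    exact absurd (this.trans (le_max_left R₀ 0)) (not_le.2 hz)
  intro u v hu hv hsub hune hvne
  by_contra hno
  have hno' : ∀ z ∈ finPart G, z ∈ u → z ∉ v := fun z hz h1 h2 => hno ⟨z, hz, h1, h2⟩
  have hEne : ((R + 1 : ℝ) : ℂ) ∈ {z : ℂ | R < ‖z‖} := by
    show R < ‖((R + 1 : ℝ) : ℂ)‖
    rw [Complex.norm_of_nonneg (by linarith [le_max_right R₀ 0])]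
    linarith
  -- the exterior lies in one of the two pieces
  have key : ∀ a b : Set ℂ, IsOpen a → IsOpen b → finPart G ⊆ a ∪ b →
      (∀ z ∈ finPart G, z ∈ a → z ∉ b) → (finPart G ∩ b).Nonempty →
      ((R + 1 : ℝ) : ℂ) ∈ a → False := by
    intro a b ha hb hab hdis hbne hain
    have hEa : {z : ℂ | R < ‖z‖} ⊆ a := by
      intro z hz
      by_contra hza
      obtain ⟨y, hy, hya, hyb⟩ := isPreconnected_exterior R (le_max_right _ _) a b ha hb
        (hext.trans hab) ⟨_, hEne, hain⟩ ⟨z, hz, (hab (hext hz)).resolve_left hza⟩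
      exact hdis y (hext hy) hya hyb
    set O : Set (OnePoint ℂ) := insert (∞ : OnePoint ℂ)
      ((fun z : ℂ => (z : OnePoint ℂ)) '' (finPart G ∩ a)) with hO
    have hOo : IsOpen O := by
      have hpre : (fun z : ℂ => (z : OnePoint ℂ)) ⁻¹' O = finPart G ∩ a := by
        ext z
        simp [hO]
      rw [OnePoint.isOpen_iff_of_mem (mem_insert _ _), hpre]
      refine ⟨((hopen.inter ha).isClosed_compl), ?_⟩
      refine (isCompact_closedBall (0 : ℂ) R).of_isClosed_subset (hopen.inter ha).isClosed_compl ?_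
      intro z hz
      by_contra h
      rw [mem_closedBall_zero_iff, not_le] at h
      exact hz ⟨hext h, hEa h⟩
    obtain ⟨w, hw, hwO, ⟨z, ⟨hzG, hzb⟩, hzw⟩⟩ := hGc.isPreconnected O
      ((fun z : ℂ => (z : OnePoint ℂ)) '' (finPart G ∩ b)) hOo
      (OnePoint.isOpenEmbedding_coe.isOpenMap _ (hopen.inter hb))
      (fun x hx => by
        induction x using OnePoint.rec with
        | infty => exact Or.inl (mem_insert _ _)
        | coe z =>
          rcases hab (show z ∈ finPart G from hx) with h | h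
          · exact Or.inl (mem_insert_of_mem _ ⟨z, ⟨hx, h⟩, rfl⟩)
          · exact Or.inr ⟨z, ⟨hx, h⟩, rfl⟩)
      ⟨∞, hinf, mem_insert _ _⟩
      (by
        obtain ⟨z, hz, hzb⟩ := hbne
        exact ⟨(z : OnePoint ℂ), hz, z, ⟨hz, hzb⟩, rfl⟩)
    rcases mem_insert_iff.1 hwO with h | ⟨z', ⟨-, hz'a⟩, hz'w⟩
    · exact OnePoint.coe_ne_infty z (hzw.trans h)
    · obtain rfl : z' = z := OnePoint.coe_injective (hz'w.trans hzw.symm)
      exact hdis z' hzG hz'a hzb
  rcases hsub (hext hEne) with h | h
  · exact key u v hu hv hsub hno' hvne h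
  · exact key v u hv hu (by rwa [union_comm]) (fun z hz h1 h2 => hno' z hz h2 h1) hune h

/-- The extension of a plane map to the sphere, fixing infinity. -/
private def sphExt (f : ℂ → ℂ) (x : OnePoint ℂ) : OnePoint ℂ :=
  OnePoint.map f x

private lemma holAt_infty {f : ℂ → ℂ} (hn : Tendsto (fun z => f z - z) (cocompact ℂ) (𝓝 0)) :
    HolAt (sphExt f) ∞ := by
  have hf : Tendsto f (cocompact ℂ) (cocompact ℂ) := by
    rw [← cobounded_eq_cocompact, ← tendsto_norm_atTop_iff_cobounded]
    have h1 := hn.norm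
    rw [norm_zero, ← cobounded_eq_cocompact] at h1
    refine tendsto_atTop_mono' _ ?_
      (tendsto_norm_cobounded_atTop.atTop_add (tendsto_const_nhds (x := (-1 : ℝ))))
    filter_upwards [h1.eventually_lt_const one_pos] with z hz
    linarith [norm_sub_norm_le z (f z), norm_sub_rev z (f z)]
  refine ⟨?_, ?_⟩
  · rw [OnePoint.continuousAt_infty']
    show Tendsto (fun z : ℂ => ((f z : ℂ) : OnePoint ℂ)) (coclosedCompact ℂ) (𝓝 ∞)
    rw [coclosedCompact_eq_cocompact]
    have := OnePoint.tendsto_coe_infty (X := ℂ)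
    rw [coclosedCompact_eq_cocompact] at this
    exact this.comp hf
  · show DifferentiableAt ℂ
      (fun z : ℂ => finVal (sphInv (sphExt f (sphInv (z : OnePoint ℂ))))) (finVal (sphInv ∞))
    rw [sphInv_infty, finVal_coe]
    refine HasDerivAt.differentiableAt (f' := 1) (hasDerivAt_iff_tendsto_slope.2 ?_)
    have hinv : Tendsto (fun z : ℂ => z⁻¹) (𝓝[≠] (0 : ℂ)) (cocompact ℂ) := by
      rw [← cobounded_eq_cocompact]
      exact tendsto_inv₀_nhdsNE_zero
    have h2 : Tendsto (fun z : ℂ => z * f z⁻¹) (𝓝[≠] (0 : ℂ)) (𝓝 1) := by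
      have h3 : Tendsto (fun z : ℂ => z * (f z⁻¹ - z⁻¹) + 1) (𝓝[≠] (0 : ℂ)) (𝓝 (0 * 0 + 1)) :=
        ((tendsto_id'.2 nhdsWithin_le_nhds).mul (hn.comp hinv)).add tendsto_const_nhds
      rw [zero_mul, zero_add] at h3
      refine h3.congr' ?_
      filter_upwards [self_mem_nhdsWithin] with z hz
      rw [mul_sub, mul_inv_cancel₀ hz, sub_add_cancel]
    have h4 := h2.inv₀ one_ne_zero
    rw [inv_one] at h4
    refine h4.congr' ?_
    filter_upwards [self_mem_nhdsWithin, (hf.comp hinv).eventually
      (isCompact_singleton (x := (0 : ℂ)).compl_mem_cocompact)] with z hz hfz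
    have hz0 : z ≠ 0 := hz
    have hfz0 : f z⁻¹ ≠ 0 := hfz
    rw [slope_def_field, sphInv_zero, sphInv_coe hz0]
    show _ = (finVal (sphInv ((f z⁻¹ : ℂ) : OnePoint ℂ)) - finVal (sphInv ∞)) / (z - 0)
    rw [sphInv_coe hfz0, sphInv_infty, finVal_coe, finVal_coe, sub_zero, sub_zero, mul_inv_rev,
      div_eq_mul_inv]

private lemma holAt_coe {f : ℂ → ℂ} {z : ℂ} (hd : DifferentiableAt ℂ f z) :
    HolAt (sphExt f) (z : OnePoint ℂ) := by
  refine ⟨?_, ?_⟩
  · rw [OnePoint.continuousAt_coe]
    exact OnePoint.continuous_coe.continuousAt.comp hd.continuousAt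
  · exact hd

/-- A closed ball of positive radius is a round disc on the sphere. -/
private lemma isRoundDisk_closedBall (c : ℂ) {r : ℝ} (hr : 0 < r) :
    IsRoundDisk ((fun z : ℂ => (z : OnePoint ℂ)) '' closedBall c r) := by
  refine ⟨Matrix.GeneralLinearGroup.mkOfDetNeZero !![(r : ℂ), c; 0, 1]
    (by simp [Matrix.det_fin_two, hr.ne']), ?_⟩
  rw [image_image]
  ext y
  simp only [mem_image]
  constructor
  · rintro ⟨w, hw, rfl⟩
    refine ⟨(w - c) / r, ?_, ?_⟩
    · rw [mem_closedBall_zero_iff, norm_div, Complex.norm_of_nonneg hr.le, div_le_one hr,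
        ← dist_eq_norm]
      exact hw
    · rw [OnePoint.smul_some_eq_ite]
      simp [Matrix.GeneralLinearGroup.mkOfDetNeZero, hr.ne', mul_div_cancel₀]
  · rintro ⟨w, hw, rfl⟩
    refine ⟨(r : ℂ) * w + c, ?_, ?_⟩
    · rw [mem_closedBall, dist_eq_norm, add_sub_cancel_right, norm_mul,
        Complex.norm_of_nonneg hr.le]
      rw [mem_closedBall_zero_iff] at hw
      nlinarith
    · rw [OnePoint.smul_some_eq_ite]
      simp [Matrix.GeneralLinearGroup.mkOfDetNeZero]

/-- A domain of the sphere containing infinity, the finite part of which is mapped by a normalised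
map onto a domain bounded by discs and points, is equivalent to a circle domain. -/
theorem sphere_of_map {G : Set (OnePoint ℂ)} (hGo : IsOpen G) (hGc : IsConnected G)
    (hinf : (∞ : OnePoint ℂ) ∈ G) {f : ℂ → ℂ}
    (hf : IsExt ((fun z : ℂ => (z : OnePoint ℂ)) ⁻¹' G) f)
    (hE : ∀ E ∈ comps (f '' ((fun z : ℂ => (z : OnePoint ℂ)) ⁻¹' G))ᶜ,
      ∃ (c : ℂ) (r : ℝ), 0 ≤ r ∧ E = closedBall c r) :
    ∃ Ω, IsCircleDomain Ω ∧ ConformallyEquiv G Ω := by
  set U := (fun z : ℂ => (z : OnePoint ℂ)) ⁻¹' G with hU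
  have hhol : ∀ x ∈ G, HolAt (sphExt f) x := by
    intro x hx
    induction x using OnePoint.rec with
    | infty => exact holAt_infty hf.norm_inf
    | coe z => exact holAt_coe (hf.diff.differentiableAt (hf.dom.isOpen.mem_nhds hx))
  have hinj : InjOn (sphExt f) G := by
    intro x hx y hy e
    induction x using OnePoint.rec with
    | infty =>
      induction y using OnePoint.rec with
      | infty => rfl
      | coe w => exact absurd e (OnePoint.infty_ne_coe _)
    | coe z =>
      induction y using OnePoint.rec with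
      | infty => exact absurd e (OnePoint.coe_ne_infty _)
      | coe w => rw [hf.injOn hx hy (OnePoint.coe_injective e)]
  set Ω := sphExt f '' G with hΩ
  have hmem : ∀ w : ℂ, (w : OnePoint ℂ) ∈ Ω ↔ w ∈ f '' U := by
    intro w
    constructor
    · rintro ⟨x, hx, e⟩
      induction x using OnePoint.rec with
      | infty => exact absurd e (OnePoint.infty_ne_coe _)
      | coe z => exact ⟨z, hx, OnePoint.coe_injective e⟩
    · rintro ⟨z, hz, rfl⟩
      exact ⟨(z : OnePoint ℂ), hz, rfl⟩
  refine ⟨Ω, ⟨isOpen_image_of_holAt hGo hhol hinj,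
    hGc.image _ fun x hx => (hhol x hx).1.continuousWithinAt, ?_⟩, sphExt f, hinj.bijOn_image, hhol⟩
  intro x hx
  obtain ⟨w, rfl⟩ := OnePoint.ne_infty_iff_exists.1 (fun e : x = ∞ => hx (e ▸ ⟨∞, hinf, rfl⟩))
  have hw : w ∈ (f '' U)ᶜ := fun h => hx ((hmem w).2 h)
  set co := fun z : ℂ => (z : OnePoint ℂ) with hco
  have heq : connectedComponentIn Ωᶜ (w : OnePoint ℂ) = co '' connectedComponentIn (f '' U)ᶜ w := by
    have hind : Topology.IsInducing co := OnePoint.isOpenEmbedding_coe.isInducing
    refine Subset.antisymm ?_ ?_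
    · have hsub : connectedComponentIn Ωᶜ (w : OnePoint ℂ) ⊆ range co := by
        intro y hy
        obtain ⟨u, hu⟩ := OnePoint.ne_infty_iff_exists.1
          (fun e : y = ∞ => connectedComponentIn_subset _ _ hy (e ▸ ⟨∞, hinf, rfl⟩))
        exact ⟨u, hu⟩
      rw [← image_preimage_eq_of_subset hsub]
      refine image_mono ?_
      refine IsPreconnected.subset_connectedComponentIn ?_
        (mem_connectedComponentIn (F := Ωᶜ) hx) fun u hu hu' =>
          connectedComponentIn_subset _ _ hu ((hmem u).2 hu')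
      exact hind.isPreconnected_image.1 (by
        rw [image_preimage_eq_of_subset hsub]; exact isPreconnected_connectedComponentIn)
    · refine (isPreconnected_connectedComponentIn.image co
        OnePoint.continuous_coe.continuousOn).subset_connectedComponentIn
        (mem_image_of_mem co (mem_connectedComponentIn hw)) ?_
      rintro _ ⟨u, hu, rfl⟩ h
      exact connectedComponentIn_subset _ _ hu ((hmem u).1 h)
  obtain ⟨c, r, hr, hcr⟩ := hE _ (mem_comps hw)
  rw [heq, hcr]
  rcases hr.eq_or_lt with h | h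
  · left
    subst h
    have hwc : w = c := by
      have := mem_connectedComponentIn hw
      rw [hcr, closedBall_zero] at this
      exact this
    rw [closedBall_zero, image_singleton, hwc]
  · exact Or.inr (isRoundDisk_closedBall c h)

/-- The plane result gives the result on the sphere. -/
theorem sphere (h : PlaneStmt) : SphereStmt := fun G hGo hGc hinf hgood => by
  obtain ⟨f, hf, hE⟩ := h _ (dom_finPart hGo hGc hinf) hgood
  exact sphere_of_map hGo hGc hinf hf hE

end Vale.Agent.P116.Pack
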