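import Vale.Agent.P116.Pack.Spec
import Vale.Agent.P116.OpenMap

/-!
P116 Pack: removing the hypothesis that infinity lies in the domain, by `x ↦ 1 / (x - a)`.
-/

noncomputable section

namespace Vale.Agent.P116.Pack

open Set Filter Metric Function
open scoped Topology OnePoint

/-- Composition of maps of the sphere holomorphic at corresponding points. -/
theorem holAt_comp {f g : OnePoint ℂ → OnePoint ℂ} {x : OnePoint ℂ} (hf : HolAt f x)
    (hg : HolAt g (f x)) : HolAt (g ∘ f) x := by
  refine ⟨hg.1.comp hf.1, ?_⟩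
  set a := finVal (sphChart x x) with ha
  have hxa : sphChart x (a : OnePoint ℂ) = x := by
    rw [ha, ← sphChart_self_ne_infty, sphChart_chart]
  have hne : sphChart (f x) (f x) ≠ ∞ := by
    rw [sphChart_self_ne_infty]; exact OnePoint.coe_ne_infty _
  have hd : DifferentiableAt ℂ
      ((fun u : ℂ => finVal (sphChart (g (f x)) (g (sphChart (f x) (u : OnePoint ℂ))))) ∘
        fun z : ℂ => finVal (sphChart (f x) (f (sphChart x (z : OnePoint ℂ))))) a := by
    refine DifferentiableAt.comp a ?_ hf.2
    rw [hxa]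
    exact hg.2
  refine hd.congr_of_eventuallyEq ?_
  have hc : ContinuousAt (fun z : ℂ => sphChart (f x) (f (sphChart x (z : OnePoint ℂ)))) a := by
    refine (continuous_sphChart (f x)).continuousAt.comp ?_
    refine ContinuousAt.comp (g := f) ?_
      ((continuous_sphChart x).comp OnePoint.continuous_coe).continuousAt
    show ContinuousAt f (sphChart x (a : OnePoint ℂ))
    rw [hxa]
    exact hf.1
  filter_upwards [hc.eventually_ne (by rw [hxa]; exact hne)] with z hz
  show finVal (sphChart (g (f x)) (g (f (sphChart x (z : OnePoint ℂ))))) = _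
  rw [Function.comp_apply, coe_finVal hz, sphChart_sphChart]

/-- Inversion is holomorphic on the sphere. -/
theorem holAt_sphInv (x : OnePoint ℂ) : HolAt sphInv x := by
  refine ⟨continuous_sphInv.continuousAt, ?_⟩
  induction x using OnePoint.rec with
  | infty => simp [sphInv_sphInv]
  | coe v =>
    rcases eq_or_ne v 0 with rfl | hv
    · simp [sphInv_sphInv]
    · simp only [sphInv_coe hv, sphChart_coe, id, finVal_coe]
      refine (differentiableAt_inv hv).congr_of_eventuallyEq ?_
      filter_upwards [isOpen_ne.mem_nhds hv] with z hz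
      rw [sphInv_coe hz, finVal_coe]

/-- A translation of the sphere, fixing infinity. -/
def sphShift (a : ℂ) : OnePoint ℂ ≃ₜ OnePoint ℂ := (Homeomorph.subRight a).onePointCongr

/-- Translations are holomorphic on the sphere. -/
theorem holAt_sphShift (a : ℂ) (x : OnePoint ℂ) : HolAt (sphShift a) x := by
  refine ⟨(sphShift a).continuous.continuousAt, ?_⟩
  induction x using OnePoint.rec with
  | infty =>
    have hS : sphShift a ∞ = ∞ := rfl
    simp only [hS, sphChart_infty, sphInv_infty, finVal_coe]
    have hd : DifferentiableAt ℂ (fun z : ℂ => z / (1 - a * z)) 0 :=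
      differentiableAt_id.div ((differentiableAt_id.const_mul a).const_sub 1) (by simp)
    refine hd.congr_of_eventuallyEq ?_
    filter_upwards [(show ContinuousAt (fun z : ℂ => 1 - a * z) 0 by fun_prop).eventually_ne
      (show (1 : ℂ) - a * 0 ≠ 0 by simp)] with z hz
    rcases eq_or_ne z 0 with rfl | hz0
    · simp [hS]
    · have h1 : z⁻¹ - a ≠ 0 := fun h => hz (by rw [← sub_eq_zero.1 h, inv_mul_cancel₀ hz0, sub_self])
      rw [sphInv_coe hz0]
      show finVal (sphInv ((z⁻¹ - a : ℂ) : OnePoint ℂ)) = _
      rw [sphInv_coe h1, finVal_coe]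
      field_simp
  | coe v =>
    show DifferentiableAt ℂ (fun z : ℂ => z - a) v
    exact differentiableAt_id.sub_const a

/-- The map `x ↦ 1 / (x - a)` of the sphere. -/
def invAt (a : ℂ) (x : OnePoint ℂ) : OnePoint ℂ := sphInv (sphShift a x)

/-- The result for a domain containing a finite point `a`, read after `x ↦ 1 / (x - a)`. -/
theorem sphere_move (h : SphereStmt) (G : Set (OnePoint ℂ)) (hGo : IsOpen G) (hGc : IsConnected G)
    (a : ℂ) (ha : (a : OnePoint ℂ) ∈ G)
    (hgood : FinRankBad ((fun z : ℂ => (z : OnePoint ℂ)) ⁻¹' (invAt a '' G))ᶜ) :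
    ∃ Ω, IsCircleDomain Ω ∧ ConformallyEquiv G Ω := by
  have hhol : ∀ x, HolAt (invAt a) x := fun x =>
    holAt_comp (holAt_sphShift a x) (holAt_sphInv _)
  have hinj : Function.Injective (invAt a) :=
    (Function.LeftInverse.injective sphInv_sphInv).comp (sphShift a).injective
  have hinf : (∞ : OnePoint ℂ) ∈ invAt a '' G := by
    refine ⟨(a : OnePoint ℂ), ha, ?_⟩
    show sphInv ((a - a : ℂ) : OnePoint ℂ) = ∞
    rw [sub_self, sphInv_zero]
  obtain ⟨Ω, hΩ, F, hF, hFh⟩ := h (invAt a '' G)
    (isOpen_image_of_holAt hGo (fun x _ => hhol x) hinj.injOn)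
    (hGc.image _ fun x _ => (hhol x).1.continuousWithinAt) hinf hgood
  exact ⟨Ω, hΩ, F ∘ invAt a, hF.comp hinj.injOn.bijOn_image,
    fun x hx => holAt_comp (hhol x) (hFh _ (mem_image_of_mem _ hx))⟩

end Vale.Agent.P116.Pack
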