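import Vale.Agent.P116.Pack.Image

/-!
P116 Pack: one step. The limit of the maps of the finite stages sends good components to discs or
points and every component to a continuum.
-/

noncomputable section

namespace Vale.Agent.P116.Pack

open Set Filter Metric Function
open scoped Topology

private lemma dist_le_of_tendsto {x : ℕ → ℂ} {a b : ℂ} {B : ℕ → ℝ} {β : ℝ}
    (hx : Tendsto x atTop (𝓝 a)) (hB : Tendsto B atTop (𝓝 β))
    (h : ∀ᶠ j in atTop, dist (x j) b ≤ B j) : dist a b ≤ β :=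
  le_of_tendsto_of_tendsto (hx.dist tendsto_const_nhds) hB h

/-- Points near a boundary value, with values near it. -/
lemma exists_near_bclus {U E : Set ℂ} {f : ℂ → ℂ} {b : ℂ} (hb : b ∈ bclus U f E) :
    ∃ q ∈ E, ∀ ε : ℝ, 0 < ε → ∃ z ∈ U, dist z q < ε ∧ dist (f z) b < ε := by
  obtain ⟨q, hq, hqc⟩ := hb
  refine ⟨q, hq, fun ε hε => ?_⟩
  obtain ⟨z, h1, h2, h3⟩ := ((hqc.frequently (ball_mem_nhds b hε)).and_eventually
    ((eventually_mem_nhdsWithin (s := U)).and
      (nhdsWithin_le_nhds (ball_mem_nhds q hε)))).exists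
  exact ⟨z, h2, h3, h1⟩

theorem stepStmt (hA : AreaBoundStmt) (hC : ClusStmt) (hL : LimitStmt) (hN : NormalStmt)
    (hK : FiniteKoebeStmt) (hLine : LineStmt) (hT : TestStmt) (hCount : CountStmt) : StepStmt := by
  intro U hU hbad
  classical
  obtain ⟨g, hg⟩ := Set.countable_iff_exists_injOn.1 (hCount Uᶜ hU.compact_compl hbad)
  set S := {E ∈ comps Uᶜ | E.Nontrivial} with hS
  let F : ℕ → Set (Set ℂ) := fun n => {E | E ∈ S ∧ g E < n}
  have hFfin : ∀ n, (F n).Finite := fun n =>
    Set.Finite.of_finite_image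
      ((finite_Iio n).subset (by rintro _ ⟨E, hE, rfl⟩; exact hE.2))
      (hg.mono fun E hE => hE.1)
  have hFK : ∀ n, F n ⊆ comps Uᶜ := fun n E hE => hE.1.1
  let V : ℕ → Set ℂ := fun n => (⋃₀ F n)ᶜ
  have hV : ∀ n, Dom (V n) ∧ U ⊆ V n ∧ comps (V n)ᶜ = F n :=
    fun n => hU.of_finite_union (hFfin n) (hFK n)
  have hfn : ∀ n, ∃ f, IsExt (V n) f ∧ ∀ E ∈ comps (V n)ᶜ, ∃ (c : ℂ) (r : ℝ), 0 ≤ r ∧
      clus (V n) f E = closedBall c r := fun n =>
    hK (V n) (hV n).1 (by rw [(hV n).2.2]; exact hFfin n)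
      (by rw [(hV n).2.2]; exact fun E hE => hE.1.2)
  choose fn hfn hdisc using hfn
  obtain ⟨s, f, hs, hlim⟩ := hN U V fn hU (fun n => (hV n).2.1) hfn
  obtain ⟨hf, hchar⟩ := hL U (fun j => V (s j)) (fun j => fn (s j)) f hU
    (fun j => (hV (s j)).2.1) (fun j => hfn (s j)) hlim
  obtain ⟨C, hC1, hCb⟩ := id hA
  obtain ⟨R, hR1, hR⟩ := hU.exists_radius
  obtain ⟨-, -, hclus⟩ := hC U f hf
  have hsubR : ∀ n, (V n)ᶜ ⊆ closedBall 0 R := fun n =>
    (compl_subset_compl.2 (hV n).2.1).trans hR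
  have hb : ∀ n, (fn n '' V n)ᶜ ⊆ closedBall 0 (C * R) ∧ ∀ z ∈ V n, ‖fn n z‖ ≤ C * (‖z‖ + R) :=
    fun n => hCb _ _ R (by linarith) (hfn n) (hsubR n)
  have hpre : ∀ n, ∀ E ∈ comps (V n)ᶜ, IsPreconnected (clus (V n) (fn n) E) := by
    intro n E hE
    obtain ⟨c, r, -, hcr⟩ := hdisc n E hE
    rw [hcr]
    exact (convex_closedBall c r).isPreconnected
  have hpt : ∀ z ∈ U, Tendsto (fun j => fn (s j) z) atTop (𝓝 (f z)) := fun z hz =>
    hlim.tendsto_at hz
  have himgz : ∀ z ∈ U, ∀ n, fn n z ∈ img (V n) (fn n) z := fun z hz n => by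
    simp [img_of_mem ((hV n).2.1 hz)]
  refine ⟨f, hf, fun E hE => ⟨?_, fun hgood => ?_⟩⟩
  · -- the part of every component is connected
    set Cl := clus U f E with hCl
    obtain ⟨-, hcpt, hcc, -⟩ := hclus E hE
    rw [isPreconnected_closed_iff]
    intro a a' ha ha' hsub hna hna'
    by_contra hne
    have hpick : ∀ c c' : Set ℂ, IsClosed c → IsClosed c' → Cl ⊆ c ∪ c' → (Cl ∩ c).Nonempty →
        ¬ (Cl ∩ (c ∩ c')).Nonempty → ∃ b ∈ Cl ∩ c, b ∈ bclus U f E := by
      rintro c c' hc hc' hcsub ⟨w, hw, hwc⟩ hcne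
      obtain ⟨b, hbC, hbb⟩ := hw.2
      refine ⟨b, ⟨hcc w hw hbC, ?_⟩, hbb⟩
      by_contra hbc
      have hCC : connectedComponentIn (f '' U)ᶜ w ⊆ Cl := hcc w hw
      obtain ⟨v, hv, hv'⟩ := isPreconnected_closed_iff.1 isPreconnected_connectedComponentIn c c'
        hc hc' (hCC.trans hcsub) ⟨w, mem_connectedComponentIn hw.1, hwc⟩
        ⟨b, hbC, (hcsub (hCC hbC)).resolve_left hbc⟩
      exact hcne ⟨v, hCC hv, hv'⟩
    obtain ⟨b, hb1, hbb⟩ := hpick a a' ha ha' hsub hna hne
    obtain ⟨b', hb1', hbb'⟩ := hpick a' a ha' ha (by rwa [union_comm]) hna'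
      (by rwa [inter_comm a' a])
    obtain ⟨O, O', hO, hO', hAO, hBO, hOO⟩ := SeparatedNhds.of_isCompact_isCompact
      (hcpt.inter_right ha) (hcpt.inter_right ha')
      (Set.disjoint_left.2 fun x hx hx' => hne ⟨x, hx.1, hx.2, hx'.2⟩)
    obtain ⟨q, hq, hqn⟩ := exists_near_bclus hbb
    obtain ⟨q', hq', hqn'⟩ := exists_near_bclus hbb'
    obtain ⟨ε, hε, hεO⟩ := Metric.isOpen_iff.1 hO b (hAO hb1)
    obtain ⟨ε', hε', hεO'⟩ := Metric.isOpen_iff.1 hO' b' (hBO hb1')
    choose z hzU hzq hzb using fun i : ℕ => hqn (min ε ε' / 2 / (i + 1)) (by positivity)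
    choose z' hzU' hzq' hzb' using fun i : ℕ => hqn' (min ε ε' / 2 / (i + 1)) (by positivity)
    have hevt : ∀ i, ∀ᶠ j in atTop, fn (s j) (z i) ∈ O ∧ fn (s j) (z' i) ∈ O' ∧ g E < s j := by
      intro i
      have hle : min ε ε' / 2 / ((i : ℝ) + 1) ≤ min ε ε' / 2 :=
        div_le_self (by positivity) (by linarith [Nat.cast_nonneg (α := ℝ) i])
      refine ((hpt _ (hzU i)).eventually_mem (hO.mem_nhds (hεO ?_))).and
        (((hpt _ (hzU' i)).eventually_mem (hO'.mem_nhds (hεO' ?_))).and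
          (hs.tendsto_atTop.eventually_gt_atTop (g E)))
      · rw [mem_ball]; linarith [hzb i, min_le_left ε ε']
      · rw [mem_ball]; linarith [hzb' i, min_le_right ε ε']
    obtain ⟨k, hk, hkp⟩ := extraction_forall_of_eventually hevt
    have hcommon : ∀ i, img (V (s (k i))) (fn (s (k i))) q = img (V (s (k i))) (fn (s (k i))) q' := by
      intro i
      by_cases hnt : E.Nontrivial
      · have hEF : E ∈ comps (V (s (k i)))ᶜ := by
          rw [(hV _).2.2]; exact ⟨⟨hE, hnt⟩, (hkp i).2.2⟩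
        rw [img_of_mem_comps hEF hq, img_of_mem_comps hEF hq']
      · rw [(not_nontrivial_iff.1 hnt) hq hq']
    have hex : ∀ i, ∃ (v p : ℂ), v ∈ img (V (s (k i))) (fn (s (k i))) p ∧ v ∉ O ∪ O' ∧
        (p ∈ segment ℝ (z i) q ∨ p ∈ segment ℝ (z' i) q') := by
      intro i
      set n := s (k i) with hn
      have hP : ∀ x y : ℂ, IsPreconnected (⋃ p ∈ segment ℝ x y, img (V n) (fn n) p) := fun x y =>
        img_preconnected hA hC (hfn n) (by rw [(hV n).2.2]; exact hFfin n) (hpre n)
          (convex_segment x y).isPreconnected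
      obtain ⟨v₀, hv₀⟩ := img_nonempty hC (hfn n) q
      have hu : IsPreconnected ((⋃ p ∈ segment ℝ (z i) q, img (V n) (fn n) p) ∪
          ⋃ p ∈ segment ℝ (z' i) q', img (V n) (fn n) p) :=
        IsPreconnected.union v₀ (mem_biUnion (right_mem_segment ℝ _ _) hv₀)
          (mem_biUnion (right_mem_segment ℝ _ _) (hcommon i ▸ hv₀)) (hP _ _) (hP _ _)
      by_contra hcon
      push_neg at hcon
      obtain ⟨v, -, hv⟩ := hu O O' hO hO' (by
          rintro v (hv | hv)
          · obtain ⟨p, hp, hvp⟩ := mem_iUnion₂.1 hv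
            by_contra hvn
            exact (hcon v p hvp hvn).1 hp
          · obtain ⟨p, hp, hvp⟩ := mem_iUnion₂.1 hv
            by_contra hvn
            exact (hcon v p hvp hvn).2 hp)
        ⟨_, Or.inl (mem_biUnion (left_mem_segment ℝ _ _) (himgz _ (hzU i) n)), (hkp i).1⟩
        ⟨_, Or.inr (mem_biUnion (left_mem_segment ℝ _ _) (himgz _ (hzU' i) n)), (hkp i).2.1⟩
      exact Set.disjoint_left.1 hOO hv.1 hv.2
    choose v p hvp hvn hseg using hex
    have hsmall : ∀ i, min (dist (p i) q) (dist (p i) q') ≤ min ε ε' / 2 / ((i : ℝ) + 1) := by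
      intro i
      rcases hseg i with h | h
      · refine (min_le_left _ _).trans (le_trans ?_ (hzq i).le)
        have := mem_segment_iff_wbtw.1 h
        linarith [this.dist_add_dist, dist_nonneg (x := z i) (y := p i)]
      · refine (min_le_right _ _).trans (le_trans ?_ (hzq' i).le)
        have := mem_segment_iff_wbtw.1 h
        linarith [this.dist_add_dist, dist_nonneg (x := z' i) (y := p i)]
    set P := ‖q‖ + ‖q'‖ + min ε ε' / 2 with hP
    have hpP : ∀ i, ‖p i‖ ≤ P := by
      intro i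
      have hle : min ε ε' / 2 / ((i : ℝ) + 1) ≤ min ε ε' / 2 :=
        div_le_self (by positivity) (by linarith [Nat.cast_nonneg (α := ℝ) i])
      rcases min_le_iff.1 ((hsmall i).trans hle) with h | h <;> rw [dist_eq_norm] at h
      · linarith [norm_le_norm_add_norm_sub q (p i), norm_sub_rev q (p i), norm_nonneg q']
      · linarith [norm_le_norm_add_norm_sub q' (p i), norm_sub_rev q' (p i), norm_nonneg q]
    obtain ⟨⟨p₀, w⟩, -, φ, hφ, hφl⟩ :=
      ((isCompact_closedBall (0 : ℂ) P).prod (isCompact_closedBall (0 : ℂ) (C * (P + R)))).tendsto_subseq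
        (x := fun i => (p i, v i)) fun i => ⟨mem_closedBall_zero_iff.2 (hpP i), by
          refine closedBall_subset_closedBall ?_
            (img_subset_ball hC (hfn _) (hb _) (by linarith) _ (hvp i))
          gcongr
          exact hpP i⟩
    have hp₀ : Tendsto (fun i => p (φ i)) atTop (𝓝 p₀) := (continuous_fst.tendsto _).comp hφl
    have hw : Tendsto (fun i => v (φ i)) atTop (𝓝 w) := (continuous_snd.tendsto _).comp hφl
    have hp0E : p₀ ∈ E := by
      have h0 : min (dist p₀ q) (dist p₀ q') ≤ 0 := by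
        refine le_of_tendsto_of_tendsto'
          ((hp₀.dist tendsto_const_nhds).min (hp₀.dist tendsto_const_nhds))
          (Tendsto.comp (tendsto_const_nhds.div_atTop
            (tendsto_atTop_add_const_right _ 1 tendsto_natCast_atTop_atTop)) hφ.tendsto_atTop)
          fun i => hsmall (φ i)
      rcases min_le_iff.1 h0 with h | h
      · rwa [dist_le_zero.1 h]
      · rwa [dist_le_zero.1 h]
    have hwCl : w ∈ Cl := (hchar E hE w).2
      ⟨fun i => k (φ i), fun i => p (φ i), fun i => v (φ i), hk.comp hφ, fun i => hvp _,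
        ⟨p₀, hp0E, hp₀⟩, hw⟩
    have : w ∉ O ∪ O' := (hO.union hO').isClosed_compl.mem_of_tendsto hw
      (Eventually.of_forall fun i => hvn _)
    exact this ((hsub hwCl).imp (fun h => hAO ⟨hwCl, h⟩) fun h => hBO ⟨hwCl, h⟩)
  · -- good components go to discs or points
    obtain ⟨C₀, hC0, hline⟩ := hLine
    have htest : ∀ q ∈ E, ∀ δ : ℝ, 0 < δ → ∃ ρ : ℝ, 0 < ρ ∧
        (¬ E.Nontrivial → ∀ n, ∀ x ∈ closedBall q ρ, ∀ x' ∈ closedBall q ρ,
          ∀ v ∈ img (V n) (fn n) x, ∀ v' ∈ img (V n) (fn n) x', dist v v' ≤ δ) ∧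
        (∀ n, E ∈ comps (V n)ᶜ → ∀ (c : ℂ) (r : ℝ), 0 ≤ r → clus (V n) (fn n) E = closedBall c r →
          ∀ x ∈ closedBall q ρ, ∀ v ∈ img (V n) (fn n) x, dist v c ≤ r + δ) := by
      intro q hq δ hδ
      set ε := δ ^ 2 / (C₀ * (R + 1) ^ 2) with hεd
      have hε : 0 < ε := by positivity
      have hεδ : C₀ * (R + 1) ^ 2 * ε = δ ^ 2 := by
        rw [hεd]; field_simp
      obtain ⟨φ, hφ1, hφ0, hφR, hφe, hφF⟩ := hT Uᶜ E hU.compact_compl hE hgood q hq R hR ε hε
      obtain ⟨ρ, hρ, hρφ⟩ := Metric.eventually_nhds_iff_ball.1 hφ0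
      have hX0 : ∀ x ∈ closedBall q (ρ / 2), φ x = 0 := fun x hx =>
        hρφ x (closedBall_subset_ball (by linarith) hx)
      have hfs : ∀ n, ∀ T ⊆ comps (V n)ᶜ, (∀ E' ∈ T, E' ≠ E) →
          ∑ᶠ E' ∈ T, osc φ E' ^ 2 ≤ ε := by
        intro n T hTn hne
        have hTF : T.Finite := (hFfin n).subset ((hV n).2.2 ▸ hTn)
        rw [finsum_mem_eq_finite_toFinset_sum _ hTF]
        refine hφF _ fun E' hE' => ?_
        rw [Finite.mem_toFinset] at hE'
        exact ⟨hFK n ((hV n).2.2 ▸ hTn hE'), hne E' hE'⟩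
      have hl := fun n => hline (V n) (fn n) (R + 1) φ (closedBall q (ρ / 2)) (by linarith)
        (hfn n) (by rw [(hV n).2.2]; exact hFfin n)
        ((hsubR n).trans (closedBall_subset_closedBall (by linarith))) (hdisc n) hφ1
        (fun z hz => hφR z hz) (convex_closedBall q (ρ / 2)).isPreconnected hX0
      refine ⟨ρ / 2, by positivity, fun hnt n x hx x' hx' v hv v' hv' => ?_,
        fun n hEn c r hr hcr x hx v hv => ?_⟩
      · have hne : ∀ E' ∈ comps (V n)ᶜ, E' ≠ E := fun E' hE' h =>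
          hnt (h ▸ ((hV n).2.2 ▸ hE' : E' ∈ F n).1.2)
        have := (hl n).1 ε hε.le hφe (hfs n _ Subset.rfl hne) x hx x' hx' v hv v' hv'
        rw [hεδ] at this
        exact pow_le_pow_iff_left₀ dist_nonneg hδ.le two_ne_zero |>.1 this
      · have := (hl n).2 E hEn ⟨q, mem_closedBall_self (by positivity), hq⟩ c r hr hcr ε hε.le hφe
          (hfs n _ diff_subset fun E' hE' => hE'.2) x hx v hv
        rwa [hεδ, Real.sqrt_sq hδ.le] at this
    obtain ⟨hne, hcpt, hcc, -⟩ := hclus E hE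
    by_cases hnt : E.Nontrivial
    · obtain ⟨q₀, hq₀⟩ := comps_nonempty hE
      obtain ⟨j₀, hj₀⟩ := (hs.tendsto_atTop.eventually_gt_atTop (g E)).exists_forall_of_atTop
      have hEj : ∀ j, j₀ ≤ j → E ∈ comps (V (s j))ᶜ := fun j hj => by
        rw [(hV _).2.2]; exact ⟨⟨hE, hnt⟩, hj₀ j hj⟩
      choose c r hr hcr using fun i : ℕ => hdisc (s (i + j₀)) E (hEj _ (Nat.le_add_left j₀ i))
      have hin : ∀ i, ‖c i‖ ≤ C * R ∧ r i ≤ C * R := by
        intro i
        have hsub : closedBall (c i) (r i) ⊆ closedBall 0 (C * R) := hcr i ▸ fun v hv => (hb _).1 hv.1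
        have h1 := mem_closedBall_zero_iff.1 (hsub (mem_closedBall_self (hr i)))
        refine ⟨h1, ?_⟩
        have h2 := mem_closedBall_zero_iff.1 (hsub (a := c i + (r i : ℂ))
          (by rw [mem_closedBall, dist_eq_norm, add_sub_cancel_left, Complex.norm_of_nonneg (hr i)]))
        have h3 := mem_closedBall_zero_iff.1 (hsub (a := c i - (r i : ℂ))
          (by rw [mem_closedBall, dist_eq_norm, sub_sub_cancel_left, norm_neg,
            Complex.norm_of_nonneg (hr i)]))
        have h4 := norm_sub_le (c i + (r i : ℂ)) (c i - (r i : ℂ))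
        rw [show c i + (r i : ℂ) - (c i - (r i : ℂ)) = ((2 * r i : ℝ) : ℂ) by push_cast; ring,
          Complex.norm_of_nonneg (by linarith [hr i])] at h4
        linarith
      obtain ⟨⟨c₀, r₀⟩, hcr₀, φ, hφ, hφl⟩ :=
        ((isCompact_closedBall (0 : ℂ) (C * R)).prod (isCompact_Icc (a := (0 : ℝ)) (b := C * R))).tendsto_subseq
          (x := fun i => (c i, r i)) fun i =>
            ⟨mem_closedBall_zero_iff.2 (hin i).1, hr i, (hin i).2⟩
      have hc₀ : Tendsto (fun i => c (φ i)) atTop (𝓝 c₀) := (continuous_fst.tendsto _).comp hφl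
      have hr₀' : Tendsto (fun i => r (φ i)) atTop (𝓝 r₀) := (continuous_snd.tendsto _).comp hφl
      have hr₀ : 0 ≤ r₀ := hcr₀.2.1
      refine ⟨c₀, r₀, hr₀, Subset.antisymm ?_ ?_⟩
      · have hbd : ∀ b ∈ bclus U f E, dist b c₀ ≤ r₀ := by
          intro b hbb
          obtain ⟨q, hq, hqn⟩ := exists_near_bclus hbb
          refine le_of_forall_pos_le_add fun δ hδ => ?_
          obtain ⟨ρ, hρ, -, hρ2⟩ := htest q hq (δ / 2) (by linarith)
          obtain ⟨z, hzU, hzq, hzb⟩ := hqn (min ρ (δ / 2)) (lt_min hρ (by linarith))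
          have h := dist_le_of_tendsto (x := fun i => fn (s (φ i + j₀)) z - c (φ i)) (b := 0)
            (B := fun i => r (φ i) + δ / 2)
            (((hpt z hzU).comp ((tendsto_add_atTop_nat j₀).comp hφ.tendsto_atTop)).sub hc₀)
            (hr₀'.add_const (δ / 2))
            (Eventually.of_forall fun i => by
              rw [dist_zero_right, ← dist_eq_norm]
              exact hρ2 _ (hEj _ (Nat.le_add_left _ _)) _ _ (hr _) (hcr _) z
                ((hzq.trans_le (min_le_left _ _)).le) _ (himgz z hzU _))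
          rw [dist_zero_right, ← dist_eq_norm] at h
          linarith [dist_triangle b (f z) c₀, dist_comm b (f z), min_le_right ρ (δ / 2)]
        intro w hw
        obtain ⟨m, hm, hmax⟩ := hcpt.exists_isMaxOn hne
          (continuous_id.dist (continuous_const (y := c₀))).continuousOn
        refine mem_closedBall.2 (le_trans (hmax hw) ?_)
        show dist m c₀ ≤ r₀
        by_cases hmc : m = c₀
        · simp [hmc, hr₀]
        refine hbd m (mem_bclus_of_mem_closure hC hf hE hm ?_)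
        rw [Metric.mem_closure_iff]
        intro ε hε
        by_contra hcon
        push_neg at hcon
        set t : ℝ := ε / 2 / dist m c₀ with ht
        have hd : 0 < dist m c₀ := dist_pos.2 hmc
        have htd : t * dist m c₀ = ε / 2 := by rw [ht]; field_simp
        set y := m + (t : ℂ) * (m - c₀) with hy
        have ht0 : 0 < t := by positivity
        have hym : dist y m = ε / 2 := by
          rw [hy, dist_eq_norm, add_sub_cancel_left, norm_mul, Complex.norm_of_nonneg ht0.le,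
            ← dist_eq_norm, htd]
        have hball : ball m ε ⊆ connectedComponentIn (f '' U)ᶜ m :=
          (convex_ball m ε).isPreconnected.subset_connectedComponentIn (mem_ball_self hε)
            fun x hx hxU => absurd (hcon x hxU) (by rw [mem_ball, dist_comm] at hx; linarith)
        have hyCl : y ∈ clus U f E := hcc m hm (hball (by rw [mem_ball, hym]; linarith))
        have h1 : dist y c₀ ≤ dist m c₀ := hmax hyCl
        rw [hy, dist_eq_norm, dist_eq_norm, show m + (t : ℂ) * (m - c₀) - c₀ =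
          ((1 + t : ℝ) : ℂ) * (m - c₀) by push_cast; ring, norm_mul,
          Complex.norm_of_nonneg (by linarith), ← dist_eq_norm] at h1
        nlinarith
      · intro w hw
        refine (hchar E hE w).2 ⟨fun i => φ i + j₀, fun _ => q₀,
          fun i => c (φ i) + ((r (φ i) / r₀ : ℝ) : ℂ) * (w - c₀),
          fun a b hab => Nat.add_lt_add_right (hφ hab) _, fun i => ?_,
          ⟨q₀, hq₀, tendsto_const_nhds⟩, ?_⟩
        · rw [img_of_mem_comps (hEj _ (Nat.le_add_left _ _)) hq₀, hcr, mem_closedBall,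
            dist_eq_norm, add_sub_cancel_left, norm_mul,
            Complex.norm_of_nonneg (div_nonneg (hr _) hr₀), ← dist_eq_norm]
          rcases eq_or_lt_of_le hr₀ with h0 | h0
          · simp [← h0, hr]
          · rw [div_mul_eq_mul_div, div_le_iff₀ h0]
            exact mul_le_mul_of_nonneg_left hw (hr _)
        · have := hc₀.add ((((hr₀'.div_const r₀)).ofReal).mul_const (w - c₀))
          convert this using 2
          rcases eq_or_lt_of_le hr₀ with h0 | h0
          · have : w = c₀ := dist_le_zero.1 (h0 ▸ hw)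
            simp [this]
          · simp [h0.ne']
    · obtain ⟨b, hbb⟩ := bclus_nonempty_of_clus hne
      obtain ⟨q, hq, hqn⟩ := exists_near_bclus hbb
      obtain ⟨c, hc⟩ := hne
      refine ⟨c, 0, le_rfl, ?_⟩
      rw [closedBall_zero]
      refine Subset.antisymm (fun w hw => ?_) (singleton_subset_iff.2 hc)
      refine eq_of_forall_dist_le fun δ hδ => ?_
      obtain ⟨ρ, hρ, hρ1, -⟩ := htest q hq (δ / 2) (by linarith)
      obtain ⟨z, hzU, hzq, -⟩ := hqn ρ hρ
      have key : ∀ w' ∈ clus U f E, dist w' (f z) ≤ δ / 2 := by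
        intro w' hw'
        obtain ⟨t, p, v, ht, hv, ⟨q', hq', hp⟩, hvw⟩ := (hchar E hE w').1 hw'
        obtain rfl : q' = q := (not_nontrivial_iff.1 hnt) hq' hq
        refine le_of_tendsto (hvw.dist ((hpt z hzU).comp ht.tendsto_atTop)) ?_
        filter_upwards [hp.eventually_mem (closedBall_mem_nhds q' hρ)] with j hj
        exact hρ1 hnt _ _ hj z hzq.le _ (hv j) _ (himgz z hzU _)
      linarith [key w hw, key c hc, dist_triangle_right w c (f z)]

end Vale.Agent.P116.Pack
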