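import Vale.Agent.P116.Pack.Basic

/-!
P116 Pack: test functions at the points of good components (`TestStmt`).

The test function is the mean of `m` radial steps around the point, on rings so sparse that no
other component meets two of them: a component that meets the ring of radius `r` and a much
smaller one has diameter at least `r / 2`, so it is one of finitely many, all missing the point.
-/

noncomputable section

namespace Vale.Agent.P116.Pack

open Set Filter Metric MeasureTheory Function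
open scoped Topology BigOperators

/-- The radial step. -/
def step (w : ℂ) : ℝ := Real.smoothTransition ((‖w‖ ^ 2 - 1) / 3)

lemma contDiff_step : ContDiff ℝ 1 step :=
  Real.smoothTransition.contDiff.comp (((contDiff_norm_sq ℝ).sub contDiff_const).div_const 3)

lemma step_of_le {w : ℂ} (h : ‖w‖ ≤ 1) : step w = 0 :=
  Real.smoothTransition.zero_of_nonpos (by nlinarith [norm_nonneg w])

lemma step_of_ge {w : ℂ} (h : 2 ≤ ‖w‖) : step w = 1 :=
  Real.smoothTransition.one_of_one_le (by nlinarith)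

lemma exists_step_lipschitz : ∃ L : ℝ, 1 ≤ L ∧ (∀ w, ‖fderiv ℝ step w‖ ≤ L) ∧
    ∀ x y : ℂ, |step x - step y| ≤ L * ‖x - y‖ := by
  have hcs : HasCompactSupport (fderiv ℝ step) := by
    refine HasCompactSupport.intro (isCompact_closedBall (0 : ℂ) 2) fun w hw => ?_
    rw [mem_closedBall_zero_iff, not_le] at hw
    have hev : step =ᶠ[𝓝 w] fun _ => (1 : ℝ) := by
      filter_upwards [(isOpen_lt continuous_const continuous_norm).mem_nhds hw] with v hv
      exact step_of_ge (le_of_lt hv)
    simp [hev.fderiv_eq]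
  obtain ⟨L, hL⟩ := hcs.exists_bound_of_continuous (contDiff_step.continuous_fderiv one_ne_zero)
  refine ⟨max L 1, le_max_right _ _, fun w => (hL w).trans (le_max_left _ _), fun x y => ?_⟩
  rw [← Real.norm_eq_abs]
  exact convex_univ.norm_image_sub_le_of_norm_fderiv_le
    (fun v _ => contDiff_step.differentiable one_ne_zero v)
    (fun v _ => (hL v).trans (le_max_left _ _)) (mem_univ y) (mem_univ x)

/-- The step on the ring of radius `r` around `q`. -/
def ringStep (q : ℂ) (r : ℝ) (z : ℂ) : ℝ := step (r⁻¹ • (z - q))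

variable {q z : ℂ} {r : ℝ}

lemma contDiff_ringStep (q : ℂ) (r : ℝ) : ContDiff ℝ 1 (ringStep q r) :=
  contDiff_step.comp ((contDiff_id.sub contDiff_const).const_smul r⁻¹)

lemma norm_scaled (hr : 0 < r) : ‖r⁻¹ • (z - q)‖ = dist z q / r := by
  rw [norm_smul, Real.norm_of_nonneg (by positivity), dist_eq_norm, inv_mul_eq_div]

lemma ringStep_of_le (hr : 0 < r) (h : dist z q ≤ r) : ringStep q r z = 0 :=
  step_of_le (by rw [norm_scaled hr, div_le_one hr]; exact h)

lemma ringStep_of_ge (hr : 0 < r) (h : 2 * r ≤ dist z q) : ringStep q r z = 1 :=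
  step_of_ge (by rw [norm_scaled hr, le_div_iff₀ hr]; exact h)

lemma fderiv_ringStep_eq_zero (hr : 0 < r) (hz : z ∉ ring2 q r) :
    fderiv ℝ (ringStep q r) z = 0 := by
  have hd : Continuous fun y : ℂ => dist y q := continuous_id.dist continuous_const
  simp only [ring2, mem_ofPred_eq, not_and_or, not_le] at hz
  rcases hz with h | h
  · have hev : ringStep q r =ᶠ[𝓝 z] fun _ => (0 : ℝ) := by
      filter_upwards [(isOpen_lt hd continuous_const).mem_nhds h] with y hy
      exact ringStep_of_le hr (le_of_lt hy)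
    simp [hev.fderiv_eq]
  · have hev : ringStep q r =ᶠ[𝓝 z] fun _ => (1 : ℝ) := by
      filter_upwards [(isOpen_lt continuous_const hd).mem_nhds h] with y hy
      exact ringStep_of_ge hr (le_of_lt hy)
    simp [hev.fderiv_eq]

lemma norm_fderiv_ringStep {L : ℝ} (hL : ∀ w, ‖fderiv ℝ step w‖ ≤ L) (hr : 0 < r) (z : ℂ) :
    ‖fderiv ℝ (ringStep q r) z‖ ≤ L / r := by
  have h : HasFDerivAt (ringStep q r)
      ((fderiv ℝ step (r⁻¹ • (z - q))).comp (r⁻¹ • ContinuousLinearMap.id ℝ ℂ)) z :=
    (contDiff_step.differentiable one_ne_zero _).hasFDerivAt.comp z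
      (((hasFDerivAt_id z).sub_const q).const_smul r⁻¹)
  rw [h.fderiv, div_eq_mul_inv]
  refine (ContinuousLinearMap.opNorm_comp_le _ _).trans ?_
  gcongr
  · exact (norm_nonneg _).trans (hL 0)
  · exact hL _
  · rw [norm_smul, Real.norm_of_nonneg (by positivity), ContinuousLinearMap.norm_id, mul_one]

/-- Oscillation of one step on a connected set: zero off its ring, small for small sets. -/
lemma ringStep_sub_le {L : ℝ} (hL1 : 1 ≤ L) (hLip : ∀ x y : ℂ, |step x - step y| ≤ L * ‖x - y‖)
    (hr : 0 < r) {E : Set ℂ} (hEb : Bornology.IsBounded E) {x y : ℂ} (hx : x ∈ E) (hy : y ∈ E) :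
    |ringStep q r x - ringStep q r y| ≤ L * (min (diam E) r / r) := by
  rw [← min_div_div_right hr.le, mul_min_of_nonneg _ _ (by linarith : (0 : ℝ) ≤ L), div_self hr.ne']
  refine le_min ?_ ?_
  · refine (hLip _ _).trans ?_
    gcongr
    rw [← smul_sub, sub_sub_sub_cancel_right, norm_smul, Real.norm_of_nonneg (by positivity),
      ← dist_eq_norm, inv_mul_eq_div]
    gcongr
    exact dist_le_diam_of_mem hEb hx hy
  · refine le_trans ?_ (le_of_le_of_eq hL1 (mul_one L).symm)
    rw [abs_sub_le_iff]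
    constructor <;> unfold ringStep step <;>
      linarith [Real.smoothTransition.nonneg ((‖r⁻¹ • (x - q)‖ ^ 2 - 1) / 3),
        Real.smoothTransition.le_one ((‖r⁻¹ • (x - q)‖ ^ 2 - 1) / 3),
        Real.smoothTransition.nonneg ((‖r⁻¹ • (y - q)‖ ^ 2 - 1) / 3),
        Real.smoothTransition.le_one ((‖r⁻¹ • (y - q)‖ ^ 2 - 1) / 3)]

lemma ringStep_const {E : Set ℂ} (hr : 0 < r) (hE : IsPreconnected E)
    (hmiss : ¬ (E ∩ ring2 q r).Nonempty) {x y : ℂ} (hx : x ∈ E) (hy : y ∈ E) :
    ringStep q r x = ringStep q r y := by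
  have hoc := (hE.image (fun z => dist z q)
    (continuous_id.dist continuous_const).continuousOn).ordConnected
  have hside : ∀ v ∈ E, dist v q < r ∨ 2 * r < dist v q := by
    intro v hv
    by_contra h
    rw [not_or, not_lt, not_lt] at h
    exact hmiss ⟨v, hv, h.1, h.2⟩
  have hcross : ∀ a ∈ E, ∀ b ∈ E, dist a q < r → ¬ 2 * r < dist b q := by
    intro a ha b hb h1 h2
    obtain ⟨v, hv, hvd⟩ := hoc.out (mem_image_of_mem _ ha) (mem_image_of_mem _ hb)
      (show r ∈ Icc (dist a q) (dist b q) from ⟨h1.le, by linarith⟩)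
    exact hmiss ⟨v, hv, hvd.ge, by linarith [hvd.le]⟩
  rcases hside x hx with h | h <;> rcases hside y hy with h' | h'
  · rw [ringStep_of_le hr h.le, ringStep_of_le hr h'.le]
  · exact absurd h' (hcross x hx y hy h)
  · exact absurd h (hcross y hy x hx h')
  · rw [ringStep_of_ge hr h.le, ringStep_of_ge hr h'.le]

/-- Sparse radii: no other component meets two of the rings. -/
lemma exists_sparse {K E : Set ℂ} (hK : IsCompact K) (hE : E ∈ comps K) (hq : q ∈ E) {C : ℝ}
    (hC : ∀ r₀ : ℝ, 0 < r₀ → ∃ r : ℝ, 0 < r ∧ r < r₀ ∧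
      ∀ F : Finset (Set ℂ), (∀ E' ∈ F, E' ∈ comps K ∧ E' ≠ E ∧ (E' ∩ ring2 q r).Nonempty) →
        ∑ E' ∈ F, min (diam E') r ^ 2 ≤ C * r ^ 2)
    (m : ℕ) : ∀ δ : ℝ, 0 < δ → ∃ r : Fin m → ℝ,
      (∀ i, 0 < r i ∧ r i < δ ∧
        ∀ F : Finset (Set ℂ), (∀ E' ∈ F, E' ∈ comps K ∧ E' ≠ E ∧ (E' ∩ ring2 q (r i)).Nonempty) →
          ∑ E' ∈ F, min (diam E') (r i) ^ 2 ≤ C * r i ^ 2) ∧
      (∀ i j z, z ∈ ring2 q (r i) → z ∈ ring2 q (r j) → i = j) ∧
      ∀ E' ∈ comps K, E' ≠ E → ∀ i j, (E' ∩ ring2 q (r i)).Nonempty →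
        (E' ∩ ring2 q (r j)).Nonempty → i = j := by
  induction m with
  | zero => exact fun δ _ => ⟨fun i => i.elim0, fun i => i.elim0, fun i => i.elim0,
      fun _ _ _ i => i.elim0⟩
  | succ m ih =>
    intro δ hδ
    obtain ⟨r, hr, hrδ, hrF⟩ := hC δ hδ
    set T := {E' | E' ∈ comps K ∧ E' ≠ E ∧ (E' ∩ ring2 q r).Nonempty ∧ r / 2 ≤ diam E'} with hT
    have hTfin : T.Finite := by
      by_contra hinf
      obtain ⟨n, hn⟩ := exists_nat_gt (4 * C)
      obtain ⟨F, hFT, hFc⟩ := Set.Infinite.exists_subset_card_eq hinf n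
      have h1 := hrF F fun E' hE' => ⟨(hFT hE').1, (hFT hE').2.1, (hFT hE').2.2.1⟩
      have h2 : ∑ _E' ∈ F, (r / 2) ^ 2 ≤ ∑ E' ∈ F, min (diam E') r ^ 2 :=
        Finset.sum_le_sum fun E' hE' =>
          pow_le_pow_left₀ (by linarith) (le_min (hFT hE').2.2.2 (by linarith)) 2
      rw [Finset.sum_const, hFc, nsmul_eq_mul] at h2
      nlinarith [mul_pos hr hr]
    have hev : ∀ᶠ δ' : ℝ in 𝓝[>] 0, 0 < δ' ∧ 4 * δ' < r ∧ δ' < δ ∧
        ∀ E' ∈ T, ∀ z ∈ E', 2 * δ' < dist z q := by
      have hlt : ∀ c : ℝ, 0 < c → ∀ᶠ δ' : ℝ in 𝓝[>] 0, δ' < c :=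
        fun c hc => nhdsWithin_le_nhds (eventually_lt_nhds hc)
      have hT' : ∀ᶠ δ' : ℝ in 𝓝[>] 0, ∀ E' ∈ T, ∀ z ∈ E', 2 * δ' < dist z q := by
        refine hTfin.eventually_all.2 fun E' hE' => ?_
        have hqE' : q ∈ E'ᶜ := Set.disjoint_left.1 (comps_disjoint hE hE'.1 hE'.2.1) hq
        obtain ⟨ρ, hρ, hball⟩ :=
          Metric.isOpen_iff.1 (comps_compact hK hE'.1).isClosed.isOpen_compl q hqE'
        filter_upwards [hlt (ρ / 2) (half_pos hρ)] with δ' hδ' z hz
        by_contra h
        exact hball (mem_ball.2 (by linarith : dist z q < ρ)) hz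
      filter_upwards [self_mem_nhdsWithin, hlt (r / 4) (by linarith), hlt δ hδ, hT']
        with δ' h1 h2 h3 h4
      exact ⟨h1, by linarith, h3, h4⟩
    obtain ⟨δ', hδ', hδr, hδδ, hTd⟩ := hev.exists
    obtain ⟨rs, hrs, hdis, hmeet⟩ := ih δ' hδ'
    refine ⟨Fin.cons r rs, Fin.cases ⟨hr, hrδ, hrF⟩
      (fun i => by simpa using ⟨(hrs i).1, (hrs i).2.1.trans hδδ, (hrs i).2.2⟩), ?_, ?_⟩
    · have key : ∀ i z, z ∈ ring2 q r → z ∉ ring2 q (rs i) := fun i z h h' => by
        linarith [h.1, h'.2, (hrs i).1, (hrs i).2.1]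
      intro i j z
      refine Fin.cases ?_ (fun i => ?_) i <;> refine Fin.cases ?_ (fun j => ?_) j <;>
        simp only [Fin.cons_zero, Fin.cons_succ] <;> intro h h'
      · trivial
      · exact absurd h' (key j z h)
      · exact absurd h (key i z h')
      · exact congrArg Fin.succ (hdis i j z h h')
    · intro E' hE' hne
      have key : ∀ i, (E' ∩ ring2 q r).Nonempty → ¬ (E' ∩ ring2 q (rs i)).Nonempty := by
        rintro i ⟨a, ha, har⟩ ⟨b, hb, hbr⟩
        have hdiam : r / 2 ≤ diam E' := by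
          refine le_trans ?_ (dist_le_diam_of_mem (comps_compact hK hE').isBounded ha hb)
          linarith [dist_triangle a b q, har.1, hbr.2, (hrs i).2.1, dist_comm a b]
        linarith [hTd E' ⟨hE', hne, ⟨a, ha, har⟩, hdiam⟩ b hb, hbr.2, (hrs i).2.1]
      intro i j
      refine Fin.cases ?_ (fun i => ?_) i <;> refine Fin.cases ?_ (fun j => ?_) j <;>
        simp only [Fin.cons_zero, Fin.cons_succ] <;> intro h h'
      · trivial
      · exact absurd h' (key j h)
      · exact absurd h (key i h')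
      · exact congrArg Fin.succ (hmeet E' hE' hne i j h h')

theorem test_local {K E : Set ℂ} (hK : IsCompact K) (hE : E ∈ comps K) (hgood : Good K E) {q : ℂ}
    (hq : q ∈ E) {δ ε : ℝ} (hδ : 0 < δ) (hε : 0 < ε) : ∃ φ : ℂ → ℝ, ContDiff ℝ 1 φ ∧
      (∀ᶠ z in 𝓝 q, φ z = 0) ∧ (∀ z, δ ≤ dist z q → φ z = 1) ∧ energy φ ≤ ε ∧
        ∀ F : Finset (Set ℂ), (∀ E' ∈ F, E' ∈ comps K ∧ E' ≠ E) →
          ∑ E' ∈ F, osc φ E' ^ 2 ≤ ε := by
  obtain ⟨C₁, hC₁⟩ := hgood q hq
  obtain ⟨L, hL1, hLd, hLip⟩ := exists_step_lipschitz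
  obtain ⟨m, hm⟩ := exists_nat_gt ((4 * Real.pi * L ^ 2 + L ^ 2 * max C₁ 0) / ε)
  have hm0 : (0 : ℝ) < m := lt_of_le_of_lt (by positivity) hm
  have hbound : (4 * Real.pi * L ^ 2 + L ^ 2 * max C₁ 0) / m ≤ ε := by
    rw [div_le_iff₀ hm0]
    rw [div_lt_iff₀ hε] at hm
    linarith
  obtain ⟨r, hr, hdis, hmeet⟩ := exists_sparse hK hE hq hC₁ m (δ / 2) (by linarith)
  set φ : ℂ → ℝ := fun z => (∑ i, ringStep q (r i) z) / m with hφ
  refine ⟨φ, (ContDiff.sum fun i _ => contDiff_ringStep q (r i)).div_const _, ?_, ?_, ?_, ?_⟩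
  · have : ∀ᶠ z in 𝓝 q, ∀ i, dist z q ≤ r i := eventually_all.2 fun i =>
      eventually_of_mem (closedBall_mem_nhds q (hr i).1) fun z hz => hz
    filter_upwards [this] with z hz
    simp [hφ, fun i => ringStep_of_le (hr i).1 (hz i)]
  · intro z hz
    have h1 : ∀ i, ringStep q (r i) z = 1 := fun i =>
      ringStep_of_ge (hr i).1 (by linarith [(hr i).2.1])
    simp [hφ, h1, hm0.ne']
  · set g : ℂ → ℝ := fun z =>
      ∑ i, (closedBall q (2 * r i)).indicator (fun _ => (L / r i) ^ 2 / (m : ℝ) ^ 2) z with hg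
    have hle : ∀ z, ‖fderiv ℝ φ z‖ ^ 2 ≤ g z := by
      intro z
      have hterm : ∀ i, 0 ≤ (closedBall q (2 * r i)).indicator
          (fun _ => (L / r i) ^ 2 / (m : ℝ) ^ 2) z := fun i => indicator_nonneg (fun _ _ => by positivity) z
      have hd : fderiv ℝ φ z = (m : ℝ)⁻¹ • ∑ i, fderiv ℝ (ringStep q (r i)) z := by
        have h : HasFDerivAt φ ((m : ℝ)⁻¹ • ∑ i, fderiv ℝ (ringStep q (r i)) z) z := by
          have h1 := (HasFDerivAt.fun_sum (u := Finset.univ) fun i (_ : i ∈ Finset.univ) =>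
            ((contDiff_ringStep q (r i)).differentiable one_ne_zero z).hasFDerivAt).const_smul
              (m : ℝ)⁻¹
          simpa [hφ, div_eq_inv_mul, Pi.smul_def] using h1
        exact h.fderiv
      rw [hd, norm_smul, norm_inv, Real.norm_natCast, mul_pow, hg]
      by_cases hz : ∃ i, z ∈ ring2 q (r i)
      · obtain ⟨i, hi⟩ := hz
        rw [Finset.sum_eq_single i (fun j _ hji => fderiv_ringStep_eq_zero (hr j).1
          fun hj => hji (hdis j i z hj hi)) (by simp)]
        refine le_trans ?_ (Finset.single_le_sum (fun j _ => hterm j) (Finset.mem_univ i))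
        rw [indicator_of_mem (mem_closedBall.2 hi.2), inv_pow, inv_mul_eq_div]
        gcongr
        exact norm_fderiv_ringStep hLd (hr i).1 z
      · push Not at hz
        rw [Finset.sum_eq_zero fun i _ => fderiv_ringStep_eq_zero (hr i).1 (hz i)]
        simpa using Finset.sum_nonneg fun j _ => hterm j
    have hint : ∀ i, Integrable ((closedBall q (2 * r i)).indicator
        fun _ => (L / r i) ^ 2 / (m : ℝ) ^ 2) := fun i =>
      (integrable_indicator_iff measurableSet_closedBall).2
        (integrableOn_const measure_closedBall_lt_top.ne)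
    calc energy φ ≤ ∫ z, g z :=
          integral_mono_of_nonneg (.of_forall fun z => by positivity)
            (integrable_finsetSum _ fun i _ => hint i) (.of_forall hle)
      _ = ∑ _i : Fin m, 4 * Real.pi * L ^ 2 / (m : ℝ) ^ 2 := by
          rw [hg, integral_finsetSum _ fun i _ => hint i]
          refine Finset.sum_congr rfl fun i _ => ?_
          rw [integral_indicator_const _ measurableSet_closedBall, measureReal_def,
            Complex.volume_closedBall]
          have := (hr i).1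
          simp [this.le]
          field_simp
          ring
      _ = 4 * Real.pi * L ^ 2 / m := by
          rw [Finset.sum_const, Finset.card_univ, Fintype.card_fin, nsmul_eq_mul]; field_simp
      _ ≤ ε := le_trans (by gcongr; exact le_add_of_nonneg_right (by positivity)) hbound
  · intro F hF
    classical
    have hosc : ∀ E' ∈ F, osc φ E' ^ 2 ≤ ∑ i,
        if (E' ∩ ring2 q (r i)).Nonempty then (L * (min (diam E') (r i) / r i) / m) ^ 2 else 0 := by
      intro E' hE'
      obtain ⟨hE'K, hne⟩ := hF E' hE'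
      have hb := (comps_compact hK hE'K).isBounded
      have hdiff : ∀ x ∈ E', ∀ y ∈ E', dist (φ x) (φ y) ≤
          (∑ i, |ringStep q (r i) x - ringStep q (r i) y|) / m := by
        intro x _ y _
        rw [Real.dist_eq, hφ]
        dsimp only
        rw [← sub_div, ← Finset.sum_sub_distrib, abs_div, abs_of_pos hm0]
        gcongr
        exact Finset.abs_sum_le_sum_abs _ _
      by_cases h : ∃ i, (E' ∩ ring2 q (r i)).Nonempty
      · obtain ⟨i, hi⟩ := h
        have hb0 : 0 ≤ L * (min (diam E') (r i) / r i) / m :=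
          div_nonneg (mul_nonneg (by linarith)
            (div_nonneg (le_min diam_nonneg (hr i).1.le) (hr i).1.le)) hm0.le
        refine le_trans ?_ (Finset.single_le_sum (fun j _ => by positivity) (Finset.mem_univ i))
        rw [if_pos hi]
        refine pow_le_pow_left₀ diam_nonneg (diam_le_of_forall_dist_le hb0 ?_) 2
        rintro _ ⟨x, hx, rfl⟩ _ ⟨y, hy, rfl⟩
        refine (hdiff x hx y hy).trans ?_
        gcongr
        rw [Finset.sum_eq_single i (fun j _ hji => by
          rw [ringStep_const (hr j).1 (comps_preconnected hE'K)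
            (fun hj => hji (hmeet E' hE'K hne j i hj hi)) hx hy, sub_self, abs_zero]) (by simp)]
        exact ringStep_sub_le hL1 hLip (hr i).1 hb hx hy
      · push Not at h
        have h0 : osc φ E' = 0 := by
          refine le_antisymm (diam_le_of_forall_dist_le le_rfl ?_) diam_nonneg
          rintro _ ⟨x, hx, rfl⟩ _ ⟨y, hy, rfl⟩
          refine (hdiff x hx y hy).trans_eq ?_
          rw [Finset.sum_eq_zero fun i _ => ?_, zero_div]
          rw [ringStep_const (hr i).1 (comps_preconnected hE'K)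
            (by rw [h i]; exact not_nonempty_empty) hx hy, sub_self, abs_zero]
        rw [h0, zero_pow two_ne_zero]
        exact Finset.sum_nonneg fun i _ => by positivity
    calc ∑ E' ∈ F, osc φ E' ^ 2
        ≤ ∑ E' ∈ F, ∑ i, if (E' ∩ ring2 q (r i)).Nonempty then
            (L * (min (diam E') (r i) / r i) / m) ^ 2 else 0 := Finset.sum_le_sum hosc
      _ = ∑ i, (L ^ 2 / ((m : ℝ) ^ 2 * r i ^ 2)) *
            ∑ E' ∈ F.filter (fun E' => (E' ∩ ring2 q (r i)).Nonempty), min (diam E') (r i) ^ 2 := by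
          rw [Finset.sum_comm]
          refine Finset.sum_congr rfl fun i _ => ?_
          rw [← Finset.sum_filter, Finset.mul_sum]
          refine Finset.sum_congr rfl fun E' _ => ?_
          have := (hr i).1
          field_simp
      _ ≤ ∑ _i : Fin m, L ^ 2 * max C₁ 0 / (m : ℝ) ^ 2 := by
          refine Finset.sum_le_sum fun i _ => ?_
          have := (hr i).1
          have h1 := (hr i).2.2 (F.filter fun E' => (E' ∩ ring2 q (r i)).Nonempty) fun E' hE' =>
            ⟨(hF E' (Finset.mem_filter.1 hE').1).1, (hF E' (Finset.mem_filter.1 hE').1).2,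
              (Finset.mem_filter.1 hE').2⟩
          calc _ ≤ L ^ 2 / ((m : ℝ) ^ 2 * r i ^ 2) * (max C₁ 0 * r i ^ 2) := by
                gcongr
                exact h1.trans (by gcongr; exact le_max_left _ _)
            _ = _ := by field_simp
      _ = L ^ 2 * max C₁ 0 / m := by
          rw [Finset.sum_const, Finset.card_univ, Fintype.card_fin, nsmul_eq_mul]; field_simp
      _ ≤ ε := le_trans (by gcongr; exact le_add_of_nonneg_left (by positivity)) hbound

theorem test : TestStmt := by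
  intro K E hK hE hgood q hq R hKR ε hε
  obtain ⟨φ, h1, h2, h3, h4, h5⟩ := test_local hK hE hgood hq one_pos hε
  refine ⟨φ, h1, h2, fun z hz => h3 z ?_, h4, h5⟩
  have hqR : ‖q‖ ≤ R := mem_closedBall_zero_iff.1 (hKR (comps_subset hE hq))
  rw [dist_eq_norm]
  linarith [norm_sub_norm_le z q]

end Vale.Agent.P116.Pack
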